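import Vale.Agent.P073.H950.Shell

/-!
# P073, H950: domes in a cell with a chart

`C.dome m k s z = min (s (ang z)) (ram m k (rho z))` on the shell, `-1` on the core: conical,
continuous, `= s` on the boundary; `ℓ¹` Lipschitz bound for one laminar ranked family.
-/

open Set Metric Topology Filter

namespace P073.H950

open P073

theorem conicalOn_ram (m k : ℕ) {X : Set ℝ} (hX : ConicalSet X) : ConicalOn (ram m k) X := by
  have h0 : ConicalOn (fun ρ : ℝ => ρ) X := conicalOn_linear (LinearMap.id (R := ℝ) (M := ℝ)) hX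
  have h1 : ConicalOn (fun ρ : ℝ => 2 * ((ρ - al m k) / uu m) - 1) X := by
    refine (((h0.const_smul (2 / uu m)).sub
      (conicalOn_const (2 / uu m * al m k + 1) hX))).congr fun ρ _ => ?_
    simp only [smul_eq_mul]
    have := (uu_pos m).ne'
    field_simp
    ring
  have h2 : Continuous fun ρ : ℝ => 2 * ((ρ - al m k) / uu m) - 1 := by
    have := (uu_pos m).ne'
    fun_prop
  exact (conicalOn_const (-1:ℝ) hX).rmax ((conicalOn_const (1:ℝ) hX).rmin h1
    continuousOn_const h2.continuousOn) continuousOn_const (continuous_const.min h2).continuousOn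

namespace Chart

variable {E : Type*} [NormedAddCommGroup E] [NormedSpace ℝ E] {n : ℕ} {Q S : Set E}
  (C : Chart n Q S)

include C in
theorem conicalSet_Q : ConicalSet Q := C.χ.conicalSet_right

theorem conicalSet_sh : ConicalSet C.sh := C.polar.conicalSet_right

theorem conicalSet_core : ConicalSet C.core :=
  C.χ.conicalSet_image (Convex.conicalSet (convex_closedBall _ _))
    (closedBall_subset_closedBall (by norm_num))

theorem continuousOn_ang : ContinuousOn C.ang C.sh := by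
  refine (continuous_fst.comp_continuousOn C.polar.cont_inv).congr fun z _ => ?_
  rw [Function.comp_apply, polar_inv]

theorem continuousOn_rho : ContinuousOn C.rho Q := by
  have h1 : ContinuousOn (fun z => ‖C.χ.invFun z‖) Q := C.χ.cont_inv.norm
  exact (continuousOn_const.mul h1).sub continuousOn_const

theorem conicalOn_ang : ConicalOn C.ang C.sh := by
  have h := C.polar.conical_inv
  have h1 : ConicalOn (fun p : E × ℝ => p.1) (S ×ˢ Icc (0:ℝ) 1) :=
    conicalOn_fst C.polar.conicalSet_left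
  refine (ConicalOn.comp (g := fun p : E × ℝ => p.1) h1 h C.polar.mapsTo_inv
    C.polar.cont_inv).congr fun z _ => ?_
  show C.ang z = (C.polar.invFun z).1
  rw [polar_inv]

theorem conicalOn_rho : ConicalOn C.rho Q := by
  have h1 : ConicalOn (fun z => ‖C.χ.invFun z‖) Q :=
    ConicalOn.comp (g := fun x : Fin n → ℝ => ‖x‖)
      (conicalOn_norm_pi n (Convex.conicalSet (convex_closedBall (0 : Fin n → ℝ) 1)))
      C.χ.conical_inv C.χ.mapsTo_inv C.χ.cont_inv
  refine ((h1.const_smul (2:ℝ)).sub (conicalOn_const (1:ℝ) C.conicalSet_Q)).congr fun z _ => ?_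
  simp only [smul_eq_mul, rho]

open Classical in
/-- the dome function -/
noncomputable def dome (m k : ℕ) (s : E → ℝ) (z : E) : ℝ :=
  if z ∈ C.sh then min (s (C.ang z)) (ram m k (C.rho z)) else -1

variable {m k : ℕ} {s : E → ℝ}

theorem dome_sh {z : E} (hz : z ∈ C.sh) :
    C.dome m k s z = min (s (C.ang z)) (ram m k (C.rho z)) := if_pos hz

/-- below the ramp the dome function is `-1` -/
theorem dome_low (hk : k < m) (hs : ∀ θ ∈ S, -1 ≤ s θ) {z : E} (hz : C.rho z ≤ uu m) :
    C.dome m k s z = -1 := by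
  by_cases h : z ∈ C.sh
  · rw [C.dome_sh h, ram_of_le (hz.trans (uu_le_al hk)), min_eq_right (hs _ (C.ang_mem h))]
  · exact if_neg h

theorem dome_core (hk : k < m) (hs : ∀ θ ∈ S, -1 ≤ s θ) {z : E} (hz : z ∈ C.core) :
    C.dome m k s z = -1 :=
  C.dome_low hk hs ((C.rho_core hz).trans (uu_pos m).le)

theorem dome_bd (hs : ∀ θ ∈ S, s θ ≤ 1) {z : E} (hz : z ∈ S) : C.dome m k s z = s z := by
  rw [C.dome_sh (C.S_sub_sh hz), C.ang_of_mem hz, C.rho_of_mem hz,
    ram_of_ge (be_lt_one m k).le, min_eq_left (hs z hz)]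

theorem dome_mem (hs : ∀ θ ∈ S, s θ ∈ Icc (-1:ℝ) 1) (z : E) : C.dome m k s z ∈ Icc (-1:ℝ) 1 := by
  by_cases h : z ∈ C.sh
  · rw [C.dome_sh h]
    exact ⟨le_min (hs _ (C.ang_mem h)).1 (neg_one_le_ram _ _ _),
      (min_le_left _ _).trans (hs _ (C.ang_mem h)).2⟩
  · rw [dome, if_neg h]
    norm_num

theorem dome_polar {p : E × ℝ} (hp : p ∈ S ×ˢ Icc (0:ℝ) 1) :
    C.dome m k s (C.polar.toFun p) = min (s p.1) (ram m k p.2) := by
  rw [C.dome_sh (C.polar.mapsTo hp), C.ang_polar hp, C.rho_polar hp]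

theorem continuousOn_dome_sh (hsc : ContinuousOn s S) :
    ContinuousOn (C.dome m k s) C.sh := by
  refine ContinuousOn.congr (f := fun z => min (s (C.ang z)) (ram m k (C.rho z))) ?_
    fun z hz => C.dome_sh hz
  have h1 : ContinuousOn (fun z => s (C.ang z)) C.sh :=
    hsc.comp C.continuousOn_ang fun z hz => C.ang_mem hz
  have h2 : ContinuousOn (fun z => ram m k (C.rho z)) C.sh :=
    (continuous_ram m k).comp_continuousOn (C.continuousOn_rho.mono C.sh_sub)
  exact continuous_min.comp_continuousOn (h1.prodMk h2)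

theorem conicalOn_dome_sh (hsc : ContinuousOn s S) (hs : ConicalOn s S) :
    ConicalOn (C.dome m k s) C.sh := by
  have h1 : ConicalOn (fun z => s (C.ang z)) C.sh :=
    ConicalOn.comp (g := s) hs C.conicalOn_ang (fun z hz => C.ang_mem hz) C.continuousOn_ang
  have h2 : ConicalOn (fun z => ram m k (C.rho z)) C.sh :=
    ConicalOn.comp (g := ram m k) (conicalOn_ram m k (IsOpen.conicalSet isOpen_univ))
      (C.conicalOn_rho.mono C.conicalSet_sh C.sh_sub) (fun z _ => mem_univ _)
      (C.continuousOn_rho.mono C.sh_sub)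
  refine (h1.rmin h2 (hsc.comp C.continuousOn_ang fun z hz => C.ang_mem hz)
    ((continuous_ram m k).comp_continuousOn (C.continuousOn_rho.mono C.sh_sub))).congr
    fun z hz => C.dome_sh hz

theorem continuousOn_dome (hk : k < m) (hs : ∀ θ ∈ S, -1 ≤ s θ) (hsc : ContinuousOn s S) :
    ContinuousOn (C.dome m k s) Q := by
  have h1 := C.continuousOn_dome_sh (m := m) (k := k) hsc
  have h2 : ContinuousOn (C.dome m k s) C.core :=
    (continuousOn_const (c := (-1:ℝ))).congr fun z hz => C.dome_core hk hs hz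
  exact (h2.union_of_isClosed h1 C.isCompact_core.isClosed C.isCompact_sh.isClosed).mono C.cover

theorem conicalOn_dome (hk : k < m) (hs : ∀ θ ∈ S, -1 ≤ s θ) (hsc : ContinuousOn s S)
    (hs1 : ConicalOn s S) : ConicalOn (C.dome m k s) Q := by
  have h1 := C.conicalOn_dome_sh (m := m) (k := k) hsc hs1
  have h2 : ConicalOn (C.dome m k s) C.core :=
    (conicalOn_const (-1:ℝ) C.conicalSet_core).congr fun z hz => C.dome_core hk hs hz
  have h3 := h2.union h1 (fun z _ hz => C.isCompact_core.isClosed.closure_subset hz)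
    (fun z _ hz => C.isCompact_sh.isClosed.closure_subset hz)
  have h4 : Q = C.core ∪ C.sh := C.cover.antisymm (union_subset C.core_sub C.sh_sub)
  rwa [← h4] at h3

/-- **`ℓ¹` Lipschitz bound in a cell** (all domes of one family) -/
theorem sum_dome_le (hQ : Convex ℝ Q) {a b : ℝ} (ha0 : 0 ≤ a) (hb0 : 0 ≤ b)
    (ha : ∀ x ∈ closedBall (0 : Fin n → ℝ) 1, ∀ y ∈ closedBall (0 : Fin n → ℝ) 1,
      dist (C.χ.toFun x) (C.χ.toFun y) ≤ a * dist x y)
    (hb : ∀ x ∈ Q, ∀ y ∈ Q, dist (C.χ.invFun x) (C.χ.invFun y) ≤ b * dist x y)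
    {J : Type*} [Fintype J] {m : ℕ} {rk : J → ℕ} (hinj : Function.Injective rk)
    (hrk : ∀ c, rk c < m) {s : J → E → ℝ} {O : J → Set E}
    (hs : ∀ c, ∀ θ ∈ S, s c θ ∈ Icc (-1:ℝ) 1) (hoff : ∀ c, ∀ θ ∈ S, θ ∉ O c → s c θ = -1)
    (hO : ∀ c, IsClosed (O c)) (hsc : ∀ c, ContinuousOn (s c) S)
    (hlam : ∀ c c', c ≠ c' → ((∀ θ ∈ O c, s c' θ = 1) ∧ rk c < rk c') ∨
      ((∀ θ ∈ O c', s c θ = 1) ∧ rk c' < rk c) ∨ Disjoint (O c) (O c'))
    {L : ℝ} (hL0 : 0 ≤ L) (hL : ∀ θ ∈ S, ∀ θ' ∈ S, ∑ c, |s c θ - s c θ'| ≤ L * dist θ θ')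
    {z w : E} (hz : z ∈ Q) (hw : w ∈ Q) :
    ∑ c, |C.dome m (rk c) (s c) z - C.dome m (rk c) (s c) w|
      ≤ max (L * (3 * a * b)) (2 * (2 * m + 1) * (2 * b)) * dist z w := by
  refine H950.sum_dome_le hinj hs hoff hO hsc hlam hL hQ C.isCompact_sh.isClosed
    C.isCompact_core.isClosed C.cover (θ := C.ang) (ρ := C.rho) (fun z hz => C.ang_mem hz)
    (a := 3 * a * b) (b := 2 * b) hL0 (fun x hx y hy => C.dist_ang_le ha0 ha hb hx hy)
    (by positivity) (fun x hx y hy => C.abs_rho_sub_le hb (C.sh_sub hx) (C.sh_sub hy))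
    (f := fun c z => C.dome m (rk c) (s c) z)
    (fun c x hx => C.dome_core (hrk c) (fun θ hθ => (hs c θ hθ).1) hx)
    (fun c x hx => C.dome_sh hx) hz hw

end Chart

end P073.H950
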