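import Vale.Agent.P073.H950.Ramp

/-!
# P073, H950: weighted `ℓ¹` Lipschitz bounds for nested domes, local form

`DomeData`: functions `f c = min (s c ∘ θ) (r c ∘ ρ)` on a shell, `-1` on the core, for one laminar
family.  The closed pieces `wall F` (over the part `F` of the boundary) and `roof c` cover the
shell; `sum_wall`, `sum_roof`: `ℓ¹` Lipschitz bounds on the pieces; `sum_le`: on convex sets.
-/

open Set Metric Topology Filter

namespace P073.H950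

theorem continuousOn_of_dist_le {E' T : Type*} [PseudoMetricSpace E'] [PseudoMetricSpace T]
    {sh : Set E'} {θ : E' → T} {a : ℝ}
    (hθ : ∀ x ∈ sh, ∀ y ∈ sh, dist (θ x) (θ y) ≤ a * dist x y) : ContinuousOn θ sh := by
  intro z hz
  rw [ContinuousWithinAt, tendsto_iff_dist_tendsto_zero]
  have h0 : Tendsto (fun w : E' => a * dist w z) (𝓝[sh] z) (𝓝 0) := by
    have : Tendsto (fun w : E' => a * dist w z) (𝓝 z) (𝓝 (a * dist z z)) :=
      (by fun_prop : Continuous fun w : E' => a * dist w z).tendsto z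
    simp only [dist_self, mul_zero] at this
    exact this.mono_left nhdsWithin_le_nhds
  refine squeeze_zero' (Eventually.of_forall fun _ => dist_nonneg) ?_ h0
  filter_upwards [self_mem_nhdsWithin] with w hw using hθ w hw z hz

/-- one laminar family of domes -/
structure DomeData (T E' J : Type*) [PseudoMetricSpace T] [PseudoMetricSpace E']
    [Fintype J] where
  /-- weights -/
  ω : J → ℝ
  ω0 : ∀ c, 0 ≤ ω c
  /-- ramps -/
  r : J → ℝ → ℝ
  lo : J → ℝ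
  hi : J → ℝ
  r_mem : ∀ c y, r c y ∈ Icc (-1:ℝ) 1
  r_cont : ∀ c, Continuous (r c)
  r_lo : ∀ c y, y ≤ lo c → r c y = -1
  r_hi : ∀ c y, hi c ≤ y → r c y = 1
  /-- the indices of the discs containing the one of `c` -/
  up : J → Finset J
  self_up : ∀ c, c ∈ up c
  K : ℝ
  K0 : 0 ≤ K
  /-- along a chain the ramps vary one after the other -/
  hK : ∀ c y y', ∑ c' ∈ up c, ω c' * |r c' y - r c' y'| ≤ K * |y - y'|
  /-- the functions on the boundary -/
  S : Set T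
  s : J → T → ℝ
  O : J → Set T
  s_mem : ∀ c, ∀ θ ∈ S, s c θ ∈ Icc (-1:ℝ) 1
  s_off : ∀ c, ∀ θ ∈ S, θ ∉ O c → s c θ = -1
  O_closed : ∀ c, IsClosed (O c)
  s_cont : ∀ c, ContinuousOn (s c) S
  lam : ∀ c c', c ≠ c' → ((∀ θ ∈ O c, s c' θ = 1) ∧ c' ∈ up c ∧ hi c' ≤ lo c) ∨
    ((∀ θ ∈ O c', s c θ = 1) ∧ c ∈ up c' ∧ hi c ≤ lo c') ∨ Disjoint (O c) (O c')
  /-- the shell and the core -/
  sh : Set E'
  core : Set E'
  sh_closed : IsClosed sh
  core_closed : IsClosed core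
  θ : E' → T
  ρ : E' → ℝ
  θ_mem : MapsTo θ sh S
  a : ℝ
  b : ℝ
  θ_lip : ∀ x ∈ sh, ∀ y ∈ sh, dist (θ x) (θ y) ≤ a * dist x y
  b0 : 0 ≤ b
  ρ_lip : ∀ x ∈ sh, ∀ y ∈ sh, |ρ x - ρ y| ≤ b * dist x y
  f : J → E' → ℝ
  f_core : ∀ c, ∀ x ∈ core, f c x = -1
  f_sh : ∀ c, ∀ x ∈ sh, f c x = min (s c (θ x)) (r c (ρ x))

namespace DomeData

section

variable {T E' J : Type*} [PseudoMetricSpace T] [PseudoMetricSpace E'] [Fintype J]
  (X : DomeData T E' J)

/-- the walls over `F` -/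
def wall (F : Set T) : Set E' := {z | z ∈ X.sh ∧ X.θ z ∈ F ∧ ∀ c, X.s c (X.θ z) ≤ X.r c (X.ρ z)}

/-- the roof of the dome `c` and the part of the cell below it -/
def roof (c : J) : Set E' :=
  {z | z ∈ X.sh ∧ X.θ z ∈ X.O c ∧ X.ρ z ≤ X.hi c ∧ X.r c (X.ρ z) ≤ X.s c (X.θ z)}

theorem continuousOn_θ : ContinuousOn X.θ X.sh := continuousOn_of_dist_le X.θ_lip

theorem continuousOn_ρ : ContinuousOn X.ρ X.sh :=
  continuousOn_of_dist_le (a := X.b) fun x hx y hy => by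
    rw [Real.dist_eq]; exact X.ρ_lip x hx y hy

theorem continuousOn_r (c : J) : ContinuousOn (fun z => X.r c (X.ρ z)) X.sh :=
  (X.r_cont c).comp_continuousOn X.continuousOn_ρ

theorem continuousOn_s (c : J) : ContinuousOn (fun z => X.s c (X.θ z)) X.sh :=
  (X.s_cont c).comp X.continuousOn_θ X.θ_mem

theorem isClosed_wall {F : Set T} (hF : IsClosed F) : IsClosed (X.wall F) := by
  have h2 : X.wall F = (X.sh ∩ X.θ ⁻¹' F) ∩
      ⋂ c, (X.sh ∩ (fun z => X.s c (X.θ z) - X.r c (X.ρ z)) ⁻¹' Iic 0) := by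
    ext z
    simp only [wall, Set.mem_ofPred_eq, mem_inter_iff, mem_iInter, mem_preimage, mem_Iic,
      sub_nonpos]
    exact ⟨fun h => ⟨⟨h.1, h.2.1⟩, fun c => ⟨h.1, h.2.2 c⟩⟩,
      fun h => ⟨h.1.1, h.1.2, fun c => (h.2 c).2⟩⟩
  rw [h2]
  refine (X.continuousOn_θ.preimage_isClosed_of_isClosed X.sh_closed hF).inter
    (isClosed_iInter fun c => ?_)
  exact ((X.continuousOn_s c).sub (X.continuousOn_r c)).preimage_isClosed_of_isClosed X.sh_closed
    isClosed_Iic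

theorem isClosed_roof (c : J) : IsClosed (X.roof c) := by
  have h2 : X.roof c = (X.sh ∩ X.θ ⁻¹' X.O c) ∩ (X.sh ∩ X.ρ ⁻¹' Iic (X.hi c)) ∩
      (X.sh ∩ (fun z => X.r c (X.ρ z) - X.s c (X.θ z)) ⁻¹' Iic 0) := by
    ext z
    simp only [roof, Set.mem_ofPred_eq, mem_inter_iff, mem_preimage, mem_Iic, sub_nonpos]
    tauto
  rw [h2]
  refine ((X.continuousOn_θ.preimage_isClosed_of_isClosed X.sh_closed (X.O_closed c)).inter
    (X.continuousOn_ρ.preimage_isClosed_of_isClosed X.sh_closed isClosed_Iic)).inter ?_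
  exact ((X.continuousOn_r c).sub (X.continuousOn_s c)).preimage_isClosed_of_isClosed X.sh_closed
    isClosed_Iic

/-- walls and roofs cover the shell -/
theorem mem_wall_or_roof {z : E'} (hz : z ∈ X.sh) {F : Set T} (hF : X.θ z ∈ F) :
    z ∈ X.wall F ∨ ∃ c, z ∈ X.roof c := by
  by_cases h1 : ∀ c, X.s c (X.θ z) ≤ X.r c (X.ρ z)
  · exact Or.inl ⟨hz, hF, h1⟩
  · push Not at h1
    obtain ⟨c, hc⟩ := h1
    refine Or.inr ⟨c, hz, ?_, ?_, hc.le⟩
    · by_contra h2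
      have h3 := X.s_off c _ (X.θ_mem hz) h2
      rw [h3] at hc
      exact absurd (X.r_mem c (X.ρ z)).1 (not_le.2 hc)
    · by_contra h2
      have h3 := X.r_hi c (X.ρ z) (not_le.1 h2).le
      rw [h3] at hc
      exact absurd (X.s_mem c _ (X.θ_mem hz)).2 (not_le.2 hc)

/-- **bound on the walls** -/
theorem sum_wall {F : Set T} {L : ℝ} (hL0 : 0 ≤ L)
    (hL : ∀ θ ∈ X.S, θ ∈ F → ∀ θ' ∈ X.S, θ' ∈ F →
      ∑ c, X.ω c * |X.s c θ - X.s c θ'| ≤ L * dist θ θ')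
    {z w : E'} (hz : z ∈ X.wall F) (hw : w ∈ X.wall F) :
    ∑ c, X.ω c * |X.f c z - X.f c w| ≤ L * X.a * dist z w := by
  obtain ⟨hz, hzF, hz1⟩ := hz
  obtain ⟨hw, hwF, hw1⟩ := hw
  have : ∑ c, X.ω c * |X.f c z - X.f c w| = ∑ c, X.ω c * |X.s c (X.θ z) - X.s c (X.θ w)| := by
    refine Finset.sum_congr rfl fun c _ => ?_
    rw [X.f_sh c z hz, X.f_sh c w hw, min_eq_left (hz1 c), min_eq_left (hw1 c)]
  rw [this]
  refine (hL _ (X.θ_mem hz) hzF _ (X.θ_mem hw) hwF).trans ?_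
  rw [mul_assoc]
  exact mul_le_mul_of_nonneg_left (X.θ_lip z hz w hw) hL0

/-- the values on a roof piece -/
theorem roof_val (c c' : J) : (c' ∈ X.up c ∧ ∀ v ∈ X.roof c, X.f c' v = X.r c' (X.ρ v)) ∨
    ∀ v ∈ X.roof c, X.f c' v = -1 := by
  by_cases hcc : c' = c
  · left
    subst hcc
    refine ⟨X.self_up c', ?_⟩
    rintro v ⟨hv, -, -, hv3⟩
    rw [X.f_sh c' v hv, min_eq_right hv3]
  · rcases X.lam c' c hcc with ⟨h1, -, h2⟩ | ⟨h1, h2, -⟩ | h1
    · -- `c'` inside `c`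
      right
      rintro v ⟨hv, hv1, hv2, hv3⟩
      rw [X.f_sh c' v hv, X.r_lo c' _ (hv2.trans h2), min_eq_right (X.s_mem c' _ (X.θ_mem hv)).1]
    · left
      refine ⟨h2, ?_⟩
      rintro v ⟨hv, hv1, hv2, hv3⟩
      rw [X.f_sh c' v hv, h1 _ hv1, min_eq_right (X.r_mem _ _).2]
    · right
      rintro v ⟨hv, hv1, hv2, hv3⟩
      have : X.θ v ∉ X.O c' := fun h => Set.disjoint_left.1 h1 h hv1
      rw [X.f_sh c' v hv, X.s_off c' _ (X.θ_mem hv) this, min_eq_left (X.r_mem _ _).1]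

/-- **bound on the roofs** -/
theorem sum_roof {c : J} {z w : E'} (hz : z ∈ X.roof c) (hw : w ∈ X.roof c) :
    ∑ c', X.ω c' * |X.f c' z - X.f c' w| ≤ X.K * X.b * dist z w := by
  classical
  have h1 : ∑ c', X.ω c' * |X.f c' z - X.f c' w|
      ≤ ∑ c' ∈ X.up c, X.ω c' * |X.r c' (X.ρ z) - X.r c' (X.ρ w)| := by
    have h2 : ∑ c' ∈ X.up c, X.ω c' * |X.r c' (X.ρ z) - X.r c' (X.ρ w)|
        = ∑ c', if c' ∈ X.up c then X.ω c' * |X.r c' (X.ρ z) - X.r c' (X.ρ w)| else 0 := by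
      rw [Finset.sum_ite_mem, Finset.univ_inter]
    rw [h2]
    refine Finset.sum_le_sum fun c' _ => ?_
    rcases X.roof_val c c' with ⟨h, h'⟩ | h
    · rw [if_pos h, h' z hz, h' w hw]
    · rw [h z hz, h w hw, sub_self, abs_zero, mul_zero]
      split_ifs
      · exact mul_nonneg (X.ω0 _) (abs_nonneg _)
      · exact le_rfl
  refine (h1.trans (X.hK c _ _)).trans ?_
  rw [mul_assoc]
  exact mul_le_mul_of_nonneg_left (X.ρ_lip z hz.1 w hw.1) X.K0

theorem sum_core {z w : E'} (hz : z ∈ X.core) (hw : w ∈ X.core) :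
    ∑ c, X.ω c * |X.f c z - X.f c w| = 0 := by
  refine Finset.sum_eq_zero fun c _ => ?_
  rw [X.f_core c z hz, X.f_core c w hw, sub_self, abs_zero, mul_zero]

end

/-- **Weighted `ℓ¹` Lipschitz bound on convex sets.** -/
theorem sum_le {T E' J : Type*} [PseudoMetricSpace T] [NormedAddCommGroup E'] [NormedSpace ℝ E']
    [Fintype J] (X : DomeData T E' J) {Q : Set E'} (hQ : Convex ℝ Q) (hcov : Q ⊆ X.core ∪ X.sh)
    {ι : Type*} [Finite ι] {F : ι → Set T} (hF : ∀ i, IsClosed (F i))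
    (hQF : ∀ z ∈ Q, z ∈ X.sh → ∃ i, X.θ z ∈ F i) {L : ι → ℝ} (hL0 : ∀ i, 0 ≤ L i)
    (hL : ∀ i, ∀ θ ∈ X.S, θ ∈ F i → ∀ θ' ∈ X.S, θ' ∈ F i →
      ∑ c, X.ω c * |X.s c θ - X.s c θ'| ≤ L i * dist θ θ')
    {M : ℝ} (hM : ∀ i, L i * X.a ≤ M) (hM' : X.K * X.b ≤ M) {x y : E'} (hx : x ∈ Q)
    (hy : y ∈ Q) : ∑ c, X.ω c * |X.f c x - X.f c y| ≤ M * dist x y := by
  have hM0 : 0 ≤ M := (mul_nonneg X.K0 X.b0).trans hM'
  have hmul : ∀ (c : J) (u v : ℝ), |X.ω c * u - X.ω c * v| = X.ω c * |u - v| := fun c u v => by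
    rw [← mul_sub, abs_mul, abs_of_nonneg (X.ω0 c)]
  let P : Option (ι ⊕ J) → Set E' := fun i => match i with
    | none => X.core
    | some (Sum.inl i) => X.wall (F i)
    | some (Sum.inr c) => X.roof c
  have hPc : ∀ i, IsClosed (P i) := by
    intro i
    match i with
    | none => exact X.core_closed
    | some (Sum.inl i) => exact X.isClosed_wall (hF i)
    | some (Sum.inr c) => exact X.isClosed_roof c
  have hPcov : Q ⊆ ⋃ i, P i := by
    intro z hz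
    rcases hcov hz with h | h
    · exact mem_iUnion.2 ⟨none, h⟩
    · obtain ⟨i, hi⟩ := hQF z hz h
      rcases X.mem_wall_or_roof h hi with h1 | ⟨c, h1⟩
      · exact mem_iUnion.2 ⟨some (Sum.inl i), h1⟩
      · exact mem_iUnion.2 ⟨some (Sum.inr c), h1⟩
  have key := sum_abs_le_of_pieces hQ hPc hPcov (f := fun c z => X.ω c * X.f c z) (K := M) ?_
    hx hy
  · simpa only [hmul] using key
  simp only [hmul]
  intro i
  match i with
  | none =>
    intro z _ hz w _ hw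
    rw [X.sum_core hz hw]
    exact mul_nonneg hM0 dist_nonneg
  | some (Sum.inl i) =>
    intro z _ hz w _ hw
    exact (X.sum_wall (hL0 i) (hL i) hz hw).trans
      (mul_le_mul_of_nonneg_right (hM i) dist_nonneg)
  | some (Sum.inr c) =>
    intro z _ hz w _ hw
    exact (X.sum_roof hz hw).trans (mul_le_mul_of_nonneg_right hM' dist_nonneg)

end DomeData

end P073.H950
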