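import Vale.Agent.P073.H950.Trans
import Vale.Agent.P073.H950.Cell
import Vale.Agent.P073.H950.DomeW

/-!
# P073, H950: the level functions of the caps: conical, continuous, `ℓ¹` Lipschitz bound
-/

open Set Metric Topology Filter

namespace P073.H950

open P073 P073.H936 P073.H880 P073.H267

theorem clip_sub_eq (y a : ℝ) : clip (y - a) = clp 2 (y - (a - 1)) - 1 := by
  unfold clip clp
  rcases le_total (y - a) (-1) with h | h
  · rw [min_eq_right (by linarith), max_eq_left (by linarith), min_eq_right (by linarith),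
      max_eq_left (by linarith)]
    norm_num
  · rcases le_total (y - a) 1 with h1 | h1
    · rw [min_eq_right h1, max_eq_right h, min_eq_right (by linarith), max_eq_right (by linarith)]
      ring
    · rw [min_eq_left h1, max_eq_right (by norm_num), min_eq_left (by linarith),
        max_eq_right (by norm_num)]
      norm_num

/-- ramps on disjoint intervals -/
theorem sum_clip_le {J : Type*} (A : Finset J) {rk : J → ℕ} (hinj : Set.InjOn rk A) {M : ℝ}
    {ω : J → ℝ} {W : ℝ} (hW0 : 0 ≤ W) (hW : ∀ c, ω c ≤ W) (y y' : ℝ) :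
    ∑ c ∈ A, ω c * |clip (y - (4 * (M - rk c) - 2)) - clip (y' - (4 * (M - rk c) - 2))|
      ≤ W * |y - y'| := by
  wlog hxy : y' ≤ y generalizing y y'
  · have := this y' y (le_of_not_ge hxy)
    simp only [abs_sub_comm y y', abs_sub_comm (clip (y - _))]
    exact this
  classical
  obtain ⟨N, hN⟩ : ∃ N, ∀ c ∈ A, rk c < N :=
    ⟨(A.sup rk) + 1, fun c hc => Nat.lt_succ_of_le (Finset.le_sup hc)⟩
  set a : ℕ → ℝ := fun k => 4 * (M - k) - 2 - 1 with ha
  have hpos : ∀ k, 0 ≤ clp 2 (y - a k) - clp 2 (y' - a k) := by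
    intro k
    rw [sub_nonneg]
    unfold clp
    gcongr
  have h1 : ∀ c, |clip (y - (4 * (M - rk c) - 2)) - clip (y' - (4 * (M - rk c) - 2))|
      = clp 2 (y - a (rk c)) - clp 2 (y' - a (rk c)) := by
    intro c
    rw [clip_sub_eq, clip_sub_eq, sub_sub_sub_cancel_right, abs_of_nonneg (hpos (rk c))]
  have h2 : ∑ c ∈ A, ω c * |clip (y - (4 * (M - rk c) - 2)) - clip (y' - (4 * (M - rk c) - 2))|
      ≤ W * ∑ c ∈ A, (clp 2 (y - a (rk c)) - clp 2 (y' - a (rk c))) := by
    rw [Finset.mul_sum]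
    refine Finset.sum_le_sum fun c _ => ?_
    rw [h1]
    exact mul_le_mul_of_nonneg_right (hW c) (hpos _)
  have h3 : ∑ c ∈ A, (clp 2 (y - a (rk c)) - clp 2 (y' - a (rk c)))
      = ∑ k ∈ A.image rk, (clp 2 (y - a k) - clp 2 (y' - a k)) := by
    rw [Finset.sum_image hinj]
  have h4 : ∑ k ∈ A.image rk, (clp 2 (y - a k) - clp 2 (y' - a k))
      ≤ ∑ k ∈ Finset.range N, (clp 2 (y - a k) - clp 2 (y' - a k)) := by
    refine Finset.sum_le_sum_of_subset_of_nonneg ?_ fun k _ _ => hpos k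
    intro k hk
    obtain ⟨c, hc, rfl⟩ := Finset.mem_image.1 hk
    exact Finset.mem_range.2 (hN c hc)
  have h5 := sum_clp_le (u := 2) (by norm_num) (a := a) (by
    intro k
    simp only [ha, Nat.cast_add, Nat.cast_one]
    linarith) hxy N
  have h6 : max y (a N + 2) - max y' (a N + 2) ≤ y - y' := by
    rcases le_total y' (a N + 2) with h | h
    · rw [max_eq_right h]
      rcases le_total y (a N + 2) with h' | h'
      · rw [max_eq_right h']; linarith
      · rw [max_eq_left h']; linarith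
    · rw [max_eq_left h, max_eq_left (h.trans hxy)]
  rw [abs_of_nonneg (by linarith : (0:ℝ) ≤ y - y')]
  refine h2.trans (mul_le_mul_of_nonneg_left ?_ hW0)
  rw [h3]
  exact h4.trans (h5.trans h6)

theorem continuous_clip : Continuous clip := by
  unfold clip
  fun_prop

namespace Chart

variable {E : Type*} [NormedAddCommGroup E] [NormedSpace ℝ E] {n m : ℕ} {Q S : Set E}
  {J : Type*} (C : Chart (n + 1) Q S) (D : Circles n S J m)

theorem continuousOn_pt : ContinuousOn (fun z => (C.ang z, D.top * C.rho z)) C.sh := by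
  refine C.continuousOn_ang.prodMk ?_
  exact continuousOn_const.mul (C.continuousOn_rho.mono C.sh_sub)

theorem pt_mem {z : E} (hz : z ∈ C.sh) : (C.ang z, D.top * C.rho z) ∈ S ×ˢ Icc (0:ℝ) D.top := by
  have h := C.rho_mem hz
  have ht := top_pos D
  refine ⟨C.ang_mem hz, mul_nonneg ht.le h.1, ?_⟩
  show D.top * C.rho z ≤ D.top
  nlinarith [h.2]

theorem continuousOn_lev (c : J) : ContinuousOn (C.lev D c) Q := by
  have h1 : ContinuousOn (C.lev D c) C.sh := by
    have h := (D.continuousOn_b (T := Icc 0 D.top) c).comp (C.continuousOn_pt D)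
      fun z hz => C.pt_mem D hz
    exact h.congr fun z hz => C.lev_sh D c hz
  have h2 : ContinuousOn (C.lev D c) C.core :=
    (continuousOn_const (c := (-1:ℝ))).congr fun z hz => C.lev_core D c hz
  exact (h2.union_of_isClosed h1 C.isCompact_core.isClosed C.isCompact_sh.isClosed).mono C.cover

theorem conicalOn_lev (c : J) : ConicalOn (C.lev D c) Q := by
  have h1 : ConicalOn (C.lev D c) C.sh := by
    have h0 : ConicalOn (fun z => (C.ang z, D.top * C.rho z)) C.sh := by
      refine C.conicalOn_ang.prodMk ?_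
      refine ((C.conicalOn_rho.mono C.conicalSet_sh C.sh_sub).const_smul D.top).congr
        fun z _ => ?_
      simp only [smul_eq_mul]
    have h := ConicalOn.comp (g := D.b c) (D.conicalOn_b (conicalSet_Icc 0 D.top) c) h0
      (fun z hz => C.pt_mem D hz) (C.continuousOn_pt D)
    exact h.congr fun z hz => C.lev_sh D c hz
  have h2 : ConicalOn (C.lev D c) C.core :=
    (conicalOn_const (-1:ℝ) C.conicalSet_core).congr fun z hz => C.lev_core D c hz
  have h3 := h2.union h1 (fun z _ hz => C.isCompact_core.isClosed.closure_subset hz)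
    (fun z _ hz => C.isCompact_sh.isClosed.closure_subset hz)
  have h4 : Q = C.core ∪ C.sh := C.cover.antisymm (union_subset C.core_sub C.sh_sub)
  rwa [← h4] at h3

end Chart

theorem nonempty_I {E : Type*} [NormedAddCommGroup E] [NormedSpace ℝ E] {n m : ℕ} {S : Set E}
    {J : Type*} (D : Circles n S J m) (c : J) : (D.I c).Nonempty := by
  obtain ⟨-, φ, -⟩ := D.ballI c
  exact ⟨_, φ.mapsTo_inv (mem_closedBall_self zero_le_one)⟩

open Classical in
/-- the circles of the same type around `c`, and `c` -/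
noncomputable def upSet {E : Type*} [NormedAddCommGroup E] [NormedSpace ℝ E] {n m : ℕ}
    {S : Set E} {J : Type*} [Fintype J] (D : Circles n S J m) (τ : Bool)
    (c : {c // D.typ c = τ}) : Finset {c // D.typ c = τ} :=
  Finset.univ.filter fun c' => c' = c ∨ D.I c.1 ∪ D.A c.1 ⊆ D.I c'.1 \ D.A c'.1

theorem mem_upSet {E : Type*} [NormedAddCommGroup E] [NormedSpace ℝ E] {n m : ℕ}
    {S : Set E} {J : Type*} [Fintype J] {D : Circles n S J m} {τ : Bool}
    {c c' : {c // D.typ c = τ}} :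
    c' ∈ upSet D τ c ↔ c' = c ∨ D.I c.1 ∪ D.A c.1 ⊆ D.I c'.1 \ D.A c'.1 := by
  classical
  unfold upSet
  rw [Finset.mem_filter]
  exact ⟨fun h => h.2, fun h => ⟨Finset.mem_univ _, h⟩⟩

theorem injOn_upSet {E : Type*} [NormedAddCommGroup E] [NormedSpace ℝ E] {n m : ℕ}
    {S : Set E} {J : Type*} [Fintype J] (D : Circles n S J m) (τ : Bool)
    (c : {c // D.typ c = τ}) :
    Set.InjOn (fun c : {c // D.typ c = τ} => D.rk c.1) (upSet D τ c) := by
  intro c1 h1 c2 h2 h
  have h1 := mem_upSet.1 (Finset.mem_coe.1 h1)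
  have h2 := mem_upSet.1 (Finset.mem_coe.1 h2)
  have h : D.rk c1.1 = D.rk c2.1 := h
  by_contra hne
  have hne' : c1.1 ≠ c2.1 := fun e => hne (Subtype.ext e)
  have ht : D.typ c1.1 = D.typ c2.1 := c1.2.trans c2.2.symm
  rcases D.lam c1.1 c2.1 hne' ht with h3 | h3 | h3
  · exact (D.rk_mono _ _ hne' ht h3).ne h
  · exact (D.rk_mono _ _ hne'.symm ht.symm h3).ne h.symm
  · obtain ⟨x, hx⟩ := nonempty_I D c.1
    have key : ∀ c' : {c // D.typ c = τ},
        (c' = c ∨ D.I c.1 ∪ D.A c.1 ⊆ D.I c'.1 \ D.A c'.1) → x ∈ D.I c'.1 ∪ D.A c'.1 := by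
      rintro c' (rfl | h4)
      · exact Or.inl hx
      · exact Or.inl (h4 (Or.inl hx)).1
    exact Set.disjoint_left.1 h3 (key c1 h1) (key c2 h2)

theorem sum_type {E : Type*} [NormedAddCommGroup E] [NormedSpace ℝ E] {n m : ℕ} {S : Set E}
    {J : Type*} [Fintype J] (D : Circles n S J m) (τ : Bool) (f : J → ℝ) :
    ∑ c with D.typ c = τ, f c = ∑ c : {c // D.typ c = τ}, f c :=
  Finset.sum_subtype (Finset.univ.filter fun c => D.typ c = τ) (p := fun c => D.typ c = τ)
    (fun c => by rw [Finset.mem_filter]; exact ⟨fun h => h.2, fun h => ⟨Finset.mem_univ _, h⟩⟩) f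

namespace Chart

section

variable {E : Type*} [NormedAddCommGroup E] [NormedSpace ℝ E] {n m : ℕ} {Q S : Set E}
  {J : Type*} [Fintype J] (C : Chart (n + 1) Q S) (D : Circles n S J m)

/-- the data of the family of type `τ` -/
noncomputable def domes (τ : Bool) {a b : ℝ} (h : C.Lip a b) {ω : J → ℝ} {W : ℝ}
    (hω0 : ∀ c, 0 ≤ ω c) (hW0 : 0 ≤ W) (hωW : ∀ c, ω c ≤ W) :
    DomeData E E {c // D.typ c = τ} where
  ω := fun c => ω c.1
  ω0 := fun c => hω0 c.1
  r := fun c y => clip (y - D.yy c.1)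
  lo := fun c => D.yy c.1 - 1
  hi := fun c => D.yy c.1 + 1
  r_mem := fun c y => clip_mem _
  r_cont := fun c => continuous_clip.comp (by fun_prop)
  r_lo := fun c y hy => clip_of_le (by linarith)
  r_hi := fun c y hy => clip_of_ge (by linarith)
  up := upSet D τ
  self_up := fun c => mem_upSet.2 (Or.inl rfl)
  K := W
  K0 := hW0
  hK := fun c y y' => sum_clip_le (upSet D τ c) (rk := fun c => D.rk c.1) (injOn_upSet D τ c)
    (M := m) (ω := fun c => ω c.1) hW0 (fun c => hωW c.1) y y'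
  S := S
  s := fun c => D.s c.1
  O := fun c => D.I c.1 ∪ D.A c.1
  s_mem := fun c θ hθ => D.s_mem hθ
  s_off := fun c θ hθ h => D.s_out c.1 θ hθ h
  O_closed := fun c => (D.isCompact_I c.1).isClosed.union (D.isCompact_A c.1).isClosed
  s_cont := fun c => D.s_cont c.1
  lam := by
    intro c c' hne
    have hne' : c.1 ≠ c'.1 := fun h => hne (Subtype.ext h)
    have ht : D.typ c.1 = D.typ c'.1 := c.2.trans c'.2.symm
    rcases D.lam c.1 c'.1 hne' ht with h | h | h
    · refine Or.inl ⟨fun θ hθ => D.s_I _ _ (h hθ).1,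
        mem_upSet.2 (Or.inr h), ?_⟩
      have := D.yy_lt (D.rk_mono _ _ hne' ht h)
      show D.yy c'.1 + 1 ≤ D.yy c.1 - 1
      linarith
    · refine Or.inr (Or.inl ⟨fun θ hθ => D.s_I _ _ (h hθ).1,
        mem_upSet.2 (Or.inr h), ?_⟩)
      have := D.yy_lt (D.rk_mono _ _ hne'.symm ht.symm h)
      show D.yy c.1 + 1 ≤ D.yy c'.1 - 1
      linarith
    · exact Or.inr (Or.inr h)
  sh := C.sh
  core := C.core
  sh_closed := C.isCompact_sh.isClosed
  core_closed := C.isCompact_core.isClosed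
  θ := C.ang
  ρ := fun z => D.top * C.rho z
  θ_mem := fun z hz => C.ang_mem hz
  a := 3 * a * b
  b := D.top * (2 * b)
  θ_lip := fun x hx y hy => C.dist_ang_le h.a0 h.ha h.hb hx hy
  b0 := mul_nonneg (top_pos D).le (mul_nonneg zero_le_two h.b0)
  ρ_lip := fun x hx y hy => by
    have h1 := C.abs_rho_sub_le h.hb (C.sh_sub hx) (C.sh_sub hy)
    rw [← mul_sub, abs_mul, abs_of_pos (top_pos D), mul_assoc]
    exact mul_le_mul_of_nonneg_left h1 (top_pos D).le
  f := fun c z => C.lev D c.1 z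
  f_core := fun c x hx => C.lev_core D c.1 hx
  f_sh := fun c x hx => C.lev_sh D c.1 hx

/-- the wall piece of type `τ` over the part `F` of the boundary -/
def wall (τ : Bool) (F : Set E) : Set E :=
  {z | z ∈ C.sh ∧ C.ang z ∈ F ∧ ∀ c, D.typ c = τ →
    D.s c (C.ang z) ≤ clip (D.top * C.rho z - D.yy c)}

/-- the roof piece of the cap `c` -/
def roof (c : J) : Set E :=
  {z | z ∈ C.sh ∧ C.ang z ∈ D.I c ∪ D.A c ∧ D.top * C.rho z ≤ D.yy c + 1 ∧
    clip (D.top * C.rho z - D.yy c) ≤ D.s c (C.ang z)}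

variable (τ : Bool) {a b : ℝ} (h : C.Lip a b) {ω : J → ℝ} {W : ℝ} (hω0 : ∀ c, 0 ≤ ω c)
  (hW0 : 0 ≤ W) (hωW : ∀ c, ω c ≤ W)

theorem wall_eq (F : Set E) : C.wall D τ F = (C.domes D τ h hω0 hW0 hωW).wall F := by
  ext z
  exact ⟨fun hz => ⟨hz.1, hz.2.1, fun c => hz.2.2 c.1 c.2⟩,
    fun hz => ⟨hz.1, hz.2.1, fun c hc => hz.2.2 ⟨c, hc⟩⟩⟩

theorem roof_eq (c : {c // D.typ c = τ}) :
    C.roof D c.1 = (C.domes D τ h hω0 hW0 hωW).roof c := rfl

theorem isClosed_wall (h : C.Lip a b) {F : Set E} (hF : IsClosed F) : IsClosed (C.wall D τ F) := by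
  rw [C.wall_eq D τ h (ω := fun _ => 0) (fun _ => le_rfl) le_rfl (fun _ => le_rfl)]
  exact DomeData.isClosed_wall _ hF

theorem isClosed_roof (h : C.Lip a b) (c : J) : IsClosed (C.roof D c) :=
  (C.domes D (D.typ c) h (ω := fun _ => 0) (fun _ => le_rfl) le_rfl
    (fun _ => le_rfl)).isClosed_roof ⟨c, rfl⟩

/-- core, walls and roofs cover the cell -/
theorem mem_pieces (h : C.Lip a b) {z : E} (hz : z ∈ Q) {F : Set E} (hF : z ∈ C.sh → C.ang z ∈ F) :
    z ∈ C.core ∨ z ∈ C.wall D τ F ∨ ∃ c, D.typ c = τ ∧ z ∈ C.roof D c := by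
  rcases C.cover hz with h1 | h1
  · exact Or.inl h1
  · right
    have h2 := (C.domes D τ h (ω := fun _ => 0) (fun _ => le_rfl) le_rfl
      (fun _ => le_rfl)).mem_wall_or_roof h1 (hF h1)
    rw [← C.wall_eq D τ h] at h2
    rcases h2 with h2 | ⟨c, h2⟩
    · exact Or.inl h2
    · exact Or.inr ⟨c.1, c.2, h2⟩

include h hω0 in
/-- **`ℓ¹` bound on the walls over `F`**: the constant `L` of `F` -/
theorem sum_lev_wall {F : Set E} {L : ℝ} (hL0 : 0 ≤ L)
    (hL : ∀ θ ∈ S, θ ∈ F → ∀ θ' ∈ S, θ' ∈ F →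
      ∑ c with D.typ c = τ, ω c * |D.s c θ - D.s c θ'| ≤ L * dist θ θ')
    {z w : E} (hz : z ∈ C.wall D τ F) (hw : w ∈ C.wall D τ F) :
    ∑ c with D.typ c = τ, ω c * |C.lev D c z - C.lev D c w| ≤ L * (3 * a * b) * dist z w := by
  classical
  obtain ⟨W, hW⟩ : ∃ W, ∀ c, ω c ≤ W :=
    ⟨∑ c, ω c, fun c => Finset.single_le_sum (fun i _ => hω0 i) (Finset.mem_univ c)⟩
  have hW' : ∀ c, ω c ≤ max W 0 := fun c => (hW c).trans (le_max_left _ _)
  rw [C.wall_eq D τ h hω0 (le_max_right _ _) hW'] at hz hw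
  rw [sum_type]
  refine (C.domes D τ h hω0 (le_max_right _ _) hW').sum_wall hL0 ?_ hz hw
  intro θ hθ hi θ' hθ' hi'
  have := hL θ hθ hi θ' hθ' hi'
  rw [sum_type] at this
  exact this

include h hω0 hW0 hωW in
/-- **`ℓ¹` bound on the roofs** -/
theorem sum_lev_roof {c : J} {z w : E} (hz : z ∈ C.roof D c) (hw : w ∈ C.roof D c) :
    ∑ c' with D.typ c' = D.typ c, ω c' * |C.lev D c' z - C.lev D c' w|
      ≤ W * (D.top * (2 * b)) * dist z w := by
  rw [sum_type]
  exact (C.domes D (D.typ c) h hω0 hW0 hωW).sum_roof (c := ⟨c, rfl⟩) hz hw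

include h hω0 hW0 hωW in
/-- **Weighted `ℓ¹` Lipschitz bound for the level functions of the caps of one family on a convex
set `X ⊆ Q`.** `a`, `b`: Lipschitz constants of the chart and of its inverse; `L i`: the bound for
the boundary functions on the face `F i`; `W`: bound of the weights; `X` is over the faces `F i`. -/
theorem sum_lev_le {X : Set E} (hX : Convex ℝ X) (hXQ : X ⊆ Q)
    {ι : Type*} [Finite ι] {F : ι → Set E} (hF : ∀ i, IsClosed (F i))
    (hXF : ∀ z ∈ X, z ∈ C.sh → ∃ i, C.ang z ∈ F i) {L : ι → ℝ} (hL0 : ∀ i, 0 ≤ L i)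
    (hL : ∀ i, ∀ θ ∈ S, θ ∈ F i → ∀ θ' ∈ S, θ' ∈ F i →
      ∑ c with D.typ c = τ, ω c * |D.s c θ - D.s c θ'| ≤ L i * dist θ θ')
    {M : ℝ} (hM : ∀ i, L i * (3 * a * b) ≤ M) (hM' : W * (D.top * (2 * b)) ≤ M) {z w : E}
    (hz : z ∈ X) (hw : w ∈ X) :
    ∑ c with D.typ c = τ, ω c * |C.lev D c z - C.lev D c w| ≤ M * dist z w := by
  rw [sum_type]
  refine (C.domes D τ h hω0 hW0 hωW).sum_le hX (hXQ.trans C.cover) hF hXF hL0 ?_ hM hM' hz hw
  intro i θ hθ hi θ' hθ' hi'
  have := hL i θ hθ hi θ' hθ' hi'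
  rw [sum_type] at this
  exact this

end

end Chart

end P073.H950
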