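import Vale.Agent.P073.H267.Inter
import Vale.Agent.P073.H950.Energy

/-!
# P073, H950: caps in a cell: directions of the double curves, signs, affine cells
-/

open Set Metric Topology Filter

namespace P073.H950

open P073 P073.H936 P073.H880 P073.H267 P073.TR P073.TR.DM

section sign

variable {E : Type*} [NormedAddCommGroup E] [NormedSpace ℝ E] {D N N' : Set E} {s s' : E → ℝ}

/-- multiplication with a sign -/
noncomputable def signIcc {ε : ℝ} (hε : ε = 1 ∨ ε = -1) : ConHomeo (Icc (-1:ℝ) 1) (Icc (-1:ℝ) 1) where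
  toFun := fun t => ε * t
  invFun := fun t => ε * t
  mapsTo := by
    rcases hε with rfl | rfl
    · intro t ht; simpa using ht
    · intro t ht; exact ⟨by linarith [ht.2], by linarith [ht.1]⟩
  mapsTo_inv := by
    rcases hε with rfl | rfl
    · intro t ht; simpa using ht
    · intro t ht; exact ⟨by linarith [ht.2], by linarith [ht.1]⟩
  left_inv := by
    rcases hε with rfl | rfl
    · intro t _; simp
    · intro t _; simp
  right_inv := by
    rcases hε with rfl | rfl
    · intro t _; simp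
    · intro t _; simp
  cont := by fun_prop
  cont_inv := by fun_prop
  conical := by
    refine (conicalOn_linear (ε • (LinearMap.id (R := ℝ) (M := ℝ))) (conicalSet_Icc (-1) 1)).congr
      fun t _ => ?_
    simp

theorem sign_mem {ε : ℝ} (hε : ε = 1 ∨ ε = -1) {t : ℝ} (ht : t ∈ Icc (-1:ℝ) 1) :
    ε * t ∈ Icc (-1:ℝ) 1 := (signIcc hε).mapsTo ht

theorem sign_sq {ε : ℝ} (hε : ε = 1 ∨ ε = -1) (t : ℝ) : ε * (ε * t) = t := by
  rcases hε with rfl | rfl <;> ring

/-- **change of the sign of the level** -/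
noncomputable def fibSign {ε : ℝ} (hε : ε = 1 ∨ ε = -1) (F : Fib D N s) :
    Fib D N (fun x => ε * s x) where
  Γ := ((ConHomeo.refl F.conicalSet_D).prod (signIcc hε)).trans F.Γ
  lev := fun z hz t ht => by
    show ε * s (F.Γ.toFun (z, ε * t)) = t
    rw [F.lev z hz _ (sign_mem hε ht), sign_sq hε]
  zero := fun z hz => by
    show F.Γ.toFun (z, ε * 0) = z
    rw [mul_zero, F.zero z hz]

@[simp] theorem fibSign_toFun {ε : ℝ} (hε : ε = 1 ∨ ε = -1) (F : Fib D N s) (z : E) (t : ℝ) :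
    (fibSign hε F).Γ.toFun (z, t) = F.Γ.toFun (z, ε * t) := rfl

theorem Pres.sign {F : Fib D N s} (h : Pres F N' s') {ε ε' : ℝ} (hε : ε = 1 ∨ ε = -1) :
    Pres (fibSign hε F) N' (fun x => ε' * s' x) := by
  intro z hz t ht t' ht' hm
  rw [fibSign_toFun] at hm ⊢
  rw [fibSign_toFun]
  obtain ⟨h1, h2⟩ := h z hz _ (sign_mem hε ht) _ (sign_mem hε ht') hm
  exact ⟨h1, congrArg (fun y => ε' * y) h2⟩

end sign

namespace Chart

variable {E : Type*} [NormedAddCommGroup E] [NormedSpace ℝ E]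

section

variable {n m : ℕ} {Q S : Set E} {J : Type*} (C : Chart (n + 1) Q S) (D : Circles n S J m)

/-- the cap lies in the open cell and in the trace -/
theorem cap_sub' (c : J) : C.cap D c ⊆ (Q \ S) ∪ D.A c := by
  intro z hz
  by_cases h : z ∈ S
  · right; rw [← C.cap_S D c]; exact ⟨hz, h⟩
  · left; exact ⟨C.cap_sub D c hz, h⟩

theorem gm_eq (c : J) : C.cap0 D c ∩ S = D.gm c := C.cap0_S D c

/-- the intersection of two middle sheets is the image of the intersection -/
theorem cap0_inter (c c' : J) : C.cap0 D c ∩ C.cap0 D c' = (C.pol D).toFun '' (D.N0 c ∩ D.N0 c') := by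
  ext z
  constructor
  · rintro ⟨⟨p, hp, rfl⟩, ⟨q, hq, h⟩⟩
    have e := (C.pol D).injOn (N0_sub' D c' hq) (N0_sub' D c hp) h
    subst e
    exact ⟨q, ⟨hp, hq⟩, rfl⟩
  · rintro ⟨p, ⟨hp, hp'⟩, rfl⟩
    exact ⟨⟨p, hp, rfl⟩, ⟨p, hp', rfl⟩⟩

/-- the intersection of two thick caps is the image of the intersection -/
theorem cap_inter (c c' : J) : C.cap D c ∩ C.cap D c' = (C.pol D).toFun '' (D.N c ∩ D.N c') := by
  ext z
  constructor
  · rintro ⟨⟨p, hp, rfl⟩, ⟨q, hq, h⟩⟩
    have e := (C.pol D).injOn (N_sub' D c' hq) (N_sub' D c hp) h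
    subst e
    exact ⟨q, ⟨hp, hq⟩, rfl⟩
  · rintro ⟨p, ⟨hp, hp'⟩, rfl⟩
    exact ⟨⟨p, hp, rfl⟩, ⟨p, hp', rfl⟩⟩

theorem isCompact_cap0 (c : J) : IsCompact (C.cap0 D c) :=
  (D.isCompact_N0 c).image_of_continuousOn ((C.pol D).cont.mono (N0_sub' D c))

end

section Two

variable {m : ℕ} {Q S : Set E} {J : Type*} (C : Chart 3 Q S) (D : Circles 2 S J m)

/-- **Directions of the double curves of two caps**: one on the boundary of the cell, two inside -/
theorem encard_dirs_cap {c c' : J} (ht : D.typ c ≠ D.typ c') (hF : (D.gm c ∩ D.gm c').Finite)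
    {z : E} (hz : z ∈ C.cap0 D c ∩ C.cap0 D c') :
    (z ∈ S → (dirs (C.cap0 D c ∩ C.cap0 D c') z).encard = 1) ∧
    (z ∉ S → (dirs (C.cap0 D c ∩ C.cap0 D c') z).encard = 2) := by
  have hc : ConicalSet (D.N0 c ∩ D.N0 c') :=
    (D.fib c).conicalSet_D.inter (D.fib c').conicalSet_D
  have hs : D.N0 c ∩ D.N0 c' ⊆ S ×ˢ Icc (0:ℝ) D.top := inter_subset_left.trans (N0_sub' D c)
  rw [C.cap0_inter D c c'] at hz ⊢
  obtain ⟨p, hp, rfl⟩ := hz
  have h1 := encard_dirs ((C.pol D).restr hc hs) hp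
  have h2 : (dirs ((C.pol D).toFun '' (D.N0 c ∩ D.N0 c')) ((C.pol D).toFun p)).encard
      = (dirs (D.N0 c ∩ D.N0 c') p).encard := h1
  rw [h2, C.pol_mem_S D (hs hp)]
  exact D.encard_dirs_inter ht hF hp

/-- **the double curves** -/
theorem curve_cap [FiniteDimensional ℝ E] {c c' : J} (ht : D.typ c ≠ D.typ c')
    (hF : (D.gm c ∩ D.gm c').Finite) : TR.Curve (C.cap0 D c ∩ C.cap0 D c') where
  compact := (C.isCompact_cap0 D c).inter (C.isCompact_cap0 D c')
  cone := fun p _ => ((C.ball D c).locCone.inter (C.ball D c').locCone) p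
  card := fun p hp => by
    by_cases h : p ∈ S
    · left; rw [ncard_def, (C.encard_dirs_cap D ht hF hp).1 h]; rfl
    · right; rw [ncard_def, (C.encard_dirs_cap D ht hF hp).2 h]; rfl

end Two

end Chart

end P073.H950
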