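import Mathlib

/-!
# P073, H950: upper semicontinuous local Lipschitz bounds, piece by piece
-/

open Set Metric Topology Filter MeasureTheory
open scoped ENNReal

namespace P073.H950

section pm

variable {X ι : Type*} [Fintype ι]

/-- the maximum of the functions `G j` over the sets `S j` which contain the point -/
noncomputable def pm (S : ι → Set X) (G : ι → X → ℝ) (x : X) : ℝ :=
  Finset.univ.fold max 0 fun j => (S j).indicator (G j) x

variable {S : ι → Set X} {G : ι → X → ℝ}

theorem pm_nonneg (x : X) : 0 ≤ pm S G x := (Finset.le_fold_max _).2 (Or.inl le_rfl)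

theorem le_pm {j : ι} {x : X} (hx : x ∈ S j) : G j x ≤ pm S G x :=
  (Finset.le_fold_max _).2 (Or.inr ⟨j, Finset.mem_univ _, (indicator_of_mem hx _).ge⟩)

theorem pm_lt {x : X} {c : ℝ} : pm S G x < c ↔ 0 < c ∧ ∀ j, x ∈ S j → G j x < c := by
  unfold pm
  rw [Finset.fold_max_lt]
  refine and_congr_right fun hc => ⟨fun h j hj => ?_, fun h j _ => ?_⟩
  · have := h j (Finset.mem_univ _)
    rwa [indicator_of_mem hj] at this
  · by_cases hj : x ∈ S j
    · rw [indicator_of_mem hj]; exact h j hj
    · rw [indicator_of_notMem hj]; exact hc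

theorem pm_le {x : X} {c : ℝ} : pm S G x ≤ c ↔ 0 ≤ c ∧ ∀ j, x ∈ S j → G j x ≤ c := by
  unfold pm
  rw [Finset.fold_max_le]
  refine and_congr_right fun hc => ⟨fun h j hj => ?_, fun h j _ => ?_⟩
  · have := h j (Finset.mem_univ _)
    rwa [indicator_of_mem hj] at this
  · by_cases hj : x ∈ S j
    · rw [indicator_of_mem hj]; exact h j hj
    · rw [indicator_of_notMem hj]; exact hc

/-- the value is attained, or `0` -/
theorem pm_eq_or (x : X) : pm S G x = 0 ∨ ∃ j, x ∈ S j ∧ pm S G x = G j x := by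
  rcases (pm_nonneg (S := S) (G := G) x).eq_or_lt with h | h
  · exact Or.inl h.symm
  · right
    by_contra hcon
    push Not at hcon
    have : pm S G x < pm S G x := pm_lt.2 ⟨h, fun j hj => (le_pm hj).lt_of_ne (hcon j hj).symm⟩
    exact lt_irrefl _ this

theorem bddAbove_pm {A : Set X} (h : ∀ j, BddAbove (G j '' (S j ∩ A))) :
    BddAbove (pm S G '' A) := by
  choose B hB using h
  refine ⟨Finset.univ.fold max 0 B, ?_⟩
  rintro - ⟨x, hx, rfl⟩
  refine pm_le.2 ⟨(Finset.le_fold_max _).2 (Or.inl le_rfl), fun j hj => ?_⟩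
  exact (Finset.le_fold_max _).2 (Or.inr ⟨j, Finset.mem_univ _, hB j ⟨x, ⟨hj, hx⟩, rfl⟩⟩)

variable [TopologicalSpace X]

/-- **upper semicontinuity** -/
theorem upperSemicontinuous_pm (hS : ∀ j, IsClosed (S j))
    (hG : ∀ j, UpperSemicontinuousOn (G j) (S j)) : UpperSemicontinuous (pm S G) := by
  intro x c hc
  obtain ⟨hc0, hc⟩ := pm_lt.1 hc
  have h1 : ∀ j, ∀ᶠ y in 𝓝 x, y ∈ S j → G j y < c := by
    intro j
    by_cases hj : x ∈ S j
    · exact eventually_nhdsWithin_iff.1 (hG j x hj c (hc j hj))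
    · filter_upwards [(hS j).isOpen_compl.mem_nhds hj] with y hy hy'
      exact absurd hy' hy
  filter_upwards [eventually_all.2 h1] with y hy
  exact pm_lt.2 ⟨hc0, hy⟩

/-- the local bounds on the closed pieces give the local bound on the union -/
theorem eventually_le_pm {A : Set X} (hS : ∀ j, IsClosed (S j)) (hA : A ⊆ ⋃ j, S j)
    {d : X → ℝ} {r : X → ℝ} (hr : ∀ y, 0 ≤ r y) {x : X}
    (h : ∀ j, x ∈ S j → ∀ᶠ y in 𝓝[S j ∩ A] x, d y ≤ G j x * r y) :
    ∀ᶠ y in 𝓝[A] x, d y ≤ pm S G x * r y := by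
  have h1 : ∀ j, ∀ᶠ y in 𝓝[A] x, y ∈ S j → d y ≤ pm S G x * r y := by
    intro j
    by_cases hj : x ∈ S j
    · have h2 := h j hj
      rw [inter_comm, nhdsWithin_inter', eventually_inf_principal] at h2
      filter_upwards [h2] with y hy hy'
      exact (hy hy').trans (mul_le_mul_of_nonneg_right (le_pm hj) (hr y))
    · have h3 : (S j)ᶜ ∈ 𝓝[A] x := mem_nhdsWithin_of_mem_nhds ((hS j).isOpen_compl.mem_nhds hj)
      filter_upwards [h3] with y hy hy'
      exact absurd hy' hy
  filter_upwards [eventually_all.2 h1, self_mem_nhdsWithin] with y hy hyA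
  obtain ⟨j, hj⟩ := mem_iUnion.1 (hA hyA)
  exact hy j hj

/-- a nonnegative upper semicontinuous function on a closed set, extended by `0` -/
theorem upperSemicontinuous_indicator {A : Set X} {g : X → ℝ} (hA : IsClosed A)
    (hg : UpperSemicontinuousOn g A) (h0 : ∀ x ∈ A, 0 ≤ g x) :
    UpperSemicontinuous (A.indicator g) := by
  intro x c hc
  by_cases hx : x ∈ A
  · rw [indicator_of_mem hx] at hc
    filter_upwards [eventually_nhdsWithin_iff.1 (hg x hx c hc)] with y hy
    by_cases hy' : y ∈ A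
    · rw [indicator_of_mem hy']; exact hy hy'
    · rw [indicator_of_notMem hy']; exact (h0 x hx).trans_lt hc
  · rw [indicator_of_notMem hx] at hc
    filter_upwards [hA.isOpen_compl.mem_nhds hx] with y hy
    rw [indicator_of_notMem hy]; exact hc

variable [MeasurableSpace X] [OpensMeasurableSpace X]

/-- the integral of the maximum is at most the sum of the integrals over the pieces -/
theorem lintegral_pm_le (μ : Measure X) (hS : ∀ j, IsClosed (S j))
    (hG : ∀ j, UpperSemicontinuousOn (G j) (S j)) (h0 : ∀ j, ∀ x ∈ S j, 0 ≤ G j x)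
    {A : Set X} {p : ℝ} (hp : 0 < p) :
    ∫⁻ x in A, ENNReal.ofReal (pm S G x ^ p) ∂μ
      ≤ ∑ j, ∫⁻ x in S j ∩ A, ENNReal.ofReal (G j x ^ p) ∂μ := by
  have h1 : ∀ x, ENNReal.ofReal (pm S G x ^ p)
      ≤ ∑ j, (S j).indicator (fun x => ENNReal.ofReal (G j x ^ p)) x := by
    intro x
    rcases pm_eq_or (S := S) (G := G) x with h | ⟨j, hj, h⟩
    · rw [h, Real.zero_rpow hp.ne', ENNReal.ofReal_zero]; exact zero_le
    · rw [h]
      refine le_trans ?_ (Finset.single_le_sum (f := fun j =>
        (S j).indicator (fun x => ENNReal.ofReal (G j x ^ p)) x) (fun _ _ => zero_le)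
        (Finset.mem_univ j))
      rw [indicator_of_mem hj]
  refine (lintegral_mono h1).trans ?_
  have h2 : ∀ j, (S j).indicator (fun x => ENNReal.ofReal (G j x ^ p))
      = fun x => ENNReal.ofReal ((S j).indicator (G j) x ^ p) := by
    intro j
    funext x
    by_cases hx : x ∈ S j
    · rw [indicator_of_mem hx, indicator_of_mem hx]
    · rw [indicator_of_notMem hx, indicator_of_notMem hx, Real.zero_rpow hp.ne',
        ENNReal.ofReal_zero]
  have h3 : ∀ j, Measurable ((S j).indicator fun x => ENNReal.ofReal (G j x ^ p)) := by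
    intro j
    rw [h2 j]
    exact ((upperSemicontinuous_indicator (hS j) (hG j) (h0 j)).measurable.pow_const p).ennreal_ofReal
  rw [lintegral_finsetSum _ fun j _ => h3 j]
  refine Finset.sum_le_sum fun j _ => ?_
  rw [setLIntegral_indicator (hS j).measurableSet]

end pm

end P073.H950
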