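import Mathlib

/-!
# P073, H950: Lipschitz bounds from finitely many closed pieces

A map on a convex set which is `K`-Lipschitz on each of finitely many closed pieces covering the
set is `K`-Lipschitz.
-/

open Set Metric Topology Filter

namespace P073.H950

variable {E M : Type*} [NormedAddCommGroup E] [NormedSpace ℝ E] [PseudoMetricSpace M]

/-- a continuous curve which is right-locally `C`-Lipschitz is `C`-Lipschitz -/
theorem dist_le_of_right {g : ℝ → M} {C a b : ℝ} (hab : a ≤ b) (hg : ContinuousOn g (Icc a b))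
    (h : ∀ t ∈ Ico a b, ∀ᶠ s in 𝓝[>] t, dist (g s) (g t) ≤ C * (s - t)) :
    dist (g b) (g a) ≤ C * (b - a) := by
  have hcl : IsClosed ({t : ℝ | dist (g t) (g a) ≤ C * (t - a)} ∩ Icc a b) := by
    have h1 : ContinuousOn (fun t : ℝ => dist (g t) (g a)) (Icc a b) :=
      continuous_dist.comp_continuousOn (hg.prodMk continuousOn_const)
    have h2 : ContinuousOn (fun t : ℝ => C * (t - a)) (Icc a b) := by fun_prop
    have : {t : ℝ | dist (g t) (g a) ≤ C * (t - a)} ∩ Icc a b
        = Icc a b ∩ (fun t : ℝ => dist (g t) (g a) - C * (t - a)) ⁻¹' Iic 0 := by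
      ext t
      simp only [mem_inter_iff, Set.mem_ofPred_eq, mem_preimage, mem_Iic, sub_nonpos]
      tauto
    rw [this]
    exact (h1.sub h2).preimage_isClosed_of_isClosed isClosed_Icc isClosed_Iic
  have := hcl.Icc_subset_of_forall_mem_nhdsWithin (a := a) (b := b)
    (s := {t : ℝ | dist (g t) (g a) ≤ C * (t - a)}) (by simp) (by
      intro t ht
      filter_upwards [h t ht.2] with s hs
      have h1 : dist (g t) (g a) ≤ C * (t - a) := ht.1
      calc dist (g s) (g a) ≤ dist (g s) (g t) + dist (g t) (g a) := dist_triangle _ _ _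
        _ ≤ C * (s - t) + C * (t - a) := add_le_add hs h1
        _ = C * (s - a) := by ring)
  exact this ⟨hab, le_rfl⟩

/-- **Lipschitz on closed pieces.** -/
theorem dist_le_of_pieces {Q : Set E} (hQ : Convex ℝ Q) {ι : Type*} [Finite ι] {P : ι → Set E}
    (hP : ∀ i, IsClosed (P i)) (hcov : Q ⊆ ⋃ i, P i) {f : E → M} {K : ℝ}
    (hf : ∀ i, ∀ x ∈ Q, x ∈ P i → ∀ y ∈ Q, y ∈ P i → dist (f x) (f y) ≤ K * dist x y)
    {x y : E} (hx : x ∈ Q) (hy : y ∈ Q) : dist (f x) (f y) ≤ K * dist x y := by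
  -- near every point of a segment the map is Lipschitz at this point
  set c : ℝ → E := fun t => y + t • (x - y) with hc
  have hcQ : ∀ t ∈ Icc (0:ℝ) 1, c t ∈ Q := fun t ht => hQ.add_smul_sub_mem hy hx ht
  have hcc : Continuous c := by fun_prop
  have hcd : ∀ s t, dist (c s) (c t) = |s - t| * dist x y := by
    intro s t
    rw [dist_eq_norm, dist_eq_norm]
    have : c s - c t = (s - t) • (x - y) := by
      simp only [hc]
      rw [add_sub_add_left_eq_sub, ← sub_smul]
    rw [this, norm_smul, Real.norm_eq_abs]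
  have key : ∀ t ∈ Icc (0:ℝ) 1, ∀ᶠ s in 𝓝[Icc (0:ℝ) 1] t,
      dist (f (c s)) (f (c t)) ≤ K * (|s - t| * dist x y) := by
    intro t ht
    have h1 : ∀ᶠ s in 𝓝 t, ∀ i, c t ∉ P i → c s ∉ P i := by
      rw [eventually_all]
      intro i
      by_cases h : c t ∈ P i
      · exact Eventually.of_forall fun s hs => absurd h hs
      · have : (P i)ᶜ ∈ 𝓝 (c t) := (hP i).isOpen_compl.mem_nhds h
        filter_upwards [hcc.continuousAt this] with s hs _
        exact hs
    filter_upwards [mem_nhdsWithin_of_mem_nhds h1, self_mem_nhdsWithin] with s hs hs1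
    obtain ⟨i, hi⟩ := mem_iUnion.1 (hcov (hcQ s hs1))
    have hti : c t ∈ P i := by
      by_contra h
      exact hs i h hi
    rw [← hcd]
    exact hf i _ (hcQ s hs1) hi _ (hcQ t ht) hti
  have hgc : ContinuousOn (fun t => f (c t)) (Icc (0:ℝ) 1) := by
    intro t ht
    rw [ContinuousWithinAt, tendsto_iff_dist_tendsto_zero]
    have h0 : Tendsto (fun s : ℝ => K * (|s - t| * dist x y)) (𝓝[Icc (0:ℝ) 1] t) (𝓝 0) := by
      have : Tendsto (fun s : ℝ => K * (|s - t| * dist x y)) (𝓝 t) (𝓝 (K * (|t - t| * dist x y))) :=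
        (by fun_prop : Continuous fun s : ℝ => K * (|s - t| * dist x y)).tendsto t
      simp only [sub_self, abs_zero, zero_mul, mul_zero] at this
      exact this.mono_left nhdsWithin_le_nhds
    exact squeeze_zero' (Eventually.of_forall fun _ => dist_nonneg) (key t ht) h0
  have := dist_le_of_right (g := fun t => f (c t)) (C := K * dist x y) zero_le_one hgc (by
    intro t ht
    have h1 := key t ⟨ht.1, ht.2.le⟩
    have h2 : ∀ᶠ s in 𝓝[>] t, s ∈ Icc (0:ℝ) 1 := by
      filter_upwards [Ioo_mem_nhdsGT ht.2] with s hs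
      exact ⟨ht.1.trans hs.1.le, hs.2.le⟩
    have h3 : 𝓝[Ioo t 1] t ≤ 𝓝[Icc (0:ℝ) 1] t :=
      nhdsWithin_mono _ fun s hs => ⟨ht.1.trans hs.1.le, hs.2.le⟩
    have h4 : ∀ᶠ s in 𝓝[>] t, dist (f (c s)) (f (c t)) ≤ K * (|s - t| * dist x y) := by
      rw [← nhdsWithin_Ioo_eq_nhdsGT ht.2]
      exact h3 h1
    filter_upwards [h4, self_mem_nhdsWithin] with s hs hs1
    rw [abs_of_pos (sub_pos.2 hs1)] at hs
    linarith [hs, mul_comm (s - t) (dist x y), mul_assoc K (dist x y) (s - t)])
  simp only [hc, zero_smul, add_zero, one_smul, add_sub_cancel, sub_zero, mul_one] at this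
  exact this

end P073.H950
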