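import Vale.Agent.P073.H950.Ramp

/-!
# P073, H950: the `ℓ¹` Lipschitz bound for the domes of one family

`f c = min (s c ∘ θ) (ram m (rk c) ∘ ρ)` on a shell, `f c = -1` on the core: the sum of the
variations of all `f c` of one laminar ranked family is bounded by the one of the `s c` and by the
one of a single ramp.
-/

open Set Metric Topology Filter

namespace P073.H950

/-- **`ℓ¹` Lipschitz bound for the domes of one laminar ranked family.** -/
theorem sum_dome_le {E' : Type*} [NormedAddCommGroup E'] [NormedSpace ℝ E'] {T : Type*}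
    [PseudoMetricSpace T] {J : Type*} [Fintype J] {m : ℕ} {rk : J → ℕ}
    (hinj : Function.Injective rk) {S : Set T} {s : J → T → ℝ} {O : J → Set T}
    (hs : ∀ c, ∀ θ ∈ S, s c θ ∈ Icc (-1:ℝ) 1) (hoff : ∀ c, ∀ θ ∈ S, θ ∉ O c → s c θ = -1)
    (hO : ∀ c, IsClosed (O c)) (hsc : ∀ c, ContinuousOn (s c) S)
    (hlam : ∀ c c', c ≠ c' → ((∀ θ ∈ O c, s c' θ = 1) ∧ rk c < rk c') ∨
      ((∀ θ ∈ O c', s c θ = 1) ∧ rk c' < rk c) ∨ Disjoint (O c) (O c'))
    {L : ℝ} (hL : ∀ θ ∈ S, ∀ θ' ∈ S, ∑ c, |s c θ - s c θ'| ≤ L * dist θ θ')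
    {Q sh core : Set E'} (hQ : Convex ℝ Q) (hsh : IsClosed sh) (hcore : IsClosed core)
    (hcov : Q ⊆ core ∪ sh) {θ : E' → T} {ρ : E' → ℝ} (hθm : MapsTo θ sh S) {a b : ℝ}
    (hL0 : 0 ≤ L) (hθ : ∀ x ∈ sh, ∀ y ∈ sh, dist (θ x) (θ y) ≤ a * dist x y)
    (hb : 0 ≤ b) (hρ : ∀ x ∈ sh, ∀ y ∈ sh, |ρ x - ρ y| ≤ b * dist x y)
    {f : J → E' → ℝ} (hf0 : ∀ c, ∀ x ∈ core, f c x = -1)
    (hf1 : ∀ c, ∀ x ∈ sh, f c x = min (s c (θ x)) (ram m (rk c) (ρ x)))
    {x y : E'} (hx : x ∈ Q) (hy : y ∈ Q) :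
    ∑ c, |f c x - f c y| ≤ max (L * a) (2 * (2 * m + 1) * b) * dist x y := by
  have hθc : ContinuousOn θ sh := by
    intro z hz
    rw [ContinuousWithinAt, tendsto_iff_dist_tendsto_zero]
    have h0 : Tendsto (fun w : E' => a * dist w z) (𝓝[sh] z) (𝓝 0) := by
      have : Tendsto (fun w : E' => a * dist w z) (𝓝 z) (𝓝 (a * dist z z)) :=
        (by fun_prop : Continuous fun w : E' => a * dist w z).tendsto z
      simp only [dist_self, mul_zero] at this
      exact this.mono_left nhdsWithin_le_nhds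
    refine squeeze_zero' (Eventually.of_forall fun _ => dist_nonneg) ?_ h0
    filter_upwards [self_mem_nhdsWithin] with w hw using hθ w hw z hz
  have hρc : ContinuousOn ρ sh := by
    intro z hz
    rw [ContinuousWithinAt, tendsto_iff_dist_tendsto_zero]
    have h0 : Tendsto (fun w : E' => b * dist w z) (𝓝[sh] z) (𝓝 0) := by
      have : Tendsto (fun w : E' => b * dist w z) (𝓝 z) (𝓝 (b * dist z z)) :=
        (by fun_prop : Continuous fun w : E' => b * dist w z).tendsto z
      simp only [dist_self, mul_zero] at this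
      exact this.mono_left nhdsWithin_le_nhds
    refine squeeze_zero' (Eventually.of_forall fun _ => dist_nonneg) ?_ h0
    filter_upwards [self_mem_nhdsWithin] with w hw
    rw [Real.dist_eq]
    exact hρ w hw z hz
  have hramc : ∀ c, ContinuousOn (fun z => ram m (rk c) (ρ z)) sh := fun c =>
    (continuous_ram m (rk c)).comp_continuousOn hρc
  have hsθ : ∀ c, ContinuousOn (fun z => s c (θ z)) sh := fun c => (hsc c).comp hθc hθm
  -- the pieces
  set P : Option (Option J) → Set E' := fun i => match i with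
    | none => core
    | some none => {z | z ∈ sh ∧ ∀ c, s c (θ z) ≤ ram m (rk c) (ρ z)}
    | some (some c) => {z | z ∈ sh ∧ θ z ∈ O c ∧ ρ z ≤ be m (rk c) ∧
        ram m (rk c) (ρ z) ≤ s c (θ z)} with hP
  have hPc : ∀ i, IsClosed (P i) := by
    intro i
    match i with
    | none => exact hcore
    | some none =>
      have h2 : P (some none)
          = sh ∩ ⋂ c, (sh ∩ (fun z => s c (θ z) - ram m (rk c) (ρ z)) ⁻¹' Iic 0) := by
        ext z
        simp only [hP, Set.mem_ofPred_eq, mem_inter_iff, mem_iInter, mem_preimage, mem_Iic,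
          sub_nonpos]
        exact ⟨fun h => ⟨h.1, fun c => ⟨h.1, h.2 c⟩⟩, fun h => ⟨h.1, fun c => (h.2 c).2⟩⟩
      rw [h2]
      refine hsh.inter (isClosed_iInter fun c => ?_)
      exact ((hsθ c).sub (hramc c)).preimage_isClosed_of_isClosed hsh isClosed_Iic
    | some (some c) =>
      have h2 : P (some (some c)) = (sh ∩ θ ⁻¹' O c) ∩ (sh ∩ ρ ⁻¹' Iic (be m (rk c))) ∩
          (sh ∩ (fun z => ram m (rk c) (ρ z) - s c (θ z)) ⁻¹' Iic 0) := by
        ext z
        simp only [hP, Set.mem_ofPred_eq, mem_inter_iff, mem_preimage, mem_Iic, sub_nonpos]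
        tauto
      rw [h2]
      refine ((hθc.preimage_isClosed_of_isClosed hsh (hO c)).inter
        (hρc.preimage_isClosed_of_isClosed hsh isClosed_Iic)).inter ?_
      exact ((hramc c).sub (hsθ c)).preimage_isClosed_of_isClosed hsh isClosed_Iic
  have hPcov : Q ⊆ ⋃ i, P i := by
    intro z hz
    rcases hcov hz with h | h
    · exact mem_iUnion.2 ⟨none, h⟩
    · by_cases h1 : ∀ c, s c (θ z) ≤ ram m (rk c) (ρ z)
      · exact mem_iUnion.2 ⟨some none, h, h1⟩
      · push Not at h1
        obtain ⟨c, hc⟩ := h1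
        refine mem_iUnion.2 ⟨some (some c), h, ?_, ?_, hc.le⟩
        · by_contra h2
          have h3 := hoff c _ (hθm h) h2
          rw [h3] at hc
          exact absurd (neg_one_le_ram m (rk c) (ρ z)) (not_le.2 hc)
        · exact (ram_lt_one (hc.trans_le (hs c _ (hθm h)).2)).le
  refine sum_abs_le_of_pieces hQ hPc hPcov (f := f) ?_ hx hy
  have hK1 : ∀ z w : E', L * a * dist z w ≤ max (L * a) (2 * (2 * m + 1) * b) * dist z w :=
    fun z w => mul_le_mul_of_nonneg_right (le_max_left _ _) dist_nonneg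
  have hK2 : ∀ z w : E', 2 * (2 * m + 1) * b * dist z w
      ≤ max (L * a) (2 * (2 * m + 1) * b) * dist z w :=
    fun z w => mul_le_mul_of_nonneg_right (le_max_right _ _) dist_nonneg
  have hb0 : ∀ z w : E', 0 ≤ b * dist z w := fun z w => mul_nonneg hb dist_nonneg
  intro i
  match i with
  | none =>
    intro z _ hz w _ hw
    have : ∑ c, |f c z - f c w| = 0 := by
      refine Finset.sum_eq_zero fun c _ => ?_
      rw [hf0 c z hz, hf0 c w hw, sub_self, abs_zero]
    rw [this]
    refine le_trans ?_ (hK2 z w)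
    have := hb0 z w
    have h2 : (0:ℝ) ≤ 2 * (2 * m + 1) := by positivity
    nlinarith
  | some none =>
    rintro z _ ⟨hz, hz1⟩ w _ ⟨hw, hw1⟩
    have : ∑ c, |f c z - f c w| = ∑ c, |s c (θ z) - s c (θ w)| := by
      refine Finset.sum_congr rfl fun c _ => ?_
      rw [hf1 c z hz, hf1 c w hw, min_eq_left (hz1 c), min_eq_left (hw1 c)]
    rw [this]
    refine ((hL _ (hθm hz) _ (hθm hw)).trans ?_).trans (hK1 z w)
    rw [mul_assoc]
    exact mul_le_mul_of_nonneg_left (hθ z hz w hw) hL0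
  | some (some c) =>
    rintro z _ ⟨hz, hz1, hz2, hz3⟩ w _ ⟨hw, hw1, hw2, hw3⟩
    -- the values on this piece
    have hval : ∀ c', (∀ v ∈ P (some (some c)), f c' v = ram m (rk c') (ρ v)) ∨
        ∀ v ∈ P (some (some c)), f c' v = -1 := by
      intro c'
      by_cases hcc : c' = c
      · left
        subst hcc
        rintro v ⟨hv, -, -, hv3⟩
        rw [hf1 c' v hv, min_eq_right hv3]
      · rcases hlam c' c hcc with ⟨h1, h2⟩ | ⟨h1, -⟩ | h1
        · -- `c'` inside `c`
          right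
          rintro v ⟨hv, hv1, hv2, hv3⟩
          rw [hf1 c' v hv]
          by_cases h3 : ρ v ≤ al m (rk c')
          · rw [ram_of_le h3, min_eq_right (hs c' _ (hθm hv)).1]
          · exfalso
            have := be_add_le_al (m := m) h2
            have := uu_pos m
            linarith
        · left
          rintro v ⟨hv, hv1, hv2, hv3⟩
          rw [hf1 c' v hv, h1 _ hv1, min_eq_right (ram_le_one _ _ _)]
        · right
          rintro v ⟨hv, hv1, hv2, hv3⟩
          have : θ v ∉ O c' := fun h => Set.disjoint_left.1 h1 h hv1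
          rw [hf1 c' v hv, hoff c' _ (hθm hv) this, min_eq_left (neg_one_le_ram _ _ _)]
    have : ∑ c', |f c' z - f c' w| ≤ ∑ c', |ram m (rk c') (ρ z) - ram m (rk c') (ρ w)| := by
      refine Finset.sum_le_sum fun c' _ => ?_
      rcases hval c' with h | h
      · rw [h z ⟨hz, hz1, hz2, hz3⟩, h w ⟨hw, hw1, hw2, hw3⟩]
      · rw [h z ⟨hz, hz1, hz2, hz3⟩, h w ⟨hw, hw1, hw2, hw3⟩, sub_self, abs_zero]
        exact abs_nonneg _
    refine ((this.trans (sum_ram_le hinj _ _)).trans ?_).trans (hK2 z w)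
    rw [mul_assoc (2 * (2 * (m:ℝ) + 1)) b]
    exact mul_le_mul_of_nonneg_left (hρ z hz w hw) (by positivity)

end P073.H950
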