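import Vale.Agent.P073.PA260.Collar
import Vale.Agent.P073.H950.DomeSum

/-!
# P073, H950: polar coordinates in a cell with a chart

A cell `Q` with boundary `S` and a chart `χ` of the unit ball onto `Q`.  `Chart.polar` is the
conical homeomorphism `S × [0,1] → shell`, `(θ, ρ)`, `ρ = 1` on the boundary; its inverse is
Lipschitz.
-/

open Set Metric Topology Filter

namespace P073.H950

open P073

theorem abs_annI_sub_le (s u s' u' : ℝ) : |annI s u - annI s' u'| ≤ 2 * |u - u'| + |s - s'| := by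
  unfold annI
  have h1 := abs_max_sub_max_le_max (u - (1 - s)) (min (2 * u) (u + (1 - s)))
    (u' - (1 - s')) (min (2 * u') (u' + (1 - s')))
  have h2 := abs_min_sub_min_le_max (2 * u) (u + (1 - s)) (2 * u') (u' + (1 - s'))
  have h3 : |u - (1 - s) - (u' - (1 - s'))| ≤ |u - u'| + |s - s'| := by
    have : u - (1 - s) - (u' - (1 - s')) = (u - u') + (s - s') := by ring
    rw [this]; exact abs_add_le _ _
  have h4 : |u + (1 - s) - (u' + (1 - s'))| ≤ |u - u'| + |s - s'| := by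
    have : u + (1 - s) - (u' + (1 - s')) = (u - u') + (s' - s) := by ring
    rw [this, abs_sub_comm s s']; exact abs_add_le _ _
  have h5 : |2 * u - 2 * u'| = 2 * |u - u'| := by
    rw [← mul_sub, abs_mul, abs_of_pos (by norm_num : (0:ℝ) < 2)]
  have h6 := abs_nonneg (u - u')
  have h7 := abs_nonneg (s - s')
  refine h1.trans (max_le (by linarith) (h2.trans (max_le (by linarith) (by linarith))))

/-- a cell with a chart -/
structure Chart {E : Type*} [NormedAddCommGroup E] [NormedSpace ℝ E] (n : ℕ) (Q S : Set E) where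
  χ : ConHomeo (closedBall (0 : Fin n → ℝ) 1) Q
  sph : χ.toFun '' sphere 0 1 = S

namespace Chart

variable {E : Type*} [NormedAddCommGroup E] [NormedSpace ℝ E] {n : ℕ} {Q S : Set E}
  (C : Chart n Q S)

/-- the standard shell -/
def std (n : ℕ) : Set (Fin n → ℝ) := {x : Fin n → ℝ | ‖x‖ ∈ Icc (1 / 2 : ℝ) 1}

theorem std_sub : std n ⊆ closedBall (0 : Fin n → ℝ) 1 := fun _ hx =>
  mem_closedBall_zero_iff.2 hx.2

theorem isClosed_std : IsClosed (std n) :=
  isClosed_Icc.preimage (continuous_norm (E := Fin n → ℝ))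

theorem isCompact_std : IsCompact (std n) :=
  (isCompact_closedBall (0 : Fin n → ℝ) 1).of_isClosed_subset isClosed_std std_sub

theorem conicalSet_std : ConicalSet (std n) := (annHomeo n).conicalSet_right

/-- the shell of the cell -/
def sh : Set E := C.χ.toFun '' std n

/-- the core of the cell -/
def core : Set E := C.χ.toFun '' closedBall 0 (1 / 2)

/-- the depth coordinate (`1` on the boundary) -/
noncomputable def rho (z : E) : ℝ := 2 * ‖C.χ.invFun z‖ - 1

/-- the projection to the boundary -/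
noncomputable def ang (z : E) : E :=
  C.χ.toFun fun i => annI ‖C.χ.invFun z‖ (C.χ.invFun z i)

theorem sh_sub : C.sh ⊆ Q := by
  rintro _ ⟨x, hx, rfl⟩; exact C.χ.mapsTo (std_sub hx)

theorem core_sub : C.core ⊆ Q := by
  rintro _ ⟨x, hx, rfl⟩
  exact C.χ.mapsTo (closedBall_subset_closedBall (by norm_num) hx)

include C in
theorem S_sub : S ⊆ Q := by
  rw [← C.sph]
  rintro _ ⟨x, hx, rfl⟩
  exact C.χ.mapsTo (sphere_subset_closedBall hx)

theorem cover : Q ⊆ C.core ∪ C.sh := by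
  intro z hz
  have h1 := C.χ.mapsTo_inv hz
  rcases le_total ‖C.χ.invFun z‖ (1 / 2) with h | h
  · exact Or.inl ⟨_, mem_closedBall_zero_iff.2 h, C.χ.right_inv hz⟩
  · exact Or.inr ⟨_, ⟨h, mem_closedBall_zero_iff.1 h1⟩, C.χ.right_inv hz⟩

theorem isCompact_sh : IsCompact C.sh := isCompact_std.image_of_continuousOn
  (C.χ.cont.mono std_sub)

theorem isCompact_core : IsCompact C.core := (isCompact_closedBall _ _).image_of_continuousOn
  (C.χ.cont.mono (closedBall_subset_closedBall (by norm_num)))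

include C in
theorem isCompact_S : IsCompact S := by
  rw [← C.sph]
  exact (isCompact_sphere _ _).image_of_continuousOn (C.χ.cont.mono sphere_subset_closedBall)

/-- the boundary chart -/
noncomputable def bd : ConHomeo (sphere (0 : Fin n → ℝ) 1) S :=
  (C.χ.restr (conicalSet_sphere_pi n) sphere_subset_closedBall).cast rfl C.sph

@[simp] theorem bd_toFun (x : Fin n → ℝ) : C.bd.toFun x = C.χ.toFun x := rfl

/-- **polar coordinates** in the cell -/
noncomputable def polar : ConHomeo (S ×ˢ Icc (0:ℝ) 1) C.sh :=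
  (((C.bd.symm.prod (ConHomeo.affIcc zero_lt_one (by norm_num : (1 / 2:ℝ) < 1))).trans
    (annHomeo n)).trans (C.χ.restr conicalSet_std std_sub)).cast rfl rfl

theorem polar_inv (z : E) : C.polar.invFun z = (C.ang z, C.rho z) := by
  show (C.χ.toFun (fun i => annI ‖C.χ.invFun z‖ (C.χ.invFun z i)),
    (0:ℝ) + (‖C.χ.invFun z‖ - 1 / 2) / (1 - 1 / 2) * (1 - 0)) = _
  refine Prod.ext rfl ?_
  show (0:ℝ) + (‖C.χ.invFun z‖ - 1 / 2) / (1 - 1 / 2) * (1 - 0) = 2 * ‖C.χ.invFun z‖ - 1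
  ring

theorem ang_mem {z : E} (hz : z ∈ C.sh) : C.ang z ∈ S := by
  have := C.polar.mapsTo_inv hz
  rw [polar_inv] at this
  exact this.1

theorem rho_mem {z : E} (hz : z ∈ C.sh) : C.rho z ∈ Icc (0:ℝ) 1 := by
  have := C.polar.mapsTo_inv hz
  rw [polar_inv] at this
  exact this.2

theorem polar_ang_rho {z : E} (hz : z ∈ C.sh) : C.polar.toFun (C.ang z, C.rho z) = z := by
  rw [← polar_inv]
  exact C.polar.right_inv hz

theorem ang_polar {p : E × ℝ} (hp : p ∈ S ×ˢ Icc (0:ℝ) 1) : C.ang (C.polar.toFun p) = p.1 := by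
  have := C.polar.left_inv hp
  rw [polar_inv] at this
  exact congrArg Prod.fst this

theorem rho_polar {p : E × ℝ} (hp : p ∈ S ×ˢ Icc (0:ℝ) 1) : C.rho (C.polar.toFun p) = p.2 := by
  have := C.polar.left_inv hp
  rw [polar_inv] at this
  exact congrArg Prod.snd this

theorem polar_one {z : E} (hz : z ∈ S) : C.polar.toFun (z, 1) = z := by
  show C.χ.toFun ((annHomeo n).toFun (C.χ.invFun z,
    (ConHomeo.affIcc zero_lt_one (by norm_num : (1 / 2:ℝ) < 1)).toFun 1)) = z
  rw [ConHomeo.affIcc_right, annHomeo_one]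
  exact C.χ.right_inv (C.S_sub hz)

theorem S_sub_sh : S ⊆ C.sh := fun z hz => by
  rw [← C.polar_one hz]
  exact C.polar.mapsTo ⟨hz, right_mem_Icc.2 zero_le_one⟩

theorem ang_of_mem {z : E} (hz : z ∈ S) : C.ang z = z := by
  have := C.ang_polar (p := (z, 1)) ⟨hz, right_mem_Icc.2 zero_le_one⟩
  rwa [C.polar_one hz] at this

theorem rho_of_mem {z : E} (hz : z ∈ S) : C.rho z = 1 := by
  have := C.rho_polar (p := (z, 1)) ⟨hz, right_mem_Icc.2 zero_le_one⟩
  rwa [C.polar_one hz] at this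

theorem mem_S_iff {z : E} (hz : z ∈ C.sh) : z ∈ S ↔ C.rho z = 1 := by
  refine ⟨C.rho_of_mem, fun h => ?_⟩
  have h1 := C.polar_ang_rho hz
  rw [h, C.polar_one (C.ang_mem hz)] at h1
  rw [← h1]
  exact C.ang_mem hz

theorem rho_core {z : E} (hz : z ∈ C.core) : C.rho z ≤ 0 := by
  obtain ⟨x, hx, rfl⟩ := hz
  unfold rho
  rw [C.χ.left_inv (closedBall_subset_closedBall (by norm_num) hx)]
  have := mem_closedBall_zero_iff.1 hx
  linarith

/-- Lipschitz bound of the projection to the boundary -/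
theorem dist_ang_le {a b : ℝ} (ha0 : 0 ≤ a)
    (ha : ∀ x ∈ closedBall (0 : Fin n → ℝ) 1, ∀ y ∈ closedBall (0 : Fin n → ℝ) 1,
      dist (C.χ.toFun x) (C.χ.toFun y) ≤ a * dist x y)
    (hb : ∀ x ∈ Q, ∀ y ∈ Q, dist (C.χ.invFun x) (C.χ.invFun y) ≤ b * dist x y) {z w : E}
    (hz : z ∈ C.sh) (hw : w ∈ C.sh) : dist (C.ang z) (C.ang w) ≤ 3 * a * b * dist z w := by
  have hm : ∀ v ∈ C.sh, (fun i => annI ‖C.χ.invFun v‖ (C.χ.invFun v i))
      ∈ closedBall (0 : Fin n → ℝ) 1 := by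
    rintro _ ⟨x, hx, rfl⟩
    rw [C.χ.left_inv (std_sub hx), mem_closedBall_zero_iff]
    exact (norm_annI hx).le
  refine (ha _ (hm z hz) _ (hm w hw)).trans ?_
  have h1 : dist (fun i => annI ‖C.χ.invFun z‖ (C.χ.invFun z i))
      (fun i => annI ‖C.χ.invFun w‖ (C.χ.invFun w i))
      ≤ 3 * dist (C.χ.invFun z) (C.χ.invFun w) := by
    rw [dist_pi_le_iff (by positivity)]
    intro i
    rw [Real.dist_eq]
    refine (abs_annI_sub_le _ _ _ _).trans ?_
    have h2 : |C.χ.invFun z i - C.χ.invFun w i| ≤ dist (C.χ.invFun z) (C.χ.invFun w) := by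
      rw [← Real.dist_eq]; exact dist_le_pi_dist _ _ i
    have h3 : |‖C.χ.invFun z‖ - ‖C.χ.invFun w‖| ≤ dist (C.χ.invFun z) (C.χ.invFun w) := by
      rw [dist_eq_norm]; exact abs_norm_sub_norm_le _ _
    linarith
  have h2 := hb z (C.sh_sub hz) w (C.sh_sub hw)
  have h3 : 3 * a * b * dist z w = a * (3 * (b * dist z w)) := by ring
  rw [h3]
  refine mul_le_mul_of_nonneg_left (h1.trans ?_) ha0
  linarith

theorem abs_rho_sub_le {b : ℝ}
    (hb : ∀ x ∈ Q, ∀ y ∈ Q, dist (C.χ.invFun x) (C.χ.invFun y) ≤ b * dist x y) {z w : E}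
    (hz : z ∈ Q) (hw : w ∈ Q) : |C.rho z - C.rho w| ≤ 2 * b * dist z w := by
  unfold rho
  have h3 : |‖C.χ.invFun z‖ - ‖C.χ.invFun w‖| ≤ dist (C.χ.invFun z) (C.χ.invFun w) := by
    rw [dist_eq_norm]; exact abs_norm_sub_norm_le _ _
  have : 2 * ‖C.χ.invFun z‖ - 1 - (2 * ‖C.χ.invFun w‖ - 1)
      = 2 * (‖C.χ.invFun z‖ - ‖C.χ.invFun w‖) := by ring
  rw [this, abs_mul, abs_of_pos (by norm_num : (0:ℝ) < 2)]
  linarith [hb z hz w hw]

/-- the Lipschitz constants of a chart and of its inverse -/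
structure Lip (C : Chart n Q S) (a b : ℝ) : Prop where
  a0 : 0 ≤ a
  b0 : 0 ≤ b
  ha : ∀ x ∈ closedBall (0 : Fin n → ℝ) 1, ∀ y ∈ closedBall (0 : Fin n → ℝ) 1,
    dist (C.χ.toFun x) (C.χ.toFun y) ≤ a * dist x y
  hb : ∀ x ∈ Q, ∀ y ∈ Q, dist (C.χ.invFun x) (C.χ.invFun y) ≤ b * dist x y

end Chart

end P073.H950
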