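import Vale.Agent.P073.H267.Ball
import Vale.Agent.P073.H880.FSys
import Vale.Agent.P073.H950.Shell

/-!
# P073, H950: transport of the thick caps to a cell

`C : Chart (n + 1) Q S` (a cell `Q` with boundary `S`) and `D : Circles n S J m` (thick spheres in
`S`): the caps `C.cap D c ⊆ Q` with middle sheets `C.cap0 D c`, level functions `C.lev D c : Q → ℝ`
and fibres `C.fib D c`.
-/

open Set Metric Topology Filter

namespace P073.H950

open P073 P073.H936 P073.H880 P073.H267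

section image

variable {E E' : Type*} [NormedAddCommGroup E] [NormedSpace ℝ E] [NormedAddCommGroup E']
  [NormedSpace ℝ E'] {D N N' X : Set E} {Y : Set E'} {s s' : E → ℝ} {u u' : E' → ℝ}

/-- **transport of a fibred sheet** -/
noncomputable def fibImage (F : Fib D N s) (Φ : ConHomeo X Y) (hN : N ⊆ X)
    (hu : ∀ x ∈ N, u (Φ.toFun x) = s x) : Fib (Φ.toFun '' D) (Φ.toFun '' N) u where
  Γ := (((Φ.restr F.conicalSet_D (F.sub.trans hN)).symm.prod
    (ConHomeo.refl (conicalSet_Icc (-1:ℝ) 1))).trans F.Γ).trans (Φ.restr F.Γ.conicalSet_right hN)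
  lev := by
    rintro _ ⟨z, hz, rfl⟩ t ht
    show u (Φ.toFun (F.Γ.toFun (Φ.invFun (Φ.toFun z), t))) = t
    rw [Φ.left_inv (hN (F.sub hz)), hu _ (F.mem_N hz ht), F.lev z hz t ht]
  zero := by
    rintro _ ⟨z, hz, rfl⟩
    show Φ.toFun (F.Γ.toFun (Φ.invFun (Φ.toFun z), 0)) = Φ.toFun z
    rw [Φ.left_inv (hN (F.sub hz)), F.zero z hz]

theorem fibImage_toFun (F : Fib D N s) (Φ : ConHomeo X Y) (hN : N ⊆ X)
    (hu : ∀ x ∈ N, u (Φ.toFun x) = s x) {z : E} (hz : z ∈ D) (t : ℝ) :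
    (fibImage F Φ hN hu).Γ.toFun (Φ.toFun z, t) = Φ.toFun (F.Γ.toFun (z, t)) := by
  show Φ.toFun (F.Γ.toFun (Φ.invFun (Φ.toFun z), t)) = _
  rw [Φ.left_inv (hN (F.sub hz))]

theorem mem_image_iff' (Φ : ConHomeo X Y) {A : Set E} (hA : A ⊆ X) {x : E} (hx : x ∈ X) :
    Φ.toFun x ∈ Φ.toFun '' A ↔ x ∈ A := by
  constructor
  · rintro ⟨y, hy, h⟩
    rw [← Φ.injOn (hA hy) hx h]; exact hy
  · exact fun h => ⟨x, h, rfl⟩

/-- **transport of commuting fibres** -/
theorem Pres.image {F : Fib D N s} {Φ : ConHomeo X Y} {hN : N ⊆ X}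
    {hu : ∀ x ∈ N, u (Φ.toFun x) = s x} (h : Pres F N' s') (hN' : N' ⊆ X)
    (hu' : ∀ x ∈ N', u' (Φ.toFun x) = s' x) :
    Pres (fibImage F Φ hN hu) (Φ.toFun '' N') u' := by
  rintro _ ⟨z, hz, rfl⟩ t ht t' ht' hm
  rw [fibImage_toFun F Φ hN hu hz] at hm ⊢
  rw [fibImage_toFun F Φ hN hu hz]
  have h1 : F.Γ.toFun (z, t) ∈ N' := (mem_image_iff' Φ hN' (hN (F.mem_N hz ht))).1 hm
  obtain ⟨h2, h3⟩ := h z hz t ht t' ht' h1
  exact ⟨⟨_, h2, rfl⟩, by rw [hu' _ h2, hu' _ h1, h3]⟩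

end image

namespace Chart

variable {E : Type*} [NormedAddCommGroup E] [NormedSpace ℝ E] {n m : ℕ} {Q S : Set E}
  {J : Type*} (C : Chart (n + 1) Q S) (D : Circles n S J m)

theorem top_pos : 0 < D.top := by
  unfold Circles.top; positivity

theorem one_le_top : 1 ≤ D.top := by
  unfold Circles.top
  have : (0:ℝ) ≤ m := Nat.cast_nonneg m
  linarith

include C in
theorem conicalSet_S' : ConicalSet S := C.bd.conicalSet_right

/-- rescaled polar coordinates -/
noncomputable def pol : ConHomeo (S ×ˢ Icc (0:ℝ) D.top) C.sh :=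
  ((ConHomeo.refl C.conicalSet_S').prod (ConHomeo.affIcc (top_pos D) zero_lt_one)).trans C.polar

theorem pol_toFun (θ : E) (y : ℝ) : (C.pol D).toFun (θ, y) = C.polar.toFun (θ, y / D.top) := by
  show C.polar.toFun (θ, (0:ℝ) + (y - 0) / (D.top - 0) * (1 - 0)) = _
  congr 2
  ring

theorem pol_inv (z : E) : (C.pol D).invFun z = (C.ang z, D.top * C.rho z) := by
  show ((C.polar.invFun z).1, (0:ℝ) + ((C.polar.invFun z).2 - 0) / (1 - 0) * (D.top - 0)) = _
  rw [C.polar_inv z]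
  refine Prod.ext rfl ?_
  show (0:ℝ) + (C.rho z - 0) / (1 - 0) * (D.top - 0) = _
  ring

theorem pol_top {z : E} (hz : z ∈ S) : (C.pol D).toFun (z, D.top) = z := by
  rw [pol_toFun, div_self (top_pos D).ne', C.polar_one hz]

theorem pol_mem {p : E × ℝ} (hp : p ∈ S ×ˢ Icc (0:ℝ) D.top) : (C.pol D).toFun p ∈ C.sh :=
  (C.pol D).mapsTo hp

theorem ang_pol {p : E × ℝ} (hp : p ∈ S ×ˢ Icc (0:ℝ) D.top) : C.ang ((C.pol D).toFun p) = p.1 := by
  have h := (C.pol D).left_inv hp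
  rw [pol_inv] at h
  exact congrArg Prod.fst h

theorem rho_pol {p : E × ℝ} (hp : p ∈ S ×ˢ Icc (0:ℝ) D.top) :
    D.top * C.rho ((C.pol D).toFun p) = p.2 := by
  have h := (C.pol D).left_inv hp
  rw [pol_inv] at h
  exact congrArg Prod.snd h

/-- the image of a point is in the boundary iff it is at the top -/
theorem pol_mem_S {p : E × ℝ} (hp : p ∈ S ×ˢ Icc (0:ℝ) D.top) :
    (C.pol D).toFun p ∈ S ↔ p.2 = D.top := by
  rw [C.mem_S_iff (C.pol_mem D hp)]
  have h := C.rho_pol D hp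
  have ht := (top_pos D).ne'
  constructor
  · intro h1; rw [← h, h1, mul_one]
  · intro h1
    rw [h1] at h
    exact (mul_eq_left₀ ht).1 h

theorem N_sub' (c : J) : D.N c ⊆ S ×ˢ Icc (0:ℝ) D.top := (D.N_sub c).trans
  (prod_mono Subset.rfl (Icc_subset_Icc_left zero_le_one))

theorem N0_sub' (c : J) : D.N0 c ⊆ S ×ˢ Icc (0:ℝ) D.top := (D.fib c).sub.trans (N_sub' D c)

open Classical in
/-- **the level function of the cap** -/
noncomputable def lev (c : J) (z : E) : ℝ :=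
  if z ∈ C.sh then D.b c (C.ang z, D.top * C.rho z) else -1

/-- the thick cap -/
def cap (c : J) : Set E := (C.pol D).toFun '' D.N c

/-- the middle sheet of the cap -/
def cap0 (c : J) : Set E := (C.pol D).toFun '' D.N0 c

theorem lev_sh (c : J) {z : E} (hz : z ∈ C.sh) :
    C.lev D c z = D.b c (C.ang z, D.top * C.rho z) := if_pos hz

theorem lev_pol (c : J) {p : E × ℝ} (hp : p ∈ S ×ˢ Icc (0:ℝ) D.top) :
    C.lev D c ((C.pol D).toFun p) = D.b c p := by
  rw [C.lev_sh D c (C.pol_mem D hp), C.ang_pol D hp, C.rho_pol D hp]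

theorem cap_sub_sh (c : J) : C.cap D c ⊆ C.sh := by
  rintro _ ⟨p, hp, rfl⟩
  exact C.pol_mem D (N_sub' D c hp)

theorem cap_sub (c : J) : C.cap D c ⊆ Q := (C.cap_sub_sh D c).trans C.sh_sub

/-- **the fibres of the caps** -/
noncomputable def fib (c : J) : Fib (C.cap0 D c) (C.cap D c) (C.lev D c) :=
  fibImage (D.fib c) (C.pol D) (N_sub' D c) fun _ hx => C.lev_pol D c (N_sub' D c hx)

theorem fib_toFun (c : J) {p : E × ℝ} (hp : p ∈ D.N0 c) (t : ℝ) :
    (C.fib D c).Γ.toFun ((C.pol D).toFun p, t) = (C.pol D).toFun ((D.Gam c).toFun (p, t)) :=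
  fibImage_toFun _ _ _ _ hp t

/-- **the fibres of caps of different families commute** -/
theorem pres (c c' : J) (h : D.typ c ≠ D.typ c') :
    Pres (C.fib D c) (C.cap D c') (C.lev D c') :=
  Pres.image (D.pres c c' h) (N_sub' D c') fun _ hx => C.lev_pol D c' (N_sub' D c' hx)

/-- caps of the same family are disjoint -/
theorem cap_disj {c c' : J} (h : c ≠ c') (ht : D.typ c = D.typ c') :
    Disjoint (C.cap D c) (C.cap D c') := by
  rw [Set.disjoint_left]
  rintro _ ⟨p, hp, rfl⟩ ⟨q, hq, hqp⟩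
  have e := (C.pol D).injOn (N_sub' D c' hq) (N_sub' D c hp) hqp
  subst e
  exact Set.disjoint_left.1 (D.N_disj h ht) hp hq

/-- the boundary circle of the middle sheet -/
theorem cap0_S (c : J) : C.cap0 D c ∩ S = (D.a c).toFun '' (Sn n ×ˢ {(0:ℝ)}) := by
  ext z
  constructor
  · rintro ⟨⟨p, hp, rfl⟩, hz⟩
    have h1 := N0_sub' D c hp
    rw [C.pol_mem_S D h1] at hz
    have h2 : p ∈ D.N0 c ∩ (univ ×ˢ {D.top}) := ⟨hp, mem_univ _, hz⟩
    rw [D.N0_top c] at h2
    have h3 : p = (p.1, D.top) := Prod.ext rfl hz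
    rw [h3, C.pol_top D h1.1]
    exact h2.1
  · intro hz
    have hzS : z ∈ S := by
      obtain ⟨⟨x, t⟩, ⟨hx, ht⟩, rfl⟩ := hz
      have ht : t = 0 := ht
      subst ht
      exact D.sub c (Or.inr ((D.a c).mapsTo ⟨hx, zero_mem_LI⟩))
    have h2 : ((z, D.top) : E × ℝ) ∈ D.N0 c := D.mid_sub c ⟨hz, rfl⟩
    exact ⟨⟨_, h2, C.pol_top D hzS⟩, hzS⟩

/-- the trace of the thick cap -/
theorem cap_S (c : J) : C.cap D c ∩ S = D.A c := by
  ext z
  constructor
  · rintro ⟨⟨p, hp, rfl⟩, hz⟩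
    have h1 := N_sub' D c hp
    rw [C.pol_mem_S D h1] at hz
    have h2 : p ∈ D.N c ∩ (univ ×ˢ {D.top}) := ⟨hp, mem_univ _, hz⟩
    rw [D.N_top c] at h2
    have h3 : p = (p.1, D.top) := Prod.ext rfl hz
    rw [h3, C.pol_top D h1.1]
    exact h2.1
  · intro hz
    have hzS : z ∈ S := D.sub c (Or.inr hz)
    have h2 : ((z, D.top) : E × ℝ) ∈ D.A c ×ˢ {D.top} := ⟨hz, rfl⟩
    rw [← D.N_top c] at h2
    exact ⟨⟨_, h2.1, C.pol_top D hzS⟩, hzS⟩

/-- **the middle sheets are balls** -/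
theorem ball (c : J) : ConBall n (C.cap0 D c) (C.cap0 D c ∩ S) := by
  have h := (D.ball c).image (C.pol D) (N0_sub' D c)
  have e : (C.pol D).toFun '' D.mid c = C.cap0 D c ∩ S := by
    rw [C.cap0_S D c]
    ext z
    constructor
    · rintro ⟨p, ⟨hp1, hp2⟩, rfl⟩
      have hzS : p.1 ∈ S := (N0_sub' D c (D.mid_sub c ⟨hp1, hp2⟩)).1
      have h3 : p = (p.1, D.top) := Prod.ext rfl hp2
      rw [h3, C.pol_top D hzS]
      exact hp1
    · intro hz
      have h2 : ((z, D.top) : E × ℝ) ∈ D.mid c := ⟨hz, rfl⟩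
      have hzS : z ∈ S := (N0_sub' D c (D.mid_sub c h2)).1
      exact ⟨_, h2, C.pol_top D hzS⟩
  rw [e] at h
  exact h

/-- **fibres over the boundary stay in the boundary, the others miss it** -/
theorem bdry (c : J) : (C.fib D c).Bd S := by
  rintro _ ⟨p, hp, rfl⟩ t ht
  have hm : (D.Gam c).toFun (p, t) ∈ D.N c := (D.Gam c).mapsTo ⟨hp, ht⟩
  rw [C.fib_toFun D c hp, C.pol_mem_S D (N_sub' D c hm), C.pol_mem_S D (N0_sub' D c hp)]
  exact D.Gam_top_iff c hp ht

/-- the fibres over the boundary circle -/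
theorem fib_S (c : J) {x : Fin n → ℝ} (hx : x ∈ Sn n) {t : ℝ} (ht : t ∈ Icc (-1:ℝ) 1) :
    (C.fib D c).Γ.toFun ((D.a c).toFun (x, 0), t) = (D.a c).toFun (x, t) := by
  have hS : ∀ r ∈ Icc (-1:ℝ) 1, (D.a c).toFun (x, r) ∈ S := fun r hr =>
    D.sub c (Or.inr ((D.a c).mapsTo ⟨hx, hr⟩))
  have h0 : (((D.a c).toFun (x, 0), D.top) : E × ℝ) ∈ D.N0 c :=
    D.mid_sub c ⟨⟨(x, 0), ⟨hx, rfl⟩, rfl⟩, rfl⟩
  have h := C.fib_toFun D c h0 t
  rw [C.pol_top D (hS 0 zero_mem_LI), D.Gam_top c hx ht, C.pol_top D (hS t ht)] at h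
  exact h

/-- the level function on the boundary -/
theorem lev_S (c : J) {z : E} (hz : z ∈ S) : C.lev D c z = D.s c z := by
  rw [C.lev_sh D c (C.S_sub_sh hz), C.ang_of_mem hz, C.rho_of_mem hz, mul_one]
  exact D.b_top c hz

theorem lev_mem (c : J) (z : E) : C.lev D c z ∈ Icc (-1:ℝ) 1 := by
  by_cases h : z ∈ C.sh
  · rw [C.lev_sh D c h]
    exact D.b_mem (C.ang_mem h)
  · rw [lev, if_neg h]
    exact ⟨le_rfl, by norm_num⟩

/-- deep in the cell the level function is `-1` -/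
theorem lev_low (c : J) {z : E} (hz : D.top * C.rho z ≤ 1) : C.lev D c z = -1 := by
  by_cases h : z ∈ C.sh
  · rw [C.lev_sh D c h]
    exact D.b_bot c (C.ang_mem h) hz
  · exact if_neg h

theorem lev_core (c : J) {z : E} (hz : z ∈ C.core) : C.lev D c z = -1 := by
  refine C.lev_low D c ?_
  have := C.rho_core hz
  nlinarith [top_pos D]

/-- off the cap the level function is `±1` -/
theorem lev_off (c : J) {z : E} (hz : z ∉ C.cap D c) : C.lev D c z = -1 ∨ C.lev D c z = 1 := by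
  by_cases h : z ∈ C.sh
  · rw [C.lev_sh D c h]
    refine D.b_off (C.ang_mem h) ?_ ?_
    · have := (C.rho_mem h).2
      show D.top * C.rho z ≤ D.top
      nlinarith [top_pos D]
    · intro hN
      refine hz ⟨_, hN, ?_⟩
      rw [← C.pol_inv D z]
      exact (C.pol D).right_inv h
  · exact Or.inl (if_neg h)

/-- the middle sheet is the zero set of the level function -/
theorem mem_cap0_iff {c : J} {z : E} : z ∈ C.cap0 D c ↔ C.lev D c z = 0 := by
  constructor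
  · intro h
    exact ((C.fib D c).mem_D_iff.1 h).2
  · intro h
    refine (C.fib D c).mem_D_iff.2 ⟨?_, h⟩
    by_contra hN
    rcases C.lev_off D c hN with h1 | h1
    · rw [h] at h1; norm_num at h1
    · rw [h] at h1; norm_num at h1

theorem isCompact_cap (c : J) : IsCompact (C.cap D c) :=
  (D.isCompact_Nc c).image_of_continuousOn ((C.pol D).cont.mono (N_sub' D c))

end Chart

end P073.H950
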