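import Vale.Agent.P073.H950.Adapt4
import Vale.Agent.P073.H304.SpecB

/-!
# P073, H950 [ADAPT], part 5: the edges of `H304.SpecB` are the edges of `H193.Edg`
-/

open Set Metric Topology Filter MeasureTheory
open scoped ENNReal

namespace P073.H950

open Vale.Agent.P073.St (V)
open Vale.Agent.P073.H73 (onSeg Mesh Adapted)
open Vale.Agent.P073.H193 (vtx Pgn Ed InLine fam_of_mesh seg_sub Edges edges)
open Vale.Agent.P073
open P073.Net (len)

variable {Ω : Set V} {M : Mesh Ω}

theorem eLike_of_edge {a b : V} (h : H193.IsEdge M.F a b) : ELike M (a, b) :=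
  ⟨H193.Fam.ne_of_edge h, fun l ⟨x, hx, hx'⟩ =>
    (edges M).sub_of_mem (e := ⟨(a, b), h⟩) hx' hx⟩

theorem _root_.Vale.Agent.P073.H304.IsEdge.eLike {e : V × V} (H : H304.IsEdge M e) :
    ELike M e := ⟨H.ne, H.edge⟩

theorem isEdge_seg {e : V × V} (H : H304.IsEdge M e) :
    ∃ a b, H193.IsEdge M.F a b ∧ segment ℝ e.1 e.2 = segment ℝ a b := by
  obtain ⟨k, hk⟩ := H.sub
  obtain ⟨z, hz, hz', -⟩ := mid_mem (e := e) H.ne Subset.rfl
  obtain ⟨e₀, h1, h2⟩ := (edges M).bd k z (hk hz)
  have h3 := H.eLike.sub_edge e₀.2 hz' h1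
  exact ⟨_, _, e₀.2, h3.antisymm (H.max e₀.1 h3 (eLike_of_edge e₀.2).edge)⟩

theorem isEdge_of_edge {a b : V} (h : H193.IsEdge M.F a b) : H304.IsEdge M (a, b) where
  ne := H193.Fam.ne_of_edge h
  sub := h.ex
  edge := (eLike_of_edge h).edge
  max := by
    intro e' hsub hedge
    have hne := H193.Fam.ne_of_edge h
    have hne' : e'.1 ≠ e'.2 := by
      intro h1
      rw [h1, segment_same] at hsub
      exact hne ((hsub (left_mem_segment ℝ _ _)).trans (hsub (right_mem_segment ℝ _ _)).symm)
    have H' : ELike M e' := ⟨hne', hedge⟩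
    obtain ⟨z, hz, -, hz'⟩ := mid_mem (e := e') (e' := (a, b)) hne hsub
    exact H'.sub_edge h hz' hz

theorem isEdge_of_edge' {a b : V} (h : H193.IsEdge M.F a b) : H304.IsEdge M (b, a) := by
  have H := isEdge_of_edge h
  refine ⟨H.ne.symm, ?_, ?_, ?_⟩
  · obtain ⟨k, hk⟩ := H.sub
    exact ⟨k, by rw [segment_symm]; exact hk⟩
  · intro l hl
    show segment ℝ b a ⊆ _
    rw [segment_symm]
    refine H.edge l ?_
    show (M.F l ∩ openSegment ℝ a b).Nonempty
    rw [openSegment_symm]; exact hl
  · intro e' h1 h2
    show _ ⊆ segment ℝ b a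
    rw [segment_symm ℝ b a]
    refine H.max e' ?_ h2
    show segment ℝ a b ⊆ _
    rw [segment_symm ℝ a b]; exact h1

/-- **the edges of the interface** -/
theorem isEdge_iff {e : V × V} : H304.IsEdge M e ↔
    H193.IsEdge M.F e.1 e.2 ∨ H193.IsEdge M.F e.2 e.1 := by
  constructor
  · intro H
    obtain ⟨a, b, h1, h2⟩ := isEdge_seg H
    have hne := H193.Fam.ne_of_edge h1
    -- the end points of a segment
    have key : ∀ x ∈ segment ℝ a b, x ∉ openSegment ℝ a b → x = a ∨ x = b := by
      intro x hx hx'
      rw [← insert_endpoints_openSegment] at hx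
      rcases hx with h | h | h
      · exact Or.inl h
      · exact Or.inr h
      · exact absurd h hx'
    have hend : ∀ x ∈ ({e.1, e.2} : Set V), x ∈ segment ℝ a b ∧ x ∉ openSegment ℝ a b := by
      intro x hx
      have hxs : x ∈ segment ℝ e.1 e.2 := by
        rcases hx with rfl | rfl
        · exact left_mem_segment ℝ _ _
        · exact right_mem_segment ℝ _ _
      refine ⟨h2 ▸ hxs, fun hxo => ?_⟩
      -- x is extreme in the segment e
      have hext : x ∈ (segment ℝ e.1 e.2).extremePoints ℝ := by
        refine ⟨hxs, fun y hy z hz hxyz => ?_⟩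
        obtain ⟨r, hr, rfl⟩ := exists_par hy
        obtain ⟨r', hr', rfl⟩ := exists_par hz
        obtain ⟨α, β, hα, hβ, hαβ, h3⟩ := hxyz
        have h4 : par e (α * r + β * r') = x := by
          rw [← h3]
          unfold par
          have : α • (e.1 + r • (e.2 - e.1)) + β • (e.1 + r' • (e.2 - e.1))
              = (α + β) • e.1 + (α * r + β * r') • (e.2 - e.1) := by module
          rw [this, hαβ, one_smul]
        rcases hx with rfl | rfl
        · have h5 : par e 0 = e.1 := by unfold par; simp
          have h6 := par_inj H.ne (h4.trans h5.symm)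
          have h7 : r = 0 := by
            have := mul_nonneg hα.le hr.1
            have := mul_nonneg hβ.le hr'.1
            have h8 : α * r = 0 := by linarith
            rcases mul_eq_zero.1 h8 with h9 | h9
            · exact absurd h9 hα.ne'
            · exact h9
          rw [h7, h5]
        · have h5 : par e 1 = e.2 := by unfold par; simp
          have h6 := par_inj H.ne (h4.trans h5.symm)
          have h7 : r = 1 := by
            have h8 : α * (1 - r) + β * (1 - r') = 0 := by
              have : α * (1 - r) + β * (1 - r') = α + β - (α * r + β * r') := by ring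
              rw [this, hαβ, h6, sub_self]
            have := mul_nonneg hα.le (sub_nonneg.2 hr.2)
            have := mul_nonneg hβ.le (sub_nonneg.2 hr'.2)
            have h9 : α * (1 - r) = 0 := by linarith
            rcases mul_eq_zero.1 h9 with h10 | h10
            · exact absurd h10 hα.ne'
            · linarith
          rw [h7, h5]
      rw [h2] at hext
      have := hext.2 (left_mem_segment ℝ a b) (right_mem_segment ℝ a b) hxo
      rw [← this, left_mem_openSegment_iff] at hxo
      exact hne hxo
    have k1 := key e.1 (hend e.1 (Or.inl rfl)).1 (hend e.1 (Or.inl rfl)).2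
    have k2 := key e.2 (hend e.2 (Or.inr rfl)).1 (hend e.2 (Or.inr rfl)).2
    rcases k1 with k1 | k1 <;> rcases k2 with k2 | k2
    · exact absurd (k1.trans k2.symm) H.ne
    · left; rw [k1, k2]; exact h1
    · right; rw [k1, k2]; exact h1
    · exact absurd (k1.trans k2.symm) H.ne
  · rintro (h | h)
    · exact isEdge_of_edge h
    · exact isEdge_of_edge' h

end P073.H950
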