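import Vale.Agent.P073.H950.Energy

/-!
# P073, H950: pointwise local bound for the level functions of the caps
-/

open Set Metric Topology Filter

namespace P073.H950

open P073 P073.H936 P073.H880 P073.H267

theorem abs_min_sub_min_le (a b c d : ℝ) : |min a b - min c d| ≤ |a - c| + |b - d| := by
  refine (abs_min_sub_min_le_max a b c d).trans (max_le ?_ ?_)
  · linarith [abs_nonneg (b - d)]
  · linarith [abs_nonneg (a - c)]

namespace Chart

variable {E : Type*} [NormedAddCommGroup E] [NormedSpace ℝ E] {n m : ℕ} {Q S : Set E}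
  {J : Type*} [Fintype J] (C : Chart (n + 1) Q S) (D : Circles n S J m) (τ : Bool) {a b : ℝ}
  (h : C.Lip a b) {ω : J → ℝ} {W : ℝ} (hω0 : ∀ c, 0 ≤ ω c) (hW0 : 0 ≤ W) (hωW : ∀ c, ω c ≤ W)

include h hω0 hW0 hωW in
/-- **Pointwise local `ℓ¹` bound.** -/
theorem eventually_sum_lev_le {z : E} (hz : z ∈ Q) {G : ℝ} (hG0 : 0 ≤ G)
    (hG : z ∈ C.sh → ∀ᶠ θ in 𝓝[S] (C.ang z),
      ∑ c with D.typ c = τ, ω c * |D.s c θ - D.s c (C.ang z)| ≤ G * dist θ (C.ang z)) :
    ∀ᶠ w in 𝓝[Q] z, ∑ c with D.typ c = τ, ω c * |C.lev D c w - C.lev D c z|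
      ≤ (G * (3 * a * b) + W * (D.top * (2 * b))) * dist w z := by
  classical
  have hM0 : 0 ≤ G * (3 * a * b) + W * (D.top * (2 * b)) := by
    have h1 := h.a0
    have h2 := h.b0
    have h3 := (top_pos D).le
    positivity
  have hρc : ContinuousWithinAt (fun w => D.top * C.rho w) Q z :=
    (continuousOn_const.mul C.continuousOn_rho) z hz
  rcases lt_or_ge (D.top * C.rho z) 1 with hlow | hhigh
  · -- deep in the cell everything is `-1`
    filter_upwards [hρc.eventually_lt_const hlow] with w hw
    have : ∑ c with D.typ c = τ, ω c * |C.lev D c w - C.lev D c z| = 0 := by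
      refine Finset.sum_eq_zero fun c _ => ?_
      rw [C.lev_low D c hw.le, C.lev_low D c hlow.le, sub_self, abs_zero, mul_zero]
    rw [this]
    exact mul_nonneg hM0 dist_nonneg
  · -- in the shell
    have hρz : 0 < D.top * C.rho z := lt_of_lt_of_le zero_lt_one hhigh
    have hsh : ∀ w ∈ Q, 0 < D.top * C.rho w → w ∈ C.sh := by
      intro w hw h1
      rcases C.cover hw with h2 | h2
      · exfalso
        have h3 := C.rho_core h2
        have h4 := top_pos D
        nlinarith
      · exact h2
    have hzs := hsh z hz hρz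
    have hev : ∀ᶠ w in 𝓝[Q] z, w ∈ C.sh := by
      filter_upwards [hρc.eventually_const_lt hρz, self_mem_nhdsWithin] with w hw hwQ
      exact hsh w hwQ hw
    have hang : Tendsto C.ang (𝓝[C.sh] z) (𝓝[S] (C.ang z)) :=
      tendsto_nhdsWithin_iff.2 ⟨C.continuousOn_ang z hzs, by
        filter_upwards [self_mem_nhdsWithin] with w hw using C.ang_mem hw⟩
    have hle : 𝓝[Q] z ≤ 𝓝[C.sh] z := nhdsWithin_le_of_mem hev
    have hang' : Tendsto C.ang (𝓝[Q] z) (𝓝[S] (C.ang z)) := hang.mono_left hle
    -- the discs which do not contain the angular coordinate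
    have hO : ∀ᶠ w in 𝓝[Q] z, ∀ c, C.ang z ∉ D.I c ∪ D.A c → C.ang w ∉ D.I c ∪ D.A c := by
      rw [eventually_all]
      intro c
      by_cases hc : C.ang z ∈ D.I c ∪ D.A c
      · exact Eventually.of_forall fun w h1 => absurd hc h1
      · have h1 : (D.I c ∪ D.A c)ᶜ ∈ 𝓝 (C.ang z) :=
          ((D.isCompact_I c).isClosed.union (D.isCompact_A c).isClosed).isOpen_compl.mem_nhds hc
        have h2 := (hang'.mono_right nhdsWithin_le_nhds).eventually h1
        filter_upwards [h2] with w hw _
        exact hw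
    filter_upwards [hev, hang'.eventually (hG hzs), hO] with w hws hwG hwO
    -- the active caps
    set A : Finset J := Finset.univ.filter fun c => D.typ c = τ ∧ C.ang z ∈ D.I c ∪ D.A c with hA
    have hinj : Set.InjOn D.rk A := by
      intro c1 h1 c2 h2 h3
      have h1 := (Finset.mem_filter.1 (Finset.mem_coe.1 h1)).2
      have h2 := (Finset.mem_filter.1 (Finset.mem_coe.1 h2)).2
      by_contra hne
      have ht : D.typ c1 = D.typ c2 := h1.1.trans h2.1.symm
      rcases D.lam c1 c2 hne ht with h4 | h4 | h4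
      · exact (D.rk_mono _ _ hne ht h4).ne h3
      · exact (D.rk_mono _ _ (Ne.symm hne) ht.symm h4).ne h3.symm
      · exact Set.disjoint_left.1 h4 h1.2 h2.2
    have hterm : ∀ c, D.typ c = τ → ω c * |C.lev D c w - C.lev D c z|
        ≤ ω c * |D.s c (C.ang w) - D.s c (C.ang z)| +
          (if c ∈ A then ω c * |clip (D.top * C.rho w - D.yy c) - clip (D.top * C.rho z - D.yy c)|
            else 0) := by
      intro c hc
      rw [C.lev_sh D c hws, C.lev_sh D c hzs]
      by_cases hcO : C.ang z ∈ D.I c ∪ D.A c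
      · have hcA : c ∈ A := Finset.mem_filter.2 ⟨Finset.mem_univ _, hc, hcO⟩
        rw [if_pos hcA, ← mul_add]
        exact mul_le_mul_of_nonneg_left (abs_min_sub_min_le _ _ _ _) (hω0 c)
      · have hcA : c ∉ A := fun h1 => hcO (Finset.mem_filter.1 h1).2.2
        rw [if_neg hcA, add_zero]
        have e1 : D.b c (C.ang w, D.top * C.rho w) = -1 := by
          show min (D.s c (C.ang w)) (clip _) = -1
          rw [D.s_out c _ (C.ang_mem hws) (hwO c hcO), min_eq_left (clip_mem _).1]
        have e2 : D.b c (C.ang z, D.top * C.rho z) = -1 := by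
          show min (D.s c (C.ang z)) (clip _) = -1
          rw [D.s_out c _ (C.ang_mem hzs) hcO, min_eq_left (clip_mem _).1]
        rw [e1, e2, sub_self, abs_zero, mul_zero]
        exact mul_nonneg (hω0 c) (abs_nonneg _)
    have h1 : ∑ c with D.typ c = τ, ω c * |C.lev D c w - C.lev D c z|
        ≤ ∑ c with D.typ c = τ, ω c * |D.s c (C.ang w) - D.s c (C.ang z)| +
          ∑ c ∈ A, ω c * |clip (D.top * C.rho w - D.yy c) - clip (D.top * C.rho z - D.yy c)| := by
      have h2 : ∑ c ∈ A, ω c * |clip (D.top * C.rho w - D.yy c) - clip (D.top * C.rho z - D.yy c)|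
          = ∑ c with D.typ c = τ, (if c ∈ A then
            ω c * |clip (D.top * C.rho w - D.yy c) - clip (D.top * C.rho z - D.yy c)| else 0) := by
        rw [Finset.sum_ite_mem]
        refine Finset.sum_congr ?_ fun _ _ => rfl
        ext c
        simp only [hA, Finset.mem_filter, Finset.mem_inter, Finset.mem_univ, true_and]
        tauto
      rw [h2, ← Finset.sum_add_distrib]
      exact Finset.sum_le_sum fun c hc => hterm c (Finset.mem_filter.1 hc).2
    have h2 := sum_clip_le A (rk := D.rk) hinj (M := m) (ω := ω) hW0 hωW (D.top * C.rho w)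
      (D.top * C.rho z)
    have h3 : |D.top * C.rho w - D.top * C.rho z| ≤ D.top * (2 * b) * dist w z := by
      have h4 := C.abs_rho_sub_le h.hb (C.sh_sub hws) (C.sh_sub hzs)
      rw [← mul_sub, abs_mul, abs_of_pos (top_pos D), mul_assoc]
      exact mul_le_mul_of_nonneg_left h4 (top_pos D).le
    have h4 := C.dist_ang_le h.a0 h.ha h.hb hws hzs
    refine h1.trans ?_
    have h5 : ∑ c with D.typ c = τ, ω c * |D.s c (C.ang w) - D.s c (C.ang z)|
        ≤ G * (3 * a * b) * dist w z := by
      refine hwG.trans ?_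
      rw [mul_assoc]
      exact mul_le_mul_of_nonneg_left h4 hG0
    have h6 : ∑ c ∈ A, ω c * |clip (D.top * C.rho w - D.yy c) - clip (D.top * C.rho z - D.yy c)|
        ≤ W * (D.top * (2 * b)) * dist w z := by
      refine h2.trans ?_
      rw [mul_assoc W]
      exact mul_le_mul_of_nonneg_left h3 hW0
    rw [add_mul]
    exact add_le_add h5 h6

end Chart

end P073.H950
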