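import Vale.Agent.P073.H950.Sector2

/-!
# P073, H950: integral of a function of the angular coordinate over the shell of a dyadic cube
-/

open Set Metric Topology Filter MeasureTheory
open scoped ENNReal NNReal

namespace P073.H950

open P073

theorem map_affine {n : ℕ} (c : Fin n → ℝ) {r : ℝ} (hr : 0 < r) :
    (volume : Measure (Fin n → ℝ)).map (fun x => c + r • x)
      = ENNReal.ofReal ((r ^ n)⁻¹) • volume := by
  have h1 : (fun x : Fin n → ℝ => c + r • x) = (fun x => c + x) ∘ fun x => r • x := rfl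
  rw [h1, ← Measure.map_map (by fun_prop) (by fun_prop), Measure.map_addHaar_smul _ hr.ne',
    Measure.map_smul, map_add_left_eq_self, Module.finrank_fin_fun,
    abs_of_pos (by positivity : 0 < (r ^ n)⁻¹)]

/-- affine change of variables -/
theorem lintegral_affine {n : ℕ} (c : Fin n → ℝ) {r : ℝ} (hr : 0 < r) {B : Set (Fin n → ℝ)}
    (hB : MeasurableSet B) {f : (Fin n → ℝ) → ℝ≥0∞} (hf : Measurable f) :
    ∫⁻ z in B, f z = ENNReal.ofReal (r ^ n) * ∫⁻ x in (fun x => c + r • x) ⁻¹' B, f (c + r • x) := by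
  have hT : Measurable fun x : Fin n → ℝ => c + r • x := by fun_prop
  have h1 := setLIntegral_map (μ := (volume : Measure (Fin n → ℝ))) hB hf hT
  rw [map_affine c hr] at h1
  rw [← h1, Measure.restrict_smul, lintegral_smul_measure, smul_eq_mul, ← mul_assoc,
    ← ENNReal.ofReal_mul (by positivity), mul_inv_cancel₀ (by positivity), ENNReal.ofReal_one,
    one_mul]

/-- `±1` -/
def sg (b : Bool) : ℝ := if b then 1 else -1

theorem sg_or (b : Bool) : sg b = 1 ∨ sg b = -1 := by cases b <;> simp [sg]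

/-- the standard shell is covered by its sides -/
theorem exists_side {n : ℕ} (hn : 0 < n) {x : Fin n → ℝ} (hx : ‖x‖ ∈ Icc (1 / 2 : ℝ) 1) :
    ∃ p : Fin n × Bool, annI ‖x‖ (x p.1) = sg p.2 := by
  have hne : (Finset.univ : Finset (Fin n)).Nonempty := ⟨⟨0, hn⟩, Finset.mem_univ _⟩
  obtain ⟨i, -, hi⟩ := Finset.exists_max_image Finset.univ (fun i => ‖x i‖) hne
  have h1 : ‖x‖ = ‖x i‖ := by
    apply le_antisymm
    · rw [pi_norm_le_iff_of_nonneg (norm_nonneg _)]
      exact fun j => hi j (Finset.mem_univ j)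
    · exact norm_le_pi_norm x i
  rw [Real.norm_eq_abs (x i)] at h1
  rcases abs_cases (x i) with ⟨h2, -⟩ | ⟨h2, -⟩
  · refine ⟨(i, true), ?_⟩
    have : x i = ‖x‖ := by rw [h1, h2]
    show annI ‖x‖ (x i) = sg true
    rw [this]
    simpa [sg] using annI_eq_one hx
  · refine ⟨(i, false), ?_⟩
    have : x i = -‖x‖ := by rw [h1, h2, neg_neg]
    show annI ‖x‖ (x i) = sg false
    rw [this]
    simpa [sg] using annI_eq_neg_one hx

/-- **Integral over the standard shell.** -/
theorem lintegral_std_le {n : ℕ} {H : (Fin (n + 1) → ℝ) → ℝ≥0∞} (hH : Measurable H) :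
    ∫⁻ x in Chart.std (n + 1), H (angS x) ≤ ∑ p : Fin (n + 1) × Bool,
      ∫⁻ x in closedBall (Pi.single p.1 (sg p.2) : Fin (n + 1) → ℝ) 1,
        H (Function.update x p.1 (sg p.2)) := by
  have h1 : Chart.std (n + 1) ⊆ ⋃ p : Fin (n + 1) × Bool,
      {x : Fin (n + 1) → ℝ | ‖x‖ ∈ Icc (1 / 2 : ℝ) 1 ∧ annI ‖x‖ (x p.1) = sg p.2} := by
    intro x hx
    obtain ⟨p, hp⟩ := exists_side (Nat.succ_pos n) hx
    exact mem_iUnion.2 ⟨p, hx, hp⟩
  refine (lintegral_mono_set h1).trans ((lintegral_iUnion_le _ _).trans ?_)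
  rw [tsum_fintype]
  exact Finset.sum_le_sum fun p _ => lintegral_side_le p.1 (sg_or p.2) hH

namespace Chart

open Vale.Agent.P073.St (V)
open Vale.Agent.P073.AB (Idx)
open Vale.Agent.P073.SQ (ev)
open P073.Net (dyc dyo)

/-- the centre of a side of the dyadic cube `q` -/
noncomputable def sideC (v : V) (q : Idx) (p : Fin 3 × Bool) : V :=
  ctr v q.1 q.2 + (sg p.2 * (1 / 2 ^ q.1 / 2)) • ev p.1

theorem ang_dya (v : V) (q : Idx) (x : V) :
    (dya v q).ang (ctr v q.1 q.2 + (1 / 2 ^ q.1 / 2 : ℝ) • x)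
      = ctr v q.1 q.2 + (1 / 2 ^ q.1 / 2 : ℝ) • angS x := by
  have h0 : (1 / 2 ^ q.1 / 2 : ℝ) ≠ 0 := (half_pos' q.1).ne'
  have h1 : (dya v q).χ.invFun (ctr v q.1 q.2 + (1 / 2 ^ q.1 / 2 : ℝ) • x) = x := by
    show (1 / 2 ^ q.1 / 2 : ℝ)⁻¹ • (ctr v q.1 q.2 + (1 / 2 ^ q.1 / 2 : ℝ) • x - ctr v q.1 q.2) = x
    rw [add_sub_cancel_left, smul_smul, inv_mul_cancel₀ h0, one_smul]
  show (dya v q).χ.toFun (fun i => annI ‖(dya v q).χ.invFun _‖ ((dya v q).χ.invFun _ i)) = _
  rw [h1]
  rfl

theorem sh_dya (v : V) (q : Idx) :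
    (fun x => ctr v q.1 q.2 + (1 / 2 ^ q.1 / 2 : ℝ) • x) ⁻¹' (dya v q).sh = std 3 := by
  have h0 : (1 / 2 ^ q.1 / 2 : ℝ) ≠ 0 := (half_pos' q.1).ne'
  have h1 : (dya v q).sh = (fun x : V => ctr v q.1 q.2 + (1 / 2 ^ q.1 / 2 : ℝ) • x) '' std 3 := rfl
  rw [h1]
  refine preimage_image_eq _ fun x y hxy => ?_
  exact smul_right_injective V h0 (add_left_cancel hxy)

theorem continuous_ang_dya (v : V) (q : Idx) : Continuous (dya v q).ang := by
  show Continuous fun z : V => ctr v q.1 q.2 + (1 / 2 ^ q.1 / 2 : ℝ) •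
    (angS ((1 / 2 ^ q.1 / 2 : ℝ)⁻¹ • (z - ctr v q.1 q.2)))
  have h1 : Continuous fun z : V => (1 / 2 ^ q.1 / 2 : ℝ)⁻¹ • (z - ctr v q.1 q.2) := by fun_prop
  have h2 : Continuous fun z : V => angS ((1 / 2 ^ q.1 / 2 : ℝ)⁻¹ • (z - ctr v q.1 q.2)) :=
    continuous_angS.comp h1
  exact continuous_const.add ((continuous_const_smul (1 / 2 ^ q.1 / 2 : ℝ)).comp h2)

/-- **Integral of a function of the angular coordinate over the shell of a dyadic cube**: at most
(side length) times the integrals over the six sides. -/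
theorem lintegral_ang_le (v : V) (q : Idx) {H : V → ℝ≥0∞} (hH : Measurable H) :
    ∫⁻ z in (dya v q).sh, H ((dya v q).ang z) ≤ ∑ p : Fin 3 × Bool,
      ∫⁻ x in Vale.Agent.P073.SQ.cube (sideC v q p) (1 / 2 ^ q.1 / 2),
        H (Function.update x p.1 (sideC v q p p.1)) := by
  set c : V := ctr v q.1 q.2 with hc
  set r : ℝ := 1 / 2 ^ q.1 / 2 with hr
  have hr0 : 0 < r := half_pos' q.1
  have hcube : ∀ a : V, Vale.Agent.P073.SQ.cube a r = closedBall a r := by
    intro a
    ext x
    rw [mem_closedBall_iff_norm, pi_norm_le_iff_of_nonneg hr0.le]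
    rfl
  have hupd : ∀ (k : Fin 3) (a : ℝ), Measurable fun x : V => Function.update x k a := by
    intro k a
    refine measurable_pi_iff.2 fun i => ?_
    by_cases h : i = k
    · subst h; simp only [Function.update_self]; exact measurable_const
    · simp only [Function.update_of_ne h]; exact measurable_pi_apply i
  have hL : ∫⁻ z in (dya v q).sh, H ((dya v q).ang z)
      = ENNReal.ofReal (r ^ 3) * ∫⁻ x in std 3, H (c + r • angS x) := by
    have hm : Measurable fun z => H ((dya v q).ang z) := hH.comp (continuous_ang_dya v q).measurable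
    rw [lintegral_affine c hr0 (dya v q).isCompact_sh.isClosed.measurableSet hm, sh_dya]
    congr 1
    refine lintegral_congr fun x => ?_
    rw [ang_dya]
  have hR : ∀ p : Fin 3 × Bool, ∫⁻ x in Vale.Agent.P073.SQ.cube (sideC v q p) r,
      H (Function.update x p.1 (sideC v q p p.1)) = ENNReal.ofReal (r ^ 3) *
        ∫⁻ x in closedBall (Pi.single p.1 (sg p.2) : V) 1,
          H (c + r • Function.update x p.1 (sg p.2)) := by
    intro p
    have hm : Measurable fun x => H (Function.update x p.1 (sideC v q p p.1)) :=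
      hH.comp (hupd _ _)
    rw [hcube, lintegral_affine c hr0 isClosed_closedBall.measurableSet hm]
    congr 1
    have e1 : (fun x : V => c + r • x) ⁻¹' closedBall (sideC v q p) r
        = closedBall (Pi.single p.1 (sg p.2) : V) 1 := by
      ext x
      rw [mem_preimage, mem_closedBall_iff_norm, mem_closedBall_iff_norm]
      have e2 : c + r • x - sideC v q p = r • (x - Pi.single p.1 (sg p.2)) := by
        funext i
        simp only [sideC, ev, Pi.add_apply, Pi.sub_apply, Pi.smul_apply, smul_eq_mul, Pi.single_apply]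
        split_ifs <;> ring
      rw [e2, norm_smul, Real.norm_eq_abs, abs_of_pos hr0]
      constructor
      · intro h; nlinarith
      · intro h; nlinarith
    rw [e1]
    refine lintegral_congr fun x => ?_
    congr 1
    funext i
    by_cases h : i = p.1
    · subst h
      simp only [Function.update_self, sideC, ev, Pi.add_apply, Pi.smul_apply, smul_eq_mul,
        Pi.single_eq_same]
      ring
    · simp only [Function.update_of_ne h, Pi.add_apply, Pi.smul_apply, smul_eq_mul]
  rw [hL, Finset.sum_congr rfl fun p _ => hR p, ← Finset.mul_sum]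
  gcongr
  have hH' : Measurable fun x : V => H (c + r • x) := hH.comp (by fun_prop)
  exact lintegral_std_le (n := 2) hH'

end Chart

end P073.H950
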