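import Vale.Agent.P073.H950.CubeSum
import Vale.Agent.P073.H950.Point
import Vale.Agent.P073.H950.Sector3

/-!
# P073, H950: pointwise bound and null sets in a dyadic cube
-/

open Set Metric Topology Filter MeasureTheory
open scoped ENNReal

namespace P073.H950

open P073 P073.H936 P073.H880 P073.H267

namespace Chart

open Vale.Agent.P073.St (V)
open Vale.Agent.P073.AB (Idx)
open P073.Net (dyc dyo)

/-- **Pointwise local `ℓ¹` bound in a dyadic cube.** -/
theorem eventually_sum_dya_le {v : V} {q : Idx} {J : Type*} [Fintype J] {m : ℕ}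
    (D : Circles 2 (dyc v q.1 q.2 \ dyo v q.1 q.2) J m) (τ : Bool) {ω : J → ℝ} {W : ℝ}
    (hω0 : ∀ c, 0 ≤ ω c) (hW0 : 0 ≤ W) (hωW : ∀ c, ω c ≤ W) {z : V} (hz : z ∈ dyc v q.1 q.2)
    {G : ℝ} (hG0 : 0 ≤ G)
    (hG : z ∈ (dya v q).sh → ∀ᶠ θ in 𝓝[dyc v q.1 q.2 \ dyo v q.1 q.2] ((dya v q).ang z),
      ∑ c with D.typ c = τ, ω c * |D.s c θ - D.s c ((dya v q).ang z)|
        ≤ G * dist θ ((dya v q).ang z)) :
    ∀ᶠ w in 𝓝[dyc v q.1 q.2] z,
      ∑ c with D.typ c = τ, ω c * |(dya v q).lev D c w - (dya v q).lev D c z|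
        ≤ (3 * G + W * (4 * m + 1) * (4 * 2 ^ q.1)) * dist w z := by
  have h := (dya v q).eventually_sum_lev_le D τ (dya_lip v q) hω0 hW0 hωW hz hG0 hG
  rw [three_mul_dya, top_mul_dya] at h
  exact h

/-- the points of the shell over a null set of the sides are a null set -/
theorem volume_ang_preimage (v : V) (q : Idx) {N : Set V} (hN : MeasurableSet N)
    (h0 : ∀ p : Fin 3 × Bool, volume {x | x ∈ Vale.Agent.P073.SQ.cube (sideC v q p) (1 / 2 ^ q.1 / 2) ∧
      Function.update x p.1 (sideC v q p p.1) ∈ N} = 0) :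
    volume {z | z ∈ (dya v q).sh ∧ (dya v q).ang z ∈ N} = 0 := by
  have hupd : ∀ (k : Fin 3) (a : ℝ), Measurable fun x : V => Function.update x k a := by
    intro k a
    refine measurable_pi_iff.2 fun i => ?_
    by_cases h : i = k
    · subst h; simp only [Function.update_self]; exact measurable_const
    · simp only [Function.update_of_ne h]; exact measurable_pi_apply i
  have h := lintegral_ang_le v q (H := N.indicator fun _ => 1) (measurable_const.indicator hN)
  have hm : MeasurableSet ((dya v q).ang ⁻¹' N) := (continuous_ang_dya v q).measurable hN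
  have e1 : ∫⁻ z in (dya v q).sh, N.indicator (fun _ => (1 : ℝ≥0∞)) ((dya v q).ang z)
      = volume {z | z ∈ (dya v q).sh ∧ (dya v q).ang z ∈ N} := by
    have e3 : ∫⁻ z in (dya v q).sh, N.indicator (fun _ => (1 : ℝ≥0∞)) ((dya v q).ang z)
        = ∫⁻ z in (dya v q).sh, ((dya v q).ang ⁻¹' N).indicator (fun _ => 1) z := rfl
    rw [e3, lintegral_indicator_const hm, one_mul, Measure.restrict_apply hm, inter_comm]
    rfl
  have e2 : ∀ p : Fin 3 × Bool,
      ∫⁻ x in Vale.Agent.P073.SQ.cube (sideC v q p) (1 / 2 ^ q.1 / 2),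
        N.indicator (fun _ => (1 : ℝ≥0∞)) (Function.update x p.1 (sideC v q p p.1)) = 0 := by
    intro p
    have hm' : MeasurableSet ((fun x : V => Function.update x p.1 (sideC v q p p.1)) ⁻¹' N) :=
      hupd _ _ hN
    have e3 : ∫⁻ x in Vale.Agent.P073.SQ.cube (sideC v q p) (1 / 2 ^ q.1 / 2),
        N.indicator (fun _ => (1 : ℝ≥0∞)) (Function.update x p.1 (sideC v q p p.1))
        = ∫⁻ x in Vale.Agent.P073.SQ.cube (sideC v q p) (1 / 2 ^ q.1 / 2),
          ((fun x : V => Function.update x p.1 (sideC v q p p.1)) ⁻¹' N).indicator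
            (fun _ => 1) x := rfl
    rw [e3, lintegral_indicator_const hm', one_mul, Measure.restrict_apply hm', inter_comm]
    exact h0 p
  rw [e1, Finset.sum_congr rfl fun p _ => e2 p, Finset.sum_const_zero] at h
  exact le_antisymm h zero_le

end Chart

end P073.H950
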