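import Vale.Agent.P073.H950.Dsum3
import Vale.Agent.P073.H142.LipFin

/-!
# P073, H950 [DSUM], part 4: the clause `drawn` for one cell
-/

open Set Metric Topology Filter MeasureTheory
open scoped ENNReal

namespace P073.H950

open Vale.Agent.P073.St (V)
open Vale.Agent.P073.SQ (cube ev)
open Vale.Agent.P073.AB (Idx squ)
open Vale.Agent.P073.AB.P86 (sc rel)
open Vale.Agent.P073.H73 (onSeg Mesh Adapted sqr)
open Vale.Agent.P073.H193 (Edges edges Cyc)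
open Vale.Agent.P073.H233 (BdT fInt ZS cp)
open Vale.Agent.P073.H304 (LipBd)
open P073.H155 (cm dp)
open P073.H142 (FStar Num)
open P073.Net (len dyc dyo)

/-- the generation of a dyadic cube -/
theorem dyc_gen_eq {v v' : V} {m m' : ℕ} {z z' : Fin 3 → ℤ} (h : dyc v m z = dyc v' m' z') :
    m = m' := by
  have h1 := congrArg (volume : Set V → ℝ≥0∞) h
  rw [Chart.volume_dyc v (m, z), Chart.volume_dyc v' (m', z'),
    ENNReal.ofReal_eq_ofReal_iff (by positivity) (by positivity)] at h1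
  have h2 : (1 / 2 ^ m : ℝ) = 1 / 2 ^ m' :=
    (pow_left_inj₀ (by positivity) (by positivity) three_ne_zero).1 h1
  have h3 : (2 : ℝ) ^ m = 2 ^ m' := by
    have := congrArg (fun x : ℝ => x⁻¹) h2
    simpa using this
  exact pow_right_injective₀ (by norm_num : (0:ℝ) < 2) (by norm_num) h3

/-- the integral of the sum of finitely many bounds -/
theorem lint_sum_le {J : Type*} [Fintype J] {C : Set V} {K : J → V → ℝ}
    (hK : ∀ j, UpperSemicontinuous (K j)) (h0 : ∀ j x, 0 ≤ K j x) {a e p : ℝ} (ha : 0 ≤ a)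
    (he : 0 ≤ e) (hp : 1 ≤ p) {X : ℝ≥0∞} (hX : ∀ j, ∫⁻ x in C, ENNReal.ofReal (K j x ^ p) ≤ X)
    (heX : ENNReal.ofReal (e ^ p) * volume C ≤ X) :
    ∫⁻ x in C, ENNReal.ofReal ((a * ∑ j, K j x + e) ^ p) ≤
      ENNReal.ofReal (2 ^ (p - 1) * ((a * Fintype.card J) ^ p + 1)) * X := by
  have hp0 : 0 < p := by linarith
  have hs : UpperSemicontinuous fun x => ∑ j, K j x :=
    upperSemicontinuous_sum fun j _ => hK j
  have hs' : UpperSemicontinuous fun x => a * ∑ j, K j x := by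
    have hc : Continuous fun x : ℝ => a * x := by fun_prop
    exact hc.comp_upperSemicontinuous hs fun x y hxy => mul_le_mul_of_nonneg_left hxy ha
  have hs0 : ∀ x, 0 ≤ ∑ j, K j x := fun x => Finset.sum_nonneg fun j _ => h0 j x
  have h1 := P073.H142.lintegral_add_const_rpow_le (C := C) hs' (fun x => mul_nonneg ha (hs0 x))
    he hp
  refine h1.trans ?_
  -- the sum
  have h2 : ∫⁻ x in C, ENNReal.ofReal ((a * ∑ j, K j x) ^ p) ≤
      ENNReal.ofReal ((a * Fintype.card J) ^ p) * X := by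
    obtain ⟨N, hN⟩ : ∃ N : ℝ, N = (Fintype.card J : ℝ) := ⟨_, rfl⟩
    rw [← hN]
    have hN0 : 0 ≤ N := hN ▸ Nat.cast_nonneg _
    have h3 : ∀ x, ENNReal.ofReal ((a * ∑ j, K j x) ^ p) ≤
        ∑ j, ENNReal.ofReal (a ^ p * N ^ (p - 1)) * ENNReal.ofReal (K j x ^ p) := by
      intro x
      rw [← Finset.mul_sum, ← ENNReal.ofReal_sum_of_nonneg fun j _ =>
        Real.rpow_nonneg (h0 j x) _, ← ENNReal.ofReal_mul (by positivity)]
      refine ENNReal.ofReal_le_ofReal ?_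
      rw [Real.mul_rpow ha (hs0 x), mul_assoc]
      refine mul_le_mul_of_nonneg_left ?_ (by positivity)
      have h4 := Vale.Agent.P073.H233.rpow_sum_le (Finset.univ : Finset J) (e := fun _ => 1)
        (W := fun j => K j x) hp (fun _ _ => one_pos) fun j _ => h0 j x
      simpa [hN] using h4
    refine (lintegral_mono h3).trans ?_
    rw [lintegral_finset_sum _ fun j _ =>
      (((hK j).measurable.pow_const p).ennreal_ofReal.const_mul _)]
    simp_rw [lintegral_const_mul' _ _ ENNReal.ofReal_ne_top]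
    refine (Finset.sum_le_sum fun j _ => mul_le_mul_right (hX j) _).trans ?_
    rw [Finset.sum_const, nsmul_eq_mul, Finset.card_univ, ← mul_assoc]
    refine mul_le_mul_left (le_of_eq ?_) _
    rw [← ENNReal.ofReal_natCast, ← hN, ← ENNReal.ofReal_mul hN0]
    congr 1
    rcases hN0.eq_or_lt with h | h
    · rw [← h, zero_mul, mul_zero, Real.zero_rpow hp0.ne']
    · rw [Real.mul_rpow ha h.le]
      have : N ^ p = N * N ^ (p - 1) := by
        rw [Real.rpow_sub_one h.ne']; field_simp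
      rw [this]; ring
  calc ENNReal.ofReal (2 ^ (p - 1)) * ((∫⁻ x in C, ENNReal.ofReal ((a * ∑ j, K j x) ^ p)) +
        ENNReal.ofReal (e ^ p) * volume C)
      ≤ ENNReal.ofReal (2 ^ (p - 1)) * (ENNReal.ofReal ((a * Fintype.card J) ^ p) * X + X) := by
        gcongr
    _ = _ := by
        rw [ENNReal.ofReal_mul (by positivity), ENNReal.ofReal_add (by positivity) zero_le_one,
          ENNReal.ofReal_one]
        ring

variable {Ω : Set V} {M : Mesh Ω} {p C₁ C₂ D₀ : ℝ} {v : V} {z : Idx} {𝓢 : Finset (Idx × Fin 3)}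
  {kf : Idx × Fin 3 → M.κ} {b : M.κ → (edges M).ε → ℝ}

theorem one_le_cp (hp : 2 < p) : 1 ≤ cp p := by
  have hm := Vale.Agent.P073.H233.mor_pos hp
  unfold cp
  have h1 : (1:ℝ) ≤ 2 ^ (p - 1) := Real.one_le_rpow (by norm_num) (by linarith)
  have h2 : (1:ℝ) ≤ 6 ^ p := Real.one_le_rpow (by norm_num) (by linarith)
  have h3 : (0:ℝ) ≤ 2 ^ (p - 1) * 2 ^ (p - 1) *
    ((96 * Vale.Agent.P073.H233.mor p) ^ p + 72 ^ p) := by positivity
  have h4 : (1:ℝ) ≤ 2 ^ (p - 1) * 6 ^ p := one_le_mul_of_one_le_of_one_le h1 h2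
  linarith

/-- **[DRAWN]** the clause `drawn` of `H304.Out` for one cell: `K j` are the bounds of
`H142.Loc.cellp` for finitely many boxes, `e` is a tiny number. -/
theorem drawn_cell (hp : 2 < p) {i : M.ι} (hQ : M.Q i = dyc v z.1 z.2) (H : BdT v z 𝓢)
    (hkf : ∀ s ∈ 𝓢, M.F (kf s) = squ v s) (T : ∀ k, FStar (edges M) k) {h : V → V}
    (hD₀ : 0 ≤ D₀) {ε : M.κ → ℝ} (hε : ∀ k, 0 < ε k)
    (hb : ∀ s ∈ 𝓢, Num (kf s) h D₀ (ε (kf s)) (b (kf s)))
    (hC₁ : 0 ≤ C₁) (hC₂ : 0 ≤ C₂) {J : Type*} [Fintype J] {K : J → V → ℝ}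
    (hK : ∀ j, UpperSemicontinuous (K j)) (h0 : ∀ j x, 0 ≤ K j x) {om : J → ℝ}
    (hom : ∀ j, Tiny M p z 𝓢 kf b (om j))
    (hint : ∀ j, ∫⁻ x in M.Q i, ENNReal.ofReal (K j x ^ p) ≤ ENNReal.ofReal (cp p) *
        ((∑ s ∈ 𝓢, ENNReal.ofReal (2 ^ s.1.1 / 2 ^ z.1) *
          fInt p v s (fun x => 2 * (T (kf s)).G C₁ (b (kf s)) x)) +
          ENNReal.ofReal ((1 / 2 ^ z.1) * ZS p 𝓢 (fun s => 2 * (C₂ * bsum M (kf s) (b (kf s)))) +
            (1 / 2 ^ z.1 : ℝ) ^ (3 - p) * om j ^ p)))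
    {g : V → V} {a e : ℝ} (ha : 0 ≤ a) (he : 0 ≤ e) (heT : Tiny M p z 𝓢 kf b e)
    (hlip : ∀ x ∈ M.Q i, ∀ᶠ y in 𝓝[M.Q i] x, ‖g y - g x‖ ≤ (a * ∑ j, K j x + e) * ‖y - x‖)
    {C : ℝ} (hC : 2 ^ (p - 1) * ((a * Fintype.card J) ^ p + 1) * dK p C₁ C₂ D₀ ≤ C) :
    ∃ G : V → ℝ, LipBd g (M.Q i) G ∧
    ∀ (v : V) (m : ℕ) (z : Fin 3 → ℤ), M.Q i = dyc v m z →
    ∀ (E : {k // M.F k ⊆ M.Q i} → Finset (V × V)) (σ : {k // M.F k ⊆ M.Q i} → ℝ)
      (ℓ : V × V → ℝ≥0∞), (∀ k, Adapted M k.1 (E k)) →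
      (∀ k, 0 < σ k ∧ ∃ a l, M.F k.1 = sqr a l (σ k)) →
      (∀ k, ∀ e ∈ E k, len (onSeg h e) (Icc 0 1) ≤ ℓ e) →
      ∫⁻ x in M.Q i, ENNReal.ofReal (G x ^ p) ≤ ENNReal.ofReal (C / 2 ^ m) *
        ∑' k, ENNReal.ofReal (σ k) * ∑ e ∈ E k, ENNReal.ofReal (‖e.2 - e.1‖ ^ (1 - p)) *
          (ℓ e + ENNReal.ofReal (ε k.1 * ‖e.2 - e.1‖ / σ k)) ^ p := by
  have hp1 : 1 ≤ p := by linarith
  have hcp := one_le_cp hp
  have hdp := P073.H155.dp_pos p
  have hQc : IsCompact (M.Q i) := by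
    rw [hQ, ← Chart.dyc_eq]
    exact isCompact_closedBall _ _
  have hus : UpperSemicontinuous fun x => a * ∑ j, K j x + e := by
    have hs : UpperSemicontinuous fun x => ∑ j, K j x := upperSemicontinuous_sum fun j _ => hK j
    have hc : Continuous fun x : ℝ => a * x + e := by fun_prop
    exact hc.comp_upperSemicontinuous hs fun x y hxy => by
      show a * x + e ≤ a * y + e
      have := mul_le_mul_of_nonneg_left hxy ha
      linarith
  have hs0 : ∀ x, 0 ≤ ∑ j, K j x := fun x => Finset.sum_nonneg fun j _ => h0 j x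
  refine ⟨fun x => a * ∑ j, K j x + e, ⟨hus.upperSemicontinuousOn _,
    fun x _ => add_nonneg (mul_nonneg ha (hs0 x)) he,
    UpperSemicontinuousOn.bddAbove_of_isCompact hQc (hus.upperSemicontinuousOn _), hlip⟩, ?_⟩
  intro v' m z' hQ' E σ ℓ hE hσ hℓ
  have hm : m = z.1 := dyc_gen_eq (hQ'.symm.trans hQ)
  set S : ℝ≥0∞ := ∑' k, ENNReal.ofReal (σ k) * ∑ e ∈ E k, ENNReal.ofReal (‖e.2 - e.1‖ ^ (1 - p)) *
          (ℓ e + ENNReal.ofReal (ε k.1 * ‖e.2 - e.1‖ / σ k)) ^ p with hS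
  have h1 : ∀ j, ∫⁻ x in M.Q i, ENNReal.ofReal (K j x ^ p) ≤
      ENNReal.ofReal (dK p C₁ C₂ D₀ / 2 ^ z.1) * S := fun j => by
    obtain ⟨s, hs, h2, -⟩ := hom j
    exact (hint j).trans (drawn_sum hp hQ H hkf T hD₀ hε hb hC₁ hC₂ ⟨s, hs, h2⟩ hE hσ hℓ)
  have h2 : ENNReal.ofReal (e ^ p) * volume (M.Q i) ≤
      ENNReal.ofReal (dK p C₁ C₂ D₀ / 2 ^ z.1) * S := by
    obtain ⟨s, hs, -, h3⟩ := heT
    rw [hQ, Chart.volume_dyc v z, ← ENNReal.ofReal_mul (by positivity)]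
    have hσψ : ∀ s ∈ 𝓢, 0 ≤ 1 / 2 / 2 ^ s.1.1 * psi M p (kf s) (b (kf s)) := fun s hs =>
      mul_nonneg (by positivity) (psi_nonneg (hb s hs).nonneg)
    have h4 : e ^ p * (1 / 2 ^ z.1) ^ 3 ≤
        (cp p * (2 ^ p * dp p * C₁ ^ p / 2 + (2 * C₂) ^ p * 12 ^ (p - 1) * 2 ^ (2 - p) + 1) *
          (1 / 2 ^ z.1)) * ∑ s ∈ 𝓢, 1 / 2 / 2 ^ s.1.1 * psi M p (kf s) (b (kf s)) := by
      have h5 := h3.trans (Finset.single_le_sum hσψ hs)
      have h6 : (1:ℝ) ≤ cp p * (2 ^ p * dp p * C₁ ^ p / 2 +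
          (2 * C₂) ^ p * 12 ^ (p - 1) * 2 ^ (2 - p) + 1) := by
        have : (0:ℝ) ≤ 2 ^ p * dp p * C₁ ^ p / 2 + (2 * C₂) ^ p * 12 ^ (p - 1) * 2 ^ (2 - p) := by
          positivity
        exact one_le_mul_of_one_le_of_one_le hcp (by linarith)
      have h7 : 0 ≤ ∑ s ∈ 𝓢, 1 / 2 / 2 ^ s.1.1 * psi M p (kf s) (b (kf s)) :=
        Finset.sum_nonneg hσψ
      calc e ^ p * (1 / 2 ^ z.1) ^ 3 = (1 / 2 ^ z.1) * (e ^ p * (1 / 2 ^ z.1) ^ 2) := by ring
        _ ≤ (1 / 2 ^ z.1) * ∑ s ∈ 𝓢, 1 / 2 / 2 ^ s.1.1 * psi M p (kf s) (b (kf s)) :=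
            mul_le_mul_of_nonneg_left h5 (by positivity)
        _ = 1 * ((1 / 2 ^ z.1) *
              ∑ s ∈ 𝓢, 1 / 2 / 2 ^ s.1.1 * psi M p (kf s) (b (kf s))) := by ring
        _ ≤ _ := by
            rw [mul_assoc (cp p * _)]
            exact mul_le_mul_of_nonneg_right h6 (mul_nonneg (by positivity) h7)
    refine (ENNReal.ofReal_le_ofReal h4).trans ?_
    have h8 := sum_psi_le hp1 hQ H hkf T hD₀ hε hb hE hσ hℓ
    rw [ENNReal.ofReal_mul (by positivity)]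
    refine (mul_le_mul_right h8 _).trans_eq ?_
    rw [← mul_assoc, ← ENNReal.ofReal_mul (by positivity)]
    congr 2
    unfold dK
    ring
  refine (lint_sum_le hK h0 ha he hp1 h1 h2).trans ?_
  rw [← mul_assoc, ← ENNReal.ofReal_mul (by positivity)]
  refine mul_le_mul_left (ENNReal.ofReal_le_ofReal ?_) _
  rw [hm, ← mul_div_assoc]
  exact div_le_div_of_nonneg_right hC (by positivity)

end P073.H950
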