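import Vale.Agent.P073.H950.MErr

/-!
# P073, block B09, [SUMF]: the numbers, and `M1P` from the data of the chain and Round 2
-/

open MeasureTheory Set Filter Topology Metric Matrix
open scoped ENNReal NNReal

namespace Vale.Agent.P073.H950F

open Vale.Agent.P073
open Vale.Agent.P073.St (V Mat)
open Vale.Agent.P073.SQ (ev)
open Vale.Agent.P073.AB (Idx Part cl FinDist)
open Vale.Agent.P073.H194 (cellT Gen)
open Vale.Agent.P073.H696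
open Vale.Agent.P073.H911
open Vale.Agent.P073.H234.Ch (ChX Q₁)
open Vale.Agent.P073.H851 (M3)
open _root_.P073 (ConHomeo)
open _root_.P073.Net (dyc dyo)

/-- the choice of the small number -/
theorem exists_small {p C C₂ m i₀ K : ℝ} (hp : 1 ≤ p) (hC : 0 < C) {ε : ℝ} (hε : 0 < ε) :
    ∃ t > 0, t ≤ 1 / 2 ∧ C * (2 * t) ≤ ε ∧ errN p C C₂ m i₀ t t (2 * t) (K * t) ≤ ε := by
  have hp0 : 0 < p := by linarith
  set g : ℝ → ℝ := fun t => errN p C C₂ m i₀ t t (2 * t) (K * t) with hg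
  have hc : Continuous g := by
    have h1 : Continuous fun t : ℝ => (C * (2 * t)) ^ p :=
      (by fun_prop : Continuous fun t : ℝ => C * (2 * t)).rpow_const fun _ => Or.inr hp0.le
    simp only [hg, errN]
    fun_prop
  have h0 : g 0 = 0 := by
    simp [hg, errN, Real.zero_rpow hp0.ne']
  have h1 : ∀ᶠ t in 𝓝 (0 : ℝ), g t < ε := by
    have := hc.tendsto 0
    rw [h0] at this
    exact this.eventually_lt_const hε
  obtain ⟨d, hd, h2⟩ := Metric.eventually_nhds_iff.1 h1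
  refine ⟨min (d / 2) (min (1 / 2) (ε / (2 * C))), lt_min (by positivity)
    (lt_min (by norm_num) (by positivity)), (min_le_right _ _).trans (min_le_left _ _), ?_, ?_⟩
  · have h3 : min (d / 2) (min (1 / 2) (ε / (2 * C))) ≤ ε / (2 * C) :=
      (min_le_right _ _).trans (min_le_right _ _)
    rw [le_div_iff₀ (by positivity)] at h3
    linarith
  · have h3 : (0 : ℝ) < min (d / 2) (min (1 / 2) (ε / (2 * C))) := lt_min (by positivity)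
      (lt_min (by norm_num) (by positivity))
    refine (h2 ?_).le
    rw [dist_zero_right, Real.norm_eq_abs, abs_of_pos h3]
    have := min_le_left (d / 2) (min (1 / 2) (ε / (2 * C)))
    linarith

/-- the data of the chain, for finite distortion -/
def ChM (p : ℝ) : Prop :=
  ∃ (Cu : ℝ) (Lc : M3 → ℝ) (C₂ : ℝ), 1 ≤ Cu ∧ (∀ M, 1 ≤ Lc M) ∧
    ∀ (δ : ℝ) (j : ℕ), 0 < δ → 7 ≤ j → ∀ (Ω Λ : Set V) (f : V → V) (F : V → Mat),
    St.IsBoundedDomain Ω → St.IsBoundedDomain Λ → St.IsHomeo Ω Λ f → St.IsSobolev p Ω f F →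
    FinDist Ω F → ∀ ε > 0, ε ≤ 1 / 2 →
    ∃ (v : V) (X : R2 p Cu Lc δ j (2 * ε) Ω Λ f F v) (M₀ r₀ b : ℝ) (c : ℝ≥0∞) (τ φ κ μ : V → ℝ)
      (s : V → ℕ) (nn : ℕ → ℕ) (c₀ : V → ℝ) (a k₁ : V → ℕ) (E₀ Eb r : V → ℝ) (εD : ℝ≥0∞)
      (tolD : Idx → ℝ≥0∞) (I : Set Idx) (N' : Idx → ℕ),
      ChX X C₂ ε M₀ r₀ b ε c τ φ κ μ s nn c₀ a k₁ E₀ Eb r εD tolD I N'

section

variable {p Cu : ℝ} {Lc : M3 → ℝ} {δ : ℝ} {j : ℕ} {ε' : ℝ} {Ω Λ : Set V} {f : V → V}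
  {F : V → Mat} {v : V} {X : R2 p Cu Lc δ j ε' Ω Λ f F v} {C₂ εB M₀ r₀ b ε₃ : ℝ} {c : ℝ≥0∞}
  {τ φ κ μ : V → ℝ} {s : V → ℕ} {nn : ℕ → ℕ} {c₀ : V → ℝ} {a k₁ : V → ℕ} {E₀ Eb r : V → ℝ}
  {εD : ℝ≥0∞} {tolD : Idx → ℝ≥0∞} {I : Set Idx} {N' : Idx → ℕ}

/-- the solid cubes -/
theorem sol_le (H : ChX X C₂ εB M₀ r₀ b ε₃ c τ φ κ μ s nn c₀ a k₁ E₀ Eb r εD tolD I N') :
    ∑' k : {k // k ∈ X.K}, ENNReal.ofReal (X.E k.1) *
      volume ((⋃ q ∈ {q | q ∈ X.S ∧ dyc v q.1 q.2 ⊆ dyc v k.1.1 k.1.2}, dyc v q.1 q.2) \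
        deep v X.n (4 * X.c₀ k.1) k.1) ≤
    ENNReal.ofReal (2 * (volume Ω).toReal * ε₃) := by
  have hvΩ : volume Ω ≠ ⊤ := PK.volume_ne_top_of_domain X.hΩ
  have hε₃ := H.ε₃0
  refine ((toBx H).sum_solid X.hΩ.1 (n := X.n) (c₀ := X.c₀) (E := X.E)
    (fun k hk => (n_sub H k).2) (fun k hk => ?_) (ε := 2 * ε₃) (fun k hk => ?_) X.S).trans
    (le_of_eq ?_)
  · have := X.box k hk
    exact ⟨this.2.2.1.le, by linarith [this.2.2.2.1]⟩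
  · rw [(n_sub H k).1, H.cc, H.E]
    obtain ⟨hE, -, -, -, -, e1, e2, -⟩ := nums H (X.x k)
    set y := X.x k with hy
    have h18 : (18 : ℝ) / 2 ^ a y ≤ 48 / 2 ^ a y := by gcongr; norm_num
    calc (18 / 2 ^ a y + 24 * c₀ y) * E₀ y ≤ (48 / 2 ^ a y + 24 * c₀ y) * E₀ y := by gcongr
      _ ≤ 2 * ε₃ := by linarith
  · nth_rewrite 1 [← ENNReal.ofReal_toReal hvΩ]
    rw [← ENNReal.ofReal_mul (by positivity)]
    congr 1
    ring

end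

/-- **[SUMF]** `M1P` from the data of the chain and Round 2 -/
theorem m1P_of_chM {p : ℝ} (hp : 1 ≤ p) (hCh : ChM p) (hR : SpecR2 p) : H235.M1P p := by
  obtain ⟨j, δ, hj, hδ, hR⟩ := hR
  obtain ⟨Cu, Lc, C₂, hCu, hLc, hCh⟩ := hCh
  obtain ⟨C, hC, hR⟩ := hR Cu Lc hCu hLc
  refine H490.m1P_of_con hp fun Ω Λ f F hΩ hΛ hf hF hD ε hε => ?_
  obtain ⟨t, ht, ht1, ht2, ht3⟩ := exists_small (C₂ := C₂) (m := (volume Ω).toReal)
    (i₀ := (∫⁻ y in Ω, ‖cl (F y)‖ₑ ^ p).toReal) (K := 2 * (volume Ω).toReal) hp hC hε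
  obtain ⟨v, X, M₀, r₀, b, c, τ, φ, κ, μ, s, nn, c₀, a, k₁, E₀, Eb, r, εD, tolD, I, N', H⟩ :=
    hCh δ j hδ hj Ω Λ f F hΩ hΛ hf hF hD t ht ht1
  obtain ⟨g, hg, R, hRm, hRΩ, hRR, hAct, hen⟩ := hR (2 * t) Ω Λ f F v X
  refine ⟨g, fun x hx => (hg x hx).trans ht2, fun i => ?_⟩
  refine (err_of_chX H hp hF ht.le hC hRm hRΩ hRR hAct (δ₅ := 2 * (volume Ω).toReal * t)
    (by positivity) (sol_le H) hen i).trans (ENNReal.ofReal_le_ofReal ht3)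

end Vale.Agent.P073.H950F
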