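import Vale.Agent.P073.H950.GlueGeo

/-!
# P073, block B09, [GLUE]: the multi-box assembly

`specGlue_of : GlueBox → SpecGlue`.
-/

namespace Vale.Agent.P073.H950

open MeasureTheory Set Filter Topology Metric Vale.Agent.P073.St Vale.Agent.P073.AB
open Vale.Agent.P073.SQ (ev)
open Vale.Agent.P073.H696 (Dom blk blkS IsNear)
open Vale.Agent.P073.H605 (sbox obx GlueBox)
open Vale.Agent.P073.H304 (boxH SpecGlue)
open Vale.Agent.P073.H803 (boxD)
open Vale.Agent.P073.H989 (Near0)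
open _root_.P073.Net (dyc dyo)
open _root_.P073 (ConHomeo RelLF ConicalSet)
open _root_.P073.Gauge (gam)
open _root_.P073.Gauge.O407 (exists_pos_le)
open _root_.P073.Gauge.C110
open scoped ENNReal

/-- triangle inequality on an edge, three maps -/
theorem eInt_tri3 {v : V} {e : Idx × Fin 3} {Ω : Set V} {f : V → V} {F : V → Mat}
    (rat : RatGood v Ω f F) (he : edge v e ⊆ Ω) (h h' : V → V) {a b : ℝ} (ha : 0 ≤ a)
    (hb : 0 ≤ b)
    (h1 : eInt v e (fun x => ENNReal.ofReal ‖lineDeriv ℝ h' x (ev e.2) - lineDeriv ℝ h x (ev e.2)‖)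
      ≤ ENNReal.ofReal a)
    (h2 : eInt v e (fun x => ENNReal.ofReal ‖lineDeriv ℝ h x (ev e.2) - cl (F x) (ev e.2)‖) ≤
      ENNReal.ofReal b) :
    eInt v e (fun x => ENNReal.ofReal ‖lineDeriv ℝ h' x (ev e.2) - cl (F x) (ev e.2)‖) ≤
      ENNReal.ofReal (a + b) := by
  have h3 : eInt v e (fun x => ENNReal.ofReal ‖lineDeriv ℝ h' x (ev e.2) - cl (F x) (ev e.2)‖) ≤
      eInt v e (fun x =>
        ENNReal.ofReal ‖lineDeriv ℝ h' x (ev e.2) - lineDeriv ℝ h x (ev e.2)‖ +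
        ENNReal.ofReal ‖lineDeriv ℝ h x (ev e.2) - cl (F x) (ev e.2)‖) := by
    refine H333.eInt_mono' v e fun x => ?_
    rw [← ENNReal.ofReal_add (norm_nonneg _) (norm_nonneg _)]
    exact ENNReal.ofReal_le_ofReal (norm_sub_le_norm_sub_add_norm_sub _ _ _)
  refine h3.trans ?_
  rw [S293.eInt_add]
  · rw [ENNReal.ofReal_add ha hb]
    exact add_le_add h1 h2
  · -- measurability
    have hd : ∀ t : ℝ, lineDeriv ℝ h (gam v e t) (ev e.2) =
        (2 ^ e.1.1 : ℝ) • deriv (fun s => h (gam v e s)) t := by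
      intro t
      rw [_root_.P073.Gauge.O407.deriv_gam, smul_smul, mul_one_div_cancel (by positivity), one_smul]
    have h4 : AEMeasurable (fun t => lineDeriv ℝ h (gam v e t) (ev e.2))
        (volume.restrict (Icc (0:ℝ) 1)) := by
      simp only [hd]
      exact ((measurable_deriv _).const_smul (2 ^ e.1.1 : ℝ)).aemeasurable
    have h5 := (S293.aemeas_F rat he).aemeasurable
    exact ((h4.sub h5).norm).ennreal_ofReal

theorem specGlue_of (hG : GlueBox) : SpecGlue := by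
  classical
  intro Ω Λ ft Ft v H K I n N N' r ε tol R hΩ hΛ hft rat Dm hK hdisj hfin hR hΨ m δ hm hm0 hδ
  obtain ⟨gt, hinv, hftc, hgtc⟩ := id hft
  have hI := Dm.part
  have hn' : ∀ k ∈ K, n k + 2 ≤ N' k := fun k hk => (hK k hk).2.2.trans (Dm.gen k hk)
  set S : Idx → Set V := fun k => sbox v (N' k) (glA k (n k) (N' k)) (glM k (n k) (N' k)) 0
    with hS
  set O : Idx → Set V := fun k => obx v (N' k) (glA k (n k) (N' k)) (glM k (n k) (N' k)) 0
    with hO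
  have hSk : ∀ k ∈ K, S k ⊆ dyo v k.1 k.2 := fun k hk => sbox_dyo (hK k hk).2.1 (hn' k hk)
  have hSR : ∀ k ∈ K, S k ⊆ R k := fun k hk =>
    (sbox_boxH (hK k hk).2.1 (hn' k hk)).trans (hR k hk).2.1
  have hRk : ∀ k ∈ K, R k ⊆ dyo v k.1 k.2 := fun k hk => by
    rw [← interior_dyc]
    exact subset_closure.trans (hR k hk).2.2
  have hRΩ : ∀ k ∈ K, R k ⊆ Ω := fun k hk =>
    ((hRk k hk).trans P86.dyo_sub_dyc).trans (hK k hk).1
  have hSΩ : ∀ k ∈ K, S k ⊆ Ω := fun k hk => (hSR k hk).trans (hRΩ k hk)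
  have hOS : ∀ k, O k ⊆ S k := fun k => obx_sub_sbox _ _ _ _
  have hSc : ∀ k, IsCompact (S k) := fun k => isCompact_sbox _ _ _ _
  have hclO : ∀ k, closure (O k) = S k := fun k => closure_obx (glM_pos _ _ _)
  have hOo : ∀ k, IsOpen (O k) := fun k => isOpen_obx _ _ _ _
  -- the boxes are disjoint
  have huniq : ∀ k ∈ K, ∀ k' ∈ K, ∀ x ∈ dyo v k.1 k.2, x ∈ dyc v k'.1 k'.2 → k = k' := by
    intro k hk k' hk' x hx hx'
    by_contra hne
    rw [← H333.closure_dyo] at hx'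
    obtain ⟨y, hy, hy'⟩ := _root_.mem_closure_iff.1 hx' (dyo v k.1 k.2) (H803.isOpen_dyo _ _ _) hx
    exact Set.disjoint_left.1 (hdisj k hk k' hk' hne) hy hy'
  have hsubE : ∀ e : Idx × Fin 3, (∃ q ∈ I, EdgeOf e q) → edge v e ⊆ Ω := by
    rintro e ⟨q, hq, he⟩
    exact (Gr.edge_subset_dyc he).trans (hI.sub q hq)
  -- the numbers `εk`
  have heps : ∀ k, ∃ η > 0, k ∈ K → (∀ x ∈ S k, η ≤ m x) ∧
      ∀ e, (∃ q ∈ I, EdgeOf e q) → (edge v e ∩ S k).Nonempty → η ≤ δ e / 2 := by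
    intro k
    by_cases hk : k ∈ K
    · have h1 : {e : Idx × Fin 3 | (∃ q ∈ I, EdgeOf e q) ∧ (edge v e ∩ S k).Nonempty}.Finite :=
        Gr.finite_edges hI (hSΩ k hk) (hSc k)
      obtain ⟨a, ha, ha'⟩ := exists_pos_le h1 (fun e => δ e / 2) (fun e _ => half_pos (hδ e))
      obtain ⟨b, hb, hb'⟩ : ∃ b > 0, ∀ x ∈ S k, b ≤ m x := by
        rcases (S k).eq_empty_or_nonempty with h0 | h0
        · exact ⟨1, one_pos, fun x hx => by rw [h0] at hx; exact absurd hx (notMem_empty x)⟩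
        · obtain ⟨x, hx, hx'⟩ := (hSc k).exists_isMinOn h0 (hm.mono (hSΩ k hk))
          exact ⟨m x, hm0 x (hSΩ k hk hx), fun y hy => hx' hy⟩
      exact ⟨min a b, lt_min ha hb, fun _ => ⟨fun x hx => (min_le_right _ _).trans (hb' x hx),
        fun e he hne => (min_le_left _ _).trans (ha' e ⟨he, hne⟩)⟩⟩
    · exact ⟨1, one_pos, fun h => absurd h hk⟩
  choose η hη0 hη using heps
  -- one box
  have hbox : ∀ k, ∃ (Ψ : V → V) (G : ℕ) (δG : ℝ), 0 < δG ∧ (k ∈ K → EqOn Ψ ft (R k) ∧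
      ∀ h : ConHomeo Ω Λ, (∀ x ∈ R k, ‖h.toFun x - Ψ x‖ ≤ δG) →
      (∀ e : Idx × Fin 3, e.1.1 = G → edge v e ⊆ S k →
        eInt v e (fun x => ENNReal.ofReal
          ‖lineDeriv ℝ h.toFun x (ev e.2) - lineDeriv ℝ Ψ x (ev e.2)‖) ≤ ENNReal.ofReal δG) →
      ∃ h' : ConHomeo Ω Λ,
        (∀ x ∈ Ω, x ∉ O k → h'.toFun x = h.toFun x) ∧
        (∀ x ∈ boxD v k (n k), h'.toFun x = Ψ x) ∧
        (∀ x ∈ S k, ‖h'.toFun x - Ψ x‖ ≤ η k) ∧
        ∀ e : Idx × Fin 3, e.1.1 ≤ N' k → edge v e ⊆ Ω →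
          eInt v e (fun x => ENNReal.ofReal
            ‖lineDeriv ℝ h'.toFun x (ev e.2) - lineDeriv ℝ h.toFun x (ev e.2)‖) ≤
              ENNReal.ofReal (η k)) := by
    intro k
    by_cases hk : k ∈ K
    · obtain ⟨Ψ, hΨk⟩ := hΨ k hk
      have hR'o : IsOpen (ft '' R k) := by
        have e : ft '' R k = Λ ∩ gt ⁻¹' R k := by
          ext y
          constructor
          · rintro ⟨x, hx, rfl⟩
            have h1 := hinv.1 x (hRΩ k hk hx)
            refine ⟨h1.1, ?_⟩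
            show gt (ft x) ∈ R k
            rw [h1.2]
            exact hx
          · rintro ⟨hy, hyR⟩
            exact ⟨gt y, hyR, (hinv.2 y hy).2⟩
        rw [e]
        exact hgtc.isOpen_inter_preimage hΛ.1 (hR k hk).1
      have hR'Λ : ft '' R k ⊆ Λ := by
        rintro _ ⟨x, hx, rfl⟩
        exact (hinv.1 x (hRΩ k hk hx)).1
      have hRb : Bornology.IsBounded (R k) :=
        (P86.isCompact_dyc v k.1 k.2).isBounded.subset ((hRk k hk).trans P86.dyo_sub_dyc)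
      obtain ⟨G, δG, -, hδG, h1⟩ := hG (R k) (ft '' R k) Ψ v (N' k) (glM k (n k) (N' k))
        (glA k (n k) (N' k)) (η k) (hR k hk).1 hR'o hRb (glM_pos _ _ _)
        (glM_le (hK k hk).2.1 (hn' k hk)) (hSR k hk) (hη0 k)
      refine ⟨Ψ.toFun, G, δG, hδG, fun _ => ⟨hΨk, fun h hh1 hh2 => ?_⟩⟩
      obtain ⟨h', a1, a2, a3, a4⟩ := h1 Ω Λ h hΩ.1 hΛ.1 (hRΩ k hk) hR'Λ (PK.isBounded_of_domain hΩ) hh1 hh2
      refine ⟨h', a1, ?_, a3, a4⟩
      rw [← sbox_boxD (hK k hk).2.1 (hn' k hk)]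
      exact a2
    · exact ⟨ft, 0, 1, one_pos, fun h => absurd h hk⟩
  choose Ψ G δG hδG hbox' using hbox
  -- the net
  obtain ⟨σ, hσc, hσ0, hσm, hσG⟩ := H333.exists_gauge hΩ.1 (J := K)
    (fun C hC hCc => hfin C hC hCc) hm hm0 (a := δG) (fun k _ => hδG k)
  obtain ⟨δ', hδ'0, hδ'1, hδ'2⟩ := H333.exists_tol_edge (v := v) (J := K) (Ω := Ω)
    (fun C hC hCc => hfin C hC hCc) (a := δG) (fun k _ => hδG k) (δ := fun e => δ e / 2)
    (fun e => half_pos (hδ e))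
  set X : Set (Idx × Fin 3) := {e | (∃ q ∈ I, EdgeOf e q) ∨
    ∃ k ∈ K, e.1.1 = G k ∧ edge v e ⊆ S k} with hX
  have hXΩ : ∀ e ∈ X, edge v e ⊆ Ω := by
    rintro e (he | ⟨k, hk, -, h2⟩)
    · exact hsubE e he
    · exact h2.trans (hSΩ k hk)
  obtain ⟨h₁, hcl, hed⟩ := H51.exists_netF hΩ hΛ hft rat (X := X) hXΩ
    (H51.finite_X hI (K := K) (B := S) (G := G) (fun k _ => (hSc k).isBounded) (by
      intro C hC hCc
      refine (hfin C hC hCc).subset ?_
      rintro k ⟨hk, x, hx, hxC⟩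
      exact ⟨hk, x, P86.dyo_sub_dyc (hSk k hk hx), hxC⟩)) δ' hδ'0 hσc hσ0
  -- the modification in every box
  have hmod : ∀ k, ∃ h' : ConHomeo Ω Λ, (∀ x ∈ Ω, x ∉ O k → h'.toFun x = h₁.toFun x) ∧
      (k ∈ K → (∀ x ∈ boxD v k (n k), h'.toFun x = ft x) ∧
        (∀ x ∈ S k, ‖h'.toFun x - ft x‖ ≤ η k) ∧
        ∀ e : Idx × Fin 3, e.1.1 ≤ N' k → edge v e ⊆ Ω →
          eInt v e (fun x => ENNReal.ofReal
            ‖lineDeriv ℝ h'.toFun x (ev e.2) - lineDeriv ℝ h₁.toFun x (ev e.2)‖) ≤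
              ENNReal.ofReal (η k)) := by
    intro k
    by_cases hk : k ∈ K
    · obtain ⟨h1, h2⟩ := hbox' k hk
      obtain ⟨h', a1, a2, a3, a4⟩ := h2 h₁ (by
        intro x hx
        rw [h1 hx]
        exact (hcl x (hRΩ k hk hx)).trans
          (hσG k hk x (hRΩ k hk hx) (P86.dyo_sub_dyc (hRk k hk hx)))) (by
        intro e he hes
        have he' : edge v e ⊆ R k := hes.trans (hSR k hk)
        rw [H51.eInt_sub_eq rat (hR k hk).1 (hRΩ k hk) h1 he' h₁.toFun]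
        refine (hed e (Or.inr ⟨k, hk, he, hes⟩)).2.trans (ENNReal.ofReal_le_ofReal ?_)
        obtain ⟨x, hx⟩ := Gr.edge_nonempty v e
        exact hδ'2 e (he'.trans (hRΩ k hk)) k hk ⟨x, P86.dyo_sub_dyc (hRk k hk (he' hx)), hx⟩)
      refine ⟨h', a1, fun _ => ⟨?_, ?_, a4⟩⟩
      · intro x hx
        have hxS : x ∈ S k := hOS k (boxD_obx (hK k hk).2.1 (hn' k hk) hx)
        rw [a2 x hx, h1 (hSR k hk hxS)]
      · intro x hx
        have := a3 x hx
        rwa [h1 (hSR k hk hx)] at this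
    · exact ⟨h₁, fun _ _ _ => rfl, fun h => absurd h hk⟩
  choose Hk hHk1 hHk2 using hmod
  -- gluing
  obtain ⟨h₀, hin, hout⟩ := H333.exists_glue_supp (ι := K) (κ := I) hΩ.1 hΛ.1 h₁
    (fun k => O k.1) (fun k => hOo k.1)
    (fun k k' hne => by
      refine Set.disjoint_left.2 fun x hx hx' => hne (Subtype.ext ?_)
      exact huniq k.1 k.2 k'.1 k'.2 x (hSk k.1 k.2 (hOS _ hx))
        (P86.dyo_sub_dyc (hSk k'.1 k'.2 (hOS _ hx')))) (fun k => Hk k.1)
    (fun k x hx hxk => hHk1 k.1 x hx hxk)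
    (fun q => dyc v q.1.1 q.1.2)
    ⟨by
      intro x hx
      obtain ⟨q, hq⟩ := mem_iUnion.1 hx
      have hxΩ := hI.sub q.1 q.2 hq
      obtain ⟨ρ, hρ, hb⟩ := Metric.nhds_basis_closedBall.mem_iff.1 (hΩ.1.mem_nhds hxΩ)
      refine ⟨closedBall x ρ, closedBall_mem_nhds x hρ, ?_⟩
      refine Set.Finite.of_finite_image (f := Subtype.val)
        ((hI.fin _ hb (isCompact_closedBall x ρ)).subset ?_) Subtype.val_injective.injOn
      rintro _ ⟨q', hq', rfl⟩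
      exact ⟨q'.2, hq'⟩,
     by
      intro q x _ hx
      rwa [(P86.isCompact_dyc v q.1.1 q.1.2).isClosed.closure_eq] at hx⟩
    (by
      apply Subset.antisymm
      · exact iUnion_subset fun q => hI.sub q.1 q.2
      · intro x hx
        obtain ⟨q, hq, hxq⟩ := hI.cover x hx
        exact mem_iUnion.2 ⟨⟨q, hq⟩, hxq⟩)
    (fun q => _root_.P073.Convex.conicalSet (_root_.P073.Gauge.O407.convex_dyc v q.1.1 q.1.2))
    (by
      intro q
      by_cases hq : ∃ k ∈ K, (dyc v q.1.1 q.1.2 ∩ O k).Nonempty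
      · obtain ⟨k, hk, x, hx, hxO⟩ := hq
        left
        refine ⟨⟨k, hk⟩, ?_⟩
        show dyc v q.1.1 q.1.2 ⊆ closure (O k)
        rw [hclO k]
        exact (cube_in Dm hk (hK k hk).2.1 (hK k hk).2.2 q.2 hx hxO).2.2
      · right
        intro k
        refine Set.disjoint_left.2 fun x hx hxO => hq ⟨k.1, k.2, x, hx, hxO⟩)
  have hin' : ∀ k ∈ K, ∀ x ∈ S k, h₀.toFun x = (Hk k).toFun x := by
    intro k hk x hx
    refine hin ⟨k, hk⟩ x (hSΩ k hk hx) ?_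
    show x ∈ closure (O k)
    rw [hclO k]
    exact hx
  have hout' : ∀ x ∈ Ω, (∀ k ∈ K, x ∉ O k) → h₀.toFun x = h₁.toFun x :=
    fun x hx h => hout x hx fun k => h k.1 k.2
  refine ⟨h₀, ⟨?_, ?_⟩, ?_⟩
  · -- values
    intro x hx
    by_cases hex : ∃ k ∈ K, x ∈ O k
    · obtain ⟨k, hk, hxk⟩ := hex
      rw [hin' k hk x (hOS k hxk)]
      exact ((hHk2 k hk).2.1 x (hOS k hxk)).trans ((hη k hk).1 x (hOS k hxk))
    · push Not at hex
      rw [hout' x hx hex]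
      exact (hcl x hx).trans (hσm x hx)
  · -- edges
    intro e he
    have heΩ := hsubE e he
    obtain ⟨b1, b2⟩ := hed e (Or.inl he)
    refine ⟨?_, ?_⟩
    · intro x hx
      by_cases hex : ∃ k ∈ K, x ∈ O k
      · obtain ⟨k, hk, hxk⟩ := hex
        rw [hin' k hk x (hOS k hxk)]
        refine ((hHk2 k hk).2.1 x (hOS k hxk)).trans (((hη k hk).2 e he ⟨x, hx, hOS k hxk⟩).trans ?_)
        linarith [hδ e]
      · push Not at hex
        rw [hout' x (heΩ hx) hex]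
        refine (b1 x hx).trans ((hδ'1 e).trans ?_)
        linarith [hδ e]
    · by_cases hex : ∃ k ∈ K, (edge v e ∩ O k).Nonempty
      · obtain ⟨k, hk, x, hx, hxO⟩ := hex
        obtain ⟨q, hq, heq⟩ := he
        obtain ⟨c1, c2, c3⟩ := cube_in Dm hk (hK k hk).2.1 (hK k hk).2.2 hq
          (Gr.edge_subset_dyc heq hx) hxO
        have hgen : e.1.1 ≤ N' k := by rw [heq.1]; exact c2
        -- on the edge `h₀ = Hk k`
        have hEq : ∀ y ∈ edge v e, h₀.toFun y = (Hk k).toFun y := fun y hy =>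
          hin' k hk y (c3 (Gr.edge_subset_dyc heq hy))
        rw [H333.eInt_congr_edge hEq (fun x w => ENNReal.ofReal ‖w - cl (Ft x) (ev e.2)‖)]
        have d1 := (hHk2 k hk).2.2 e hgen heΩ
        have d2 := b2.trans (ENNReal.ofReal_le_ofReal (hδ'1 e))
        have d3 := eInt_tri3 rat heΩ h₁.toFun (Hk k).toFun (hη0 k).le (half_pos (hδ e)).le d1 d2
        refine d3.trans (ENNReal.ofReal_le_ofReal ?_)
        have := (hη k hk).2 e ⟨q, hq, heq⟩ ⟨x, hx, hOS k hxO⟩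
        linarith
      · have hno : ∀ y ∈ edge v e, h₀.toFun y = h₁.toFun y := fun y hy =>
          hout' y (heΩ hy) fun k hk hyO => hex ⟨k, hk, y, hy, hyO⟩
        rw [H333.eInt_congr_edge hno (fun x w => ENNReal.ofReal ‖w - cl (Ft x) (ev e.2)‖)]
        refine b2.trans (ENNReal.ofReal_le_ofReal ((hδ'1 e).trans ?_))
        linarith [hδ e]
  · intro k hk x hx
    have hxO : x ∈ O k := boxD_obx (hK k hk).2.1 (hn' k hk) hx
    rw [hin' k hk x (hOS k hxO)]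
    exact (hHk2 k hk).1 x hx

end Vale.Agent.P073.H950
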