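import Vale.Agent.P073.H73.K2A

/-!
# P073, H950 [ADAPT], part 1: coverings of a segment by segments
-/

open Set Metric Topology Filter MeasureTheory
open scoped ENNReal

namespace P073.H950

/-! ### Coverings of an interval -/

section cover

variable {ι : Type*} {s t : ι → ℝ}

open Classical in
/-- a minimal subcover: every point is in at most two intervals -/
theorem exists_subcover {A : Set ℝ} (T : Finset ι) (hT : A ⊆ ⋃ i ∈ T, Icc (s i) (t i)) :
    ∃ T' ⊆ T, A ⊆ ⋃ i ∈ T', Icc (s i) (t i) ∧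
      ∀ x, (T'.filter fun i => x ∈ Icc (s i) (t i)).card ≤ 2 := by
  set P := T.powerset.filter fun T' => A ⊆ ⋃ i ∈ T', Icc (s i) (t i) with hP
  have hne : P.Nonempty := ⟨T, Finset.mem_filter.2 ⟨Finset.mem_powerset_self T, hT⟩⟩
  obtain ⟨T', hT', hmin⟩ := Finset.exists_min_image P Finset.card hne
  obtain ⟨h1, h2⟩ := Finset.mem_filter.1 hT'
  refine ⟨T', Finset.mem_powerset.1 h1, h2, fun x => ?_⟩
  set S := T'.filter fun i => x ∈ Icc (s i) (t i) with hS
  by_contra hcard
  push Not at hcard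
  have hSne : S.Nonempty := Finset.card_pos.1 (by omega)
  obtain ⟨i1, hi1, hm1⟩ := Finset.exists_min_image S s hSne
  obtain ⟨i2, hi2, hm2⟩ := Finset.exists_max_image S t hSne
  obtain ⟨i3, hi3, h31, h32⟩ : ∃ i3 ∈ S, i3 ≠ i1 ∧ i3 ≠ i2 := by
    by_contra hcon
    push Not at hcon
    have : S ⊆ {i1, i2} := by
      intro i hi
      by_cases h : i = i1
      · rw [h]; exact Finset.mem_insert_self _ _
      · rw [hcon i hi h]; exact Finset.mem_insert_of_mem (Finset.mem_singleton_self _)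
    have := (Finset.card_le_card this).trans (Finset.card_le_two)
    omega
  have hx1 := (Finset.mem_filter.1 hi1).2
  have hx2 := (Finset.mem_filter.1 hi2).2
  have hx3 := (Finset.mem_filter.1 hi3).2
  have hT1 := (Finset.mem_filter.1 hi1).1
  have hT2 := (Finset.mem_filter.1 hi2).1
  have hT3 := (Finset.mem_filter.1 hi3).1
  have hcov : A ⊆ ⋃ i ∈ T'.erase i3, Icc (s i) (t i) := by
    intro y hy
    obtain ⟨i, hi, hyi⟩ := mem_iUnion₂.1 (h2 hy)
    by_cases h : i = i3
    · subst h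
      rcases le_total y x with hyx | hyx
      · exact mem_iUnion₂.2 ⟨i1, Finset.mem_erase.2 ⟨h31.symm, hT1⟩,
          (hm1 _ hi3).trans hyi.1, hyx.trans hx1.2⟩
      · exact mem_iUnion₂.2 ⟨i2, Finset.mem_erase.2 ⟨h32.symm, hT2⟩,
          hx2.1.trans hyx, hyi.2.trans (hm2 _ hi3)⟩
    · exact mem_iUnion₂.2 ⟨i, Finset.mem_erase.2 ⟨h, hi⟩, hyi⟩
  have h3 := hmin (T'.erase i3) (Finset.mem_filter.2 ⟨Finset.mem_powerset.2
    ((Finset.erase_subset _ _).trans (Finset.mem_powerset.1 h1)), hcov⟩)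
  have h4 := Finset.card_erase_lt_of_mem hT3
  omega

open Classical in
/-- the total length of a cover of multiplicity two -/
theorem sum_length_le {a b : ℝ} (hab : a ≤ b) {T : Finset ι}
    (hsub : ∀ i ∈ T, Icc (s i) (t i) ⊆ Icc a b) (hst : ∀ i ∈ T, s i ≤ t i)
    (h2 : ∀ x, (T.filter fun i => x ∈ Icc (s i) (t i)).card ≤ 2) :
    ∑ i ∈ T, (t i - s i) ≤ 2 * (b - a) := by
  have h1 : ∑ i ∈ T, volume (Icc (s i) (t i)) ≤ 2 * volume (Icc a b) := by
    calc ∑ i ∈ T, volume (Icc (s i) (t i))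
        = ∑ i ∈ T, ∫⁻ x, (Icc (s i) (t i)).indicator (fun _ => (1 : ℝ≥0∞)) x := by
          refine Finset.sum_congr rfl fun i _ => ?_
          rw [lintegral_indicator_const measurableSet_Icc, one_mul]
      _ = ∫⁻ x, ∑ i ∈ T, (Icc (s i) (t i)).indicator (fun _ => (1 : ℝ≥0∞)) x := by
          rw [lintegral_finsetSum _ fun i _ => measurable_const.indicator measurableSet_Icc]
      _ ≤ ∫⁻ x, (Icc a b).indicator (fun _ => (2 : ℝ≥0∞)) x := by
          refine lintegral_mono fun x => ?_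
          by_cases hx : x ∈ Icc a b
          · rw [indicator_of_mem hx]
            have : ∑ i ∈ T, (Icc (s i) (t i)).indicator (fun _ => (1 : ℝ≥0∞)) x
                = ((T.filter fun i => x ∈ Icc (s i) (t i)).card : ℝ≥0∞) := by
              rw [Finset.card_filter, Nat.cast_sum]
              refine Finset.sum_congr rfl fun i _ => ?_
              by_cases h : x ∈ Icc (s i) (t i)
              · rw [indicator_of_mem h, if_pos h, Nat.cast_one]
              · rw [indicator_of_notMem h, if_neg h, Nat.cast_zero]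
            show ∑ i ∈ T, (Icc (s i) (t i)).indicator (fun _ => (1 : ℝ≥0∞)) x ≤ 2
            rw [this]
            exact_mod_cast h2 x
          · rw [indicator_of_notMem hx]
            refine (Finset.sum_eq_zero fun i hi => ?_).le
            exact indicator_of_notMem (fun h => hx (hsub i hi h)) _
      _ = 2 * volume (Icc a b) := lintegral_indicator_const measurableSet_Icc _
  have h3 : ∑ i ∈ T, volume (Icc (s i) (t i)) = ENNReal.ofReal (∑ i ∈ T, (t i - s i)) := by
    rw [ENNReal.ofReal_sum_of_nonneg fun i hi => sub_nonneg.2 (hst i hi)]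
    exact Finset.sum_congr rfl fun i _ => Real.volume_Icc
  rw [h3, Real.volume_Icc, show (2 : ℝ≥0∞) = ENNReal.ofReal 2 by simp,
    ← ENNReal.ofReal_mul (by norm_num)] at h1
  exact (ENNReal.ofReal_le_ofReal_iff (mul_nonneg (by norm_num) (sub_nonneg.2 hab))).1 h1

/-- subadditivity of an additive monotone interval function for closed covers -/
theorem cost_le_sum {μ : ℝ → ℝ → ℝ≥0∞} (hadd : ∀ a b c, a ≤ b → b ≤ c → μ a c ≤ μ a b + μ b c)
    (hmono : ∀ a b c d, a ≤ b → c ≤ d → Icc a b ⊆ Icc c d → μ a b ≤ μ c d)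
    (h0 : ∀ a, μ a a = 0) (T : Finset ι) :
    ∀ {a b : ℝ}, a ≤ b → (∀ i ∈ T, s i ≤ t i) → Icc a b ⊆ ⋃ i ∈ T, Icc (s i) (t i) →
      μ a b ≤ ∑ i ∈ T, μ (s i) (t i) := by
  classical
  induction T using Finset.strongInduction with
  | H T ih =>
    intro a b hab hst hcov
    obtain ⟨i, hi, hbi⟩ := mem_iUnion₂.1 (hcov (right_mem_Icc.2 hab))
    rcases le_or_gt (s i) a with hsa | hsa
    · refine (hmono a b (s i) (t i) hab (hst i hi) (Icc_subset_Icc hsa hbi.2)).trans ?_
      exact Finset.single_le_sum (f := fun i => μ (s i) (t i)) (fun _ _ => zero_le) hi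
    · have h1 : Icc a (s i) ⊆ ⋃ j ∈ T.erase i, Icc (s j) (t j) := by
        have hcl : IsClosed (⋃ j ∈ T.erase i, Icc (s j) (t j)) :=
          (T.erase i).finite_toSet.isClosed_biUnion fun j _ => isClosed_Icc
        have h2 : Ico a (s i) ⊆ ⋃ j ∈ T.erase i, Icc (s j) (t j) := by
          intro x hx
          obtain ⟨j, hj, hxj⟩ := mem_iUnion₂.1 (hcov ⟨hx.1, hx.2.le.trans hbi.1⟩)
          refine mem_iUnion₂.2 ⟨j, Finset.mem_erase.2 ⟨?_, hj⟩, hxj⟩
          rintro rfl
          exact absurd hxj.1 (not_le.2 hx.2)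
        rw [← closure_Ico hsa.ne]
        exact closure_minimal h2 hcl
      have h2 := ih (T.erase i) (Finset.erase_ssubset hi) hsa.le
        (fun j hj => hst j (Finset.mem_of_mem_erase hj)) h1
      rw [← Finset.add_sum_erase T _ hi]
      calc μ a b ≤ μ a (s i) + μ (s i) b := hadd _ _ _ hsa.le hbi.1
        _ ≤ (∑ j ∈ T.erase i, μ (s j) (t j)) + μ (s i) (t i) :=
          add_le_add h2 (hmono _ _ _ _ hbi.1 (hst i hi) (Icc_subset_Icc le_rfl hbi.2))
        _ = _ := add_comm _ _

end cover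

end P073.H950
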