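import Vale.Agent.P073.H950.Adapt1

/-!
# P073, H950 [ADAPT], part 2: the energy of a segment and of the segments which cover it
-/

open Set Metric Topology Filter MeasureTheory
open scoped ENNReal

namespace P073.H950

open Vale.Agent.P073.St (V)
open Vale.Agent.P073.H73 (onSeg)
open P073.Net (len)

/-! ### Hölder -/

theorem holder_sum {ι : Type*} (T : Finset ι) (a : ι → ℝ≥0∞) {b : ι → ℝ} (hb : ∀ i ∈ T, 0 < b i)
    {B : ℝ} (hB : ∑ i ∈ T, b i ≤ B) {p : ℝ} (hp : 1 ≤ p) :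
    (∑ i ∈ T, a i) ^ p ≤ ENNReal.ofReal (B ^ (p - 1)) *
      ∑ i ∈ T, ENNReal.ofReal (b i ^ (1 - p)) * a i ^ p := by
  have hp0 : 0 < p := by linarith
  rcases T.eq_empty_or_nonempty with rfl | hne
  · simp [hp0]
  set B' := ∑ i ∈ T, b i with hB'
  have hB0 : 0 < B' := Finset.sum_pos hb hne
  have h1 := ENNReal.rpow_arith_mean_le_arith_mean_rpow T
    (fun i => ENNReal.ofReal (b i / B')) (fun i => ENNReal.ofReal (B' / b i) * a i) (by
      rw [← ENNReal.ofReal_sum_of_nonneg fun i hi => div_nonneg (hb i hi).le hB0.le,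
        ← Finset.sum_div, div_self hB0.ne', ENNReal.ofReal_one]) hp
  have h2 : ∑ i ∈ T, ENNReal.ofReal (b i / B') * (ENNReal.ofReal (B' / b i) * a i)
      = ∑ i ∈ T, a i := by
    refine Finset.sum_congr rfl fun i hi => ?_
    have hbi := hb i hi
    rw [← mul_assoc, ← ENNReal.ofReal_mul (div_nonneg hbi.le hB0.le)]
    have : b i / B' * (B' / b i) = 1 := by field_simp
    rw [this, ENNReal.ofReal_one, one_mul]
  rw [h2] at h1
  refine h1.trans ?_
  rw [Finset.mul_sum]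
  refine Finset.sum_le_sum fun i hi => ?_
  have hbi := hb i hi
  rw [ENNReal.mul_rpow_of_nonneg _ _ hp0.le, ENNReal.ofReal_rpow_of_nonneg (by positivity) hp0.le,
    ← mul_assoc, ← mul_assoc, ← ENNReal.ofReal_mul (by positivity),
    ← ENNReal.ofReal_mul (Real.rpow_nonneg (hB0.le.trans hB) _)]
  refine mul_le_mul' (ENNReal.ofReal_le_ofReal ?_) le_rfl
  have e1 : b i / B' * (B' / b i) ^ p = B' ^ (p - 1) * b i ^ (1 - p) := by
    rw [Real.div_rpow hB0.le hbi.le, Real.rpow_sub hB0, Real.rpow_sub hbi, Real.rpow_one,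
      Real.rpow_one]
    field_simp
  rw [e1]
  exact mul_le_mul_of_nonneg_right (Real.rpow_le_rpow hB0.le hB (by linarith))
    (Real.rpow_nonneg hbi.le _)

/-! ### Segments -/

/-- parametrisation of a segment -/
def par (e : V × V) (r : ℝ) : V := e.1 + r • (e.2 - e.1)

theorem par_mem {e : V × V} {r : ℝ} (hr : r ∈ Icc (0:ℝ) 1) : par e r ∈ segment ℝ e.1 e.2 := by
  rw [segment_eq_image']
  exact ⟨r, hr, rfl⟩

theorem exists_par {e : V × V} {x : V} (hx : x ∈ segment ℝ e.1 e.2) :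
    ∃ r ∈ Icc (0:ℝ) 1, par e r = x := by
  rw [segment_eq_image'] at hx
  exact hx

theorem par_inj {e : V × V} (he : e.1 ≠ e.2) {r r' : ℝ} (h : par e r = par e r') : r = r' := by
  unfold par at h
  have h1 : (r - r') • (e.2 - e.1) = 0 := by
    rw [sub_smul, sub_eq_zero]; exact add_left_cancel h
  rcases smul_eq_zero.1 h1 with h2 | h2
  · exact sub_eq_zero.1 h2
  · exact absurd (sub_eq_zero.1 h2).symm he

theorem par_par (e : V × V) (α β r : ℝ) :
    par (par e α, par e β) r = par e (α + r * (β - α)) := by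
  unfold par
  module

theorem segment_par (e : V × V) (α β : ℝ) :
    segment ℝ (par e α) (par e β) = par e '' Icc (min α β) (max α β) := by
  rw [segment_eq_image']
  have h1 : (fun r : ℝ => par e α + r • (par e β - par e α))
      = fun r => par e (α + r * (β - α)) := by
    funext r; exact par_par e α β r
  rw [h1]
  have h2 : (fun r : ℝ => par e (α + r * (β - α))) = par e ∘ fun r => α + r * (β - α) := rfl
  rw [h2, image_comp]
  congr 1
  have h3 := segment_eq_image' ℝ α β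
  rw [segment_eq_uIcc] at h3
  rw [← uIcc, h3]
  rfl

theorem norm_par (e : V × V) (α β : ℝ) :
    ‖par e β - par e α‖ = (max α β - min α β) * ‖e.2 - e.1‖ := by
  have : par e β - par e α = (β - α) • (e.2 - e.1) := by unfold par; module
  rw [this, norm_smul, Real.norm_eq_abs, max_sub_min_eq_abs']
  rw [abs_sub_comm]

/-- the length of a curve on a part of a segment -/
theorem len_par (h : V → V) (e : V × V) (α β : ℝ) :
    len (onSeg h (par e α, par e β)) (Icc 0 1) = len (onSeg h e) (Icc (min α β) (max α β)) := by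
  have h1 : onSeg h (par e α, par e β) = onSeg h e ∘ fun r => α + r * (β - α) := by
    funext r
    show h (par (par e α, par e β) r) = h (par e (α + r * (β - α)))
    rw [par_par]
  have h2 : (fun r : ℝ => α + r * (β - α)) '' Icc 0 1 = Icc (min α β) (max α β) := by
    have h3 := segment_eq_image' ℝ α β
    rw [segment_eq_uIcc] at h3
    rw [← uIcc, h3]
    rfl
  unfold len
  rw [h1]
  have h4 : (fun t => (WithLp.toLp 2 ((onSeg h e ∘ fun r => α + r * (β - α)) t) :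
      EuclideanSpace ℝ (Fin 3))) = (fun t => (WithLp.toLp 2 (onSeg h e t) :
      EuclideanSpace ℝ (Fin 3))) ∘ fun r => α + r * (β - α) := rfl
  rw [h4]
  rcases le_total α β with hab | hab
  · rw [eVariationOn.comp_eq_of_monotoneOn _ _ (fun x _ y _ hxy => by
      have : 0 ≤ β - α := sub_nonneg.2 hab
      show α + x * (β - α) ≤ α + y * (β - α)
      nlinarith), h2]
  · rw [eVariationOn.comp_eq_of_antitoneOn _ _ (fun x _ y _ hxy => by
      have : β - α ≤ 0 := sub_nonpos.2 hab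
      show α + y * (β - α) ≤ α + x * (β - α)
      nlinarith), h2]

/-- a cover of a segment by segments -/
structure SegCov (e : V × V) (T : Finset (V × V)) : Prop where
  ne : e.1 ≠ e.2
  ne' : ∀ e' ∈ T, e'.1 ≠ e'.2
  sub : ∀ e' ∈ T, segment ℝ e'.1 e'.2 ⊆ segment ℝ e.1 e.2
  cov : segment ℝ e.1 e.2 ⊆ ⋃ e' ∈ T, segment ℝ e'.1 e'.2

namespace SegCov

variable {e : V × V} {T : Finset (V × V)}

/-- a subcover with total length at most `2 |e|` -/
theorem exists_sub (H : SegCov e T) (h : V → V) : ∃ T' ⊆ T,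
    ∑ e' ∈ T', ‖e'.2 - e'.1‖ ≤ 2 * ‖e.2 - e.1‖ ∧ ‖e.2 - e.1‖ ≤ ∑ e' ∈ T', ‖e'.2 - e'.1‖ ∧
    len (onSeg h e) (Icc 0 1) ≤ ∑ e' ∈ T', len (onSeg h e') (Icc 0 1) := by
  classical
  have hpar : ∀ e' : V × V, ∃ α β : ℝ, e' ∈ T → α ∈ Icc (0:ℝ) 1 ∧ β ∈ Icc (0:ℝ) 1 ∧
      par e α = e'.1 ∧ par e β = e'.2 := by
    intro e'
    by_cases he' : e' ∈ T
    · obtain ⟨α, hα, h1⟩ := exists_par (H.sub e' he' (left_mem_segment ℝ _ _))
      obtain ⟨β, hβ, h2⟩ := exists_par (H.sub e' he' (right_mem_segment ℝ _ _))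
      exact ⟨α, β, fun _ => ⟨hα, hβ, h1, h2⟩⟩
    · exact ⟨0, 0, fun h => absurd h he'⟩
  choose α β hαβ using hpar
  set s : V × V → ℝ := fun e' => min (α e') (β e') with hs
  set t : V × V → ℝ := fun e' => max (α e') (β e') with ht
  have hst : ∀ e', s e' ≤ t e' := fun e' => min_le_max
  have hpair : ∀ e' ∈ T, (par e (α e'), par e (β e')) = e' := fun e' he' =>
    Prod.ext (hαβ e' he').2.2.1 (hαβ e' he').2.2.2
  have hseg : ∀ e' ∈ T, segment ℝ e'.1 e'.2 = par e '' Icc (s e') (t e') := by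
    intro e' he'
    rw [← segment_par e (α e') (β e'), (hαβ e' he').2.2.1, (hαβ e' he').2.2.2]
  have hlen : ∀ e' ∈ T, len (onSeg h e') (Icc 0 1) = len (onSeg h e) (Icc (s e') (t e')) := by
    intro e' he'
    rw [← len_par h e (α e') (β e'), hpair e' he']
  have hnorm : ∀ e' ∈ T, ‖e'.2 - e'.1‖ = (t e' - s e') * ‖e.2 - e.1‖ := by
    intro e' he'
    rw [← norm_par e (α e') (β e'), (hαβ e' he').2.2.1, (hαβ e' he').2.2.2]
  have hsub : ∀ e' ∈ T, Icc (s e') (t e') ⊆ Icc 0 1 := by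
    intro e' he'
    exact Icc_subset_Icc (le_min (hαβ e' he').1.1 (hαβ e' he').2.1.1)
      (max_le (hαβ e' he').1.2 (hαβ e' he').2.1.2)
  have hcov : Icc (0:ℝ) 1 ⊆ ⋃ e' ∈ T, Icc (s e') (t e') := by
    intro r hr
    obtain ⟨e', he', hx⟩ := mem_iUnion₂.1 (H.cov (par_mem hr))
    rw [hseg e' he'] at hx
    obtain ⟨r', hr', h1⟩ := hx
    rw [par_inj H.ne h1] at hr'
    exact mem_iUnion₂.2 ⟨e', he', hr'⟩
  obtain ⟨T', hT', hc', h2⟩ := exists_subcover T hcov
  have hL : 0 < ‖e.2 - e.1‖ := norm_pos_iff.2 (sub_ne_zero.2 H.ne.symm)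
  refine ⟨T', hT', ?_, ?_, ?_⟩
  · rw [Finset.sum_congr rfl fun e' he' => hnorm e' (hT' he'), ← Finset.sum_mul]
    refine mul_le_mul_of_nonneg_right ?_ hL.le
    have := sum_length_le (zero_le_one' ℝ) (fun e' he' => hsub e' (hT' he'))
      (fun e' _ => hst e') h2
    linarith
  · rw [Finset.sum_congr rfl fun e' he' => hnorm e' (hT' he'), ← Finset.sum_mul]
    have h3 := cost_le_sum (μ := fun a b => ENNReal.ofReal (b - a)) (s := s) (t := t)
      (fun a b c hab hbc => by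
        rw [← ENNReal.ofReal_add (sub_nonneg.2 hab) (sub_nonneg.2 hbc)]
        exact ENNReal.ofReal_le_ofReal (by linarith))
      (fun a b c d hab hcd hsub => ENNReal.ofReal_le_ofReal (by
        have h4 := (hsub (left_mem_Icc.2 hab)).1
        have h5 := (hsub (right_mem_Icc.2 hab)).2
        linarith)) (fun a => by simp) T' (zero_le_one' ℝ) (fun i _ => hst i) hc'
    rw [← ENNReal.ofReal_sum_of_nonneg fun i _ => sub_nonneg.2 (hst i)] at h3
    have h4 := (ENNReal.ofReal_le_ofReal_iff (Finset.sum_nonneg fun i _ =>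
      sub_nonneg.2 (hst i))).1 h3
    nlinarith
  · rw [Finset.sum_congr rfl fun e' he' => hlen e' (hT' he')]
    exact cost_le_sum (μ := fun a b => len (onSeg h e) (Icc a b)) (s := s) (t := t)
      (fun a b c hab hbc => (P073.Net.len_add hab hbc).le)
      (fun a b c d _ _ hsub => eVariationOn.mono _ hsub)
      (fun a => eVariationOn.subsingleton _ (by rw [Icc_self]; exact subsingleton_singleton))
      T' (zero_le_one' ℝ) (fun i _ => hst i) hc'

/-- **energy form** -/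
theorem energy (H : SegCov e T) (h : V → V) {p : ℝ} (hp : 1 ≤ p) {τ : ℝ} (hτ : 0 ≤ τ)
    {ℓ : V × V → ℝ≥0∞} (hℓ : ∀ e' ∈ T, len (onSeg h e') (Icc 0 1) ≤ ℓ e') :
    ENNReal.ofReal (‖e.2 - e.1‖ ^ (1 - p)) *
        (len (onSeg h e) (Icc 0 1) + ENNReal.ofReal (τ * ‖e.2 - e.1‖)) ^ p
      ≤ ENNReal.ofReal (2 ^ (p - 1)) * ∑ e' ∈ T, ENNReal.ofReal (‖e'.2 - e'.1‖ ^ (1 - p)) *
        (ℓ e' + ENNReal.ofReal (τ * ‖e'.2 - e'.1‖)) ^ p := by
  have hp0 : 0 < p := by linarith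
  obtain ⟨T', hT', h1, h2, h3⟩ := H.exists_sub h
  have hL : 0 < ‖e.2 - e.1‖ := norm_pos_iff.2 (sub_ne_zero.2 H.ne.symm)
  have hL' : ∀ e' ∈ T', 0 < ‖e'.2 - e'.1‖ := fun e' he' =>
    norm_pos_iff.2 (sub_ne_zero.2 (H.ne' e' (hT' he')).symm)
  have h4 : len (onSeg h e) (Icc 0 1) + ENNReal.ofReal (τ * ‖e.2 - e.1‖) ≤
      ∑ e' ∈ T', (ℓ e' + ENNReal.ofReal (τ * ‖e'.2 - e'.1‖)) := by
    rw [Finset.sum_add_distrib]
    refine add_le_add (h3.trans (Finset.sum_le_sum fun e' he' => hℓ e' (hT' he'))) ?_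
    rw [← ENNReal.ofReal_sum_of_nonneg fun e' _ => mul_nonneg hτ (norm_nonneg _), ← Finset.mul_sum]
    exact ENNReal.ofReal_le_ofReal (mul_le_mul_of_nonneg_left h2 hτ)
  have h5 := holder_sum T' (fun e' => ℓ e' + ENNReal.ofReal (τ * ‖e'.2 - e'.1‖)) hL' h1 hp
  calc ENNReal.ofReal (‖e.2 - e.1‖ ^ (1 - p)) *
        (len (onSeg h e) (Icc 0 1) + ENNReal.ofReal (τ * ‖e.2 - e.1‖)) ^ p
      ≤ ENNReal.ofReal (‖e.2 - e.1‖ ^ (1 - p)) *
        (ENNReal.ofReal ((2 * ‖e.2 - e.1‖) ^ (p - 1)) *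
        ∑ e' ∈ T', ENNReal.ofReal (‖e'.2 - e'.1‖ ^ (1 - p)) *
          (ℓ e' + ENNReal.ofReal (τ * ‖e'.2 - e'.1‖)) ^ p) := by
        gcongr
        exact (ENNReal.rpow_le_rpow h4 hp0.le).trans h5
    _ = ENNReal.ofReal (2 ^ (p - 1)) * ∑ e' ∈ T', ENNReal.ofReal (‖e'.2 - e'.1‖ ^ (1 - p)) *
          (ℓ e' + ENNReal.ofReal (τ * ‖e'.2 - e'.1‖)) ^ p := by
        rw [← mul_assoc, ← ENNReal.ofReal_mul (Real.rpow_nonneg hL.le _)]
        congr 2
        rw [Real.mul_rpow (by norm_num) hL.le, mul_left_comm, ← Real.rpow_add hL]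
        have : 1 - p + (p - 1) = 0 := by ring
        rw [this, Real.rpow_zero, mul_one]
    _ ≤ _ := by
        gcongr

/-- **sup form** -/
theorem sup (H : SegCov e T) (h : V → V) {K : ℝ} (hK : 0 ≤ K) {ε : ℝ≥0∞} {ℓ : V × V → ℝ≥0∞}
    (hℓ : ∀ e' ∈ T, len (onSeg h e') (Icc 0 1) ≤ ℓ e')
    (hle : ∀ e' ∈ T, ℓ e' + ε ≤ ENNReal.ofReal (K * ‖e'.2 - e'.1‖)) :
    len (onSeg h e) (Icc 0 1) + ε ≤ ENNReal.ofReal (2 * K * ‖e.2 - e.1‖) := by
  obtain ⟨T', hT', h1, h2, h3⟩ := H.exists_sub h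
  have hL : 0 < ‖e.2 - e.1‖ := norm_pos_iff.2 (sub_ne_zero.2 H.ne.symm)
  have hne : T'.Nonempty := by
    by_contra hcon
    rw [Finset.not_nonempty_iff_eq_empty] at hcon
    rw [hcon, Finset.sum_empty] at h2
    linarith
  obtain ⟨e₀, he₀⟩ := hne
  calc len (onSeg h e) (Icc 0 1) + ε
      ≤ (∑ e' ∈ T', ℓ e') + ε := by
        gcongr
        exact h3.trans (Finset.sum_le_sum fun e' he' => hℓ e' (hT' he'))
    _ ≤ ∑ e' ∈ T', (ℓ e' + ε) := by
        rw [Finset.sum_add_distrib]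
        gcongr
        exact Finset.single_le_sum (f := fun _ : V × V => ε) (fun _ _ => zero_le) he₀
    _ ≤ ∑ e' ∈ T', ENNReal.ofReal (K * ‖e'.2 - e'.1‖) :=
        Finset.sum_le_sum fun e' he' => hle e' (hT' he')
    _ = ENNReal.ofReal (K * ∑ e' ∈ T', ‖e'.2 - e'.1‖) := by
        rw [← ENNReal.ofReal_sum_of_nonneg fun e' _ => mul_nonneg hK (norm_nonneg _),
          Finset.mul_sum]
    _ ≤ _ := by
        refine ENNReal.ofReal_le_ofReal ?_
        nlinarith

end SegCov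

end P073.H950
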