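import Vale.Agent.P073.H950.Adapt2
import Vale.Agent.P073.H193.Edg

/-!
# P073, H950 [ADAPT], part 3: adapted segments and the edges of a mesh
-/

open Set Metric Topology Filter MeasureTheory
open scoped ENNReal

namespace P073.H950

open Vale.Agent.P073.St (V)
open Vale.Agent.P073.H73 (onSeg Mesh Adapted)
open Vale.Agent.P073.H193 (IsEdge vtx Pgn Ed InLine fam_of_mesh seg_sub Edges edges)
open P073.Net (len)

variable {Ω : Set V} {M : Mesh Ω}

/-- a segment which is contained in every face which meets the open segment -/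
structure ELike (M : Mesh Ω) (e : V × V) : Prop where
  ne : e.1 ≠ e.2
  edge : ∀ l, (M.F l ∩ openSegment ℝ e.1 e.2).Nonempty → segment ℝ e.1 e.2 ⊆ M.F l

theorem _root_.Vale.Agent.P073.H73.Adapted.eLike {k : M.κ} {E : Finset (V × V)}
    (H : Adapted M k E) {e : V × V} (he : e ∈ E) : ELike M e := ⟨H.ne e he, H.edge e he⟩

namespace ELike

variable {e : V × V}

/-- no vertex is inside -/
theorem no_vtx (H : ELike M e) : Disjoint (openSegment ℝ e.1 e.2) (vtx M.F) := by
  rw [Set.disjoint_left]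
  rintro x hx ⟨i, j, hxe⟩
  have h1 := H.edge i ⟨x, hxe.1.1, hx⟩
  have h2 := H.edge j ⟨x, hxe.1.2, hx⟩
  have h3 := hxe.2 ⟨h1 (left_mem_segment ℝ _ _), h2 (left_mem_segment ℝ _ _)⟩
    ⟨h1 (right_mem_segment ℝ _ _), h2 (right_mem_segment ℝ _ _)⟩ hx
  rw [← h3, left_mem_openSegment_iff] at hx
  exact H.ne hx

end ELike

/-- a segment in a polygon with an inner point on a side -/
theorem exists_line {F : Set V} (hF : Pgn F) {a b u w x : V} (hab : segment ℝ a b ⊆ F)
    (hx : x ∈ openSegment ℝ a b) (huw : segment ℝ u w ⊆ F)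
    (hd : Disjoint (segment ℝ u w) (intrinsicInterior ℝ F)) (hx' : x ∈ segment ℝ u w) :
    ∃ S, InLine S ∧ a ∈ S ∧ b ∈ S ∧ u ∈ S ∧ w ∈ S := by
  obtain ⟨S, hS, hJ⟩ := hF.exists_ed (convex_segment u w) ⟨u, left_mem_segment ℝ _ _⟩ huw hd
  have hext := hS.isExtreme
  have ha := hab (left_mem_segment ℝ a b)
  have hb := hab (right_mem_segment ℝ a b)
  refine ⟨S, hS.inLine, ?_, ?_, hJ (left_mem_segment ℝ u w), hJ (right_mem_segment ℝ u w)⟩
  · exact hext.2 ha hb (hJ hx') hx
  · rw [openSegment_symm] at hx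
    exact hext.2 hb ha (hJ hx') hx

/-- an adapted segment with an inner point on an edge is contained in the edge -/
theorem ELike.sub_edge {e : V × V} (H : ELike M e) {a b : V} (he : IsEdge M.F a b) {x : V}
    (hx : x ∈ openSegment ℝ e.1 e.2) (hx' : x ∈ segment ℝ a b) :
    segment ℝ e.1 e.2 ⊆ segment ℝ a b := by
  obtain ⟨k, hk⟩ := he.ex
  have hP := (fam_of_mesh M).pgn k
  have hk' := hk.trans (intrinsicFrontier_subset hP.cpt.isClosed)
  have h1 : segment ℝ e.1 e.2 ⊆ M.F k := H.edge k ⟨x, hk' hx', hx⟩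
  obtain ⟨S, hS, ha, hb, hu, hw⟩ := exists_line hP h1 hx hk'
    ((fam_of_mesh M).edge_rel he k) hx'
  have hv : ∀ w ∈ vtx M.F, w ∉ openSegment ℝ e.1 e.2 := fun w hw hw' =>
    Set.disjoint_left.1 H.no_vtx hw' hw
  exact seg_sub hS ha hb hu hw hx hx' H.ne (hv a he.ma) (hv b he.mb)

open Classical in
/-- **the adapted segments in an edge cover the edge** -/
theorem segCov_edge {k : M.κ} {E : Finset (V × V)} (H : Adapted M k E) {a b : V}
    (he : IsEdge M.F a b) (hk : segment ℝ a b ⊆ M.F k) :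
    SegCov (a, b) (E.filter fun e' => segment ℝ e'.1 e'.2 ⊆ segment ℝ a b) where
  ne := Vale.Agent.P073.H193.Fam.ne_of_edge he
  ne' := fun e' he' => H.ne e' (Finset.mem_filter.1 he').1
  sub := fun e' he' => (Finset.mem_filter.1 he').2
  cov := by
    have hne : a ≠ b := Vale.Agent.P073.H193.Fam.ne_of_edge he
    set C : Set V := ⋃ e' ∈ E.filter (fun e' => segment ℝ e'.1 e'.2 ⊆ segment ℝ a b),
      segment ℝ e'.1 e'.2 with hC
    have hCc : IsClosed C := by
      refine (Finset.finite_toSet _).isClosed_biUnion fun e' _ => ?_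
      rw [← convexHull_pair]
      exact ((Set.toFinite _).isCompact_convexHull ℝ).isClosed
    have hfr : segment ℝ a b ⊆ intrinsicFrontier ℝ (M.F k) := by
      have hP := (fam_of_mesh M).pgn k
      rw [hP.fr_eq]
      exact fun x hx => ⟨hk hx, fun h' =>
        Set.disjoint_left.1 ((fam_of_mesh M).edge_rel he k) hx h'⟩
    have hpc : Continuous (par (a, b)) := by unfold par; fun_prop
    -- the end points
    set B : Set ℝ := par (a, b) ⁻¹' (⋃ e' ∈ E, {e'.1, e'.2}) with hB
    have hBf : B.Finite := by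
      refine Set.Finite.preimage (fun r _ r' _ h => par_inj hne h) ?_
      exact (Finset.finite_toSet E).biUnion fun e' _ => toFinite _
    have hmain : ∀ r ∈ Ioo (0:ℝ) 1, r ∉ B → par (a, b) r ∈ C := by
      intro r hr hrB
      have hrI : r ∈ Icc (0:ℝ) 1 := Ioo_subset_Icc_self hr
      obtain ⟨e', he', hx⟩ := mem_iUnion₂.1 (H.cover (hfr (par_mem (e := (a, b)) hrI)))
      have hxo : par (a, b) r ∈ openSegment ℝ e'.1 e'.2 := by
        rw [← insert_endpoints_openSegment] at hx
        rcases hx with h1 | h1 | h1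
        · exact absurd (mem_iUnion₂.2 ⟨e', he', Or.inl h1⟩) hrB
        · exact absurd (mem_iUnion₂.2 ⟨e', he', Or.inr h1⟩) hrB
        · exact h1
      have hsub := (H.eLike he').sub_edge he hxo (par_mem (e := (a, b)) hrI)
      exact mem_iUnion₂.2 ⟨e', Finset.mem_filter.2 ⟨he', hsub⟩, hx⟩
    intro x hx
    obtain ⟨r, hr, rfl⟩ := exists_par (e := (a, b)) hx
    have h1 : Ioo (0:ℝ) 1 ∩ Bᶜ ⊆ par (a, b) ⁻¹' C := fun r hr => hmain r hr.1 hr.2
    have h2 : Dense Bᶜ := hBf.countable.dense_compl ℝ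
    have h3 : Icc (0:ℝ) 1 ⊆ closure (Ioo (0:ℝ) 1 ∩ Bᶜ) := by
      rw [← closure_Ioo (zero_ne_one' ℝ)]
      exact closure_minimal (h2.open_subset_closure_inter isOpen_Ioo) isClosed_closure
    have h4 := closure_minimal h1 (hCc.preimage hpc)
    exact h4 (h3 hr)

end P073.H950
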