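import Vale.Agent.P073.H950.Adapt3

/-!
# P073, H950 [ADAPT], part 4: sums over the edges of a face
-/

open Set Metric Topology Filter MeasureTheory
open scoped ENNReal

namespace P073.H950

open Vale.Agent.P073.St (V)
open Vale.Agent.P073.H73 (onSeg Mesh Adapted)
open Vale.Agent.P073.H193 (IsEdge vtx Pgn Ed InLine fam_of_mesh seg_sub Edges edges)
open P073.Net (len)

variable {Ω : Set V} {M : Mesh Ω}

/-- the middle of a proper part of a segment is an inner point -/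
theorem mid_mem {e e' : V × V} (hne : e'.1 ≠ e'.2)
    (h : segment ℝ e'.1 e'.2 ⊆ segment ℝ e.1 e.2) :
    ∃ z ∈ segment ℝ e'.1 e'.2, z ∈ openSegment ℝ e'.1 e'.2 ∧ z ∈ openSegment ℝ e.1 e.2 := by
  obtain ⟨α, hα, h1⟩ := exists_par (h (left_mem_segment ℝ _ _))
  obtain ⟨β, hβ, h2⟩ := exists_par (h (right_mem_segment ℝ _ _))
  have hαβ : α ≠ β := fun h3 => hne (by rw [← h1, ← h2, h3])
  have hz : par e' (1 / 2) = par e ((α + β) / 2) := by
    have h3 : e' = (par e α, par e β) := Prod.ext h1.symm h2.symm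
    rw [h3, par_par]
    congr 1
    ring
  have ho : ∀ (e : V × V) (r : ℝ), r ∈ Ioo (0:ℝ) 1 → par e r ∈ openSegment ℝ e.1 e.2 := by
    intro e r hr
    rw [openSegment_eq_image']
    exact ⟨r, hr, rfl⟩
  have h4 := ho e' (1 / 2) ⟨by norm_num, by norm_num⟩
  refine ⟨par e' (1 / 2), openSegment_subset_segment ℝ _ _ h4, h4, ?_⟩
  rw [hz]
  refine ho e _ ⟨?_, ?_⟩
  · rcases lt_or_gt_of_ne hαβ with h5 | h5
    · linarith [hα.1, hβ.1]
    · linarith [hα.1, hβ.1]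
  · rcases lt_or_gt_of_ne hαβ with h5 | h5
    · linarith [hα.2, hβ.2]
    · linarith [hα.2, hβ.2]

theorem mem_ofFace {k : M.κ} {e : V × V} : e ∈ (edges M).ofFace k ↔
    IsEdge M.F e.1 e.2 ∧ segment ℝ e.1 e.2 ⊆ M.F k := by
  constructor
  · intro he
    obtain ⟨e', h1, rfl⟩ := Finset.mem_image.1 he
    exact ⟨e'.2, ((edges M).fin_face k).mem_toFinset.1 h1⟩
  · rintro ⟨h1, h2⟩
    exact Finset.mem_image.2 ⟨⟨e, h1⟩, ((edges M).fin_face k).mem_toFinset.2 h2, rfl⟩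

/-- a segment is contained in at most one edge -/
theorem edge_unique {a b a' b' : V} (h : IsEdge M.F a b) (h' : IsEdge M.F a' b') {e : V × V}
    (hne : e.1 ≠ e.2) (h1 : segment ℝ e.1 e.2 ⊆ segment ℝ a b)
    (h2 : segment ℝ e.1 e.2 ⊆ segment ℝ a' b') : a = a' ∧ b = b' := by
  obtain ⟨z, hz, -, hz'⟩ := mid_mem (e := (a, b)) hne h1
  exact (fam_of_mesh M).edge_eq h h' hz' (h2 hz)

/-- **[ADAPT], energy form** -/
theorem face_energy {k : M.κ} {E : Finset (V × V)} (H : Adapted M k E) (h : V → V) {p : ℝ}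
    (hp : 1 ≤ p) {τ : ℝ} (hτ : 0 ≤ τ) {ℓ : V × V → ℝ≥0∞}
    (hℓ : ∀ e ∈ E, len (onSeg h e) (Icc 0 1) ≤ ℓ e) :
    ∑ e ∈ (edges M).ofFace k, ENNReal.ofReal (‖e.2 - e.1‖ ^ (1 - p)) *
        (len (onSeg h e) (Icc 0 1) + ENNReal.ofReal (τ * ‖e.2 - e.1‖)) ^ p
      ≤ ENNReal.ofReal (2 ^ (p - 1)) * ∑ e ∈ E, ENNReal.ofReal (‖e.2 - e.1‖ ^ (1 - p)) *
        (ℓ e + ENNReal.ofReal (τ * ‖e.2 - e.1‖)) ^ p := by
  classical
  set f : V × V → ℝ≥0∞ := fun e => ENNReal.ofReal (‖e.2 - e.1‖ ^ (1 - p)) *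
        (ℓ e + ENNReal.ofReal (τ * ‖e.2 - e.1‖)) ^ p with hf
  have h1 : ∀ e ∈ (edges M).ofFace k, ENNReal.ofReal (‖e.2 - e.1‖ ^ (1 - p)) *
        (len (onSeg h e) (Icc 0 1) + ENNReal.ofReal (τ * ‖e.2 - e.1‖)) ^ p
      ≤ ENNReal.ofReal (2 ^ (p - 1)) *
        ∑ e' ∈ E, if segment ℝ e'.1 e'.2 ⊆ segment ℝ e.1 e.2 then f e' else 0 := by
    intro e he
    obtain ⟨h2, h3⟩ := mem_ofFace.1 he
    rw [← Finset.sum_filter]
    exact (segCov_edge H h2 h3).energy h hp hτ fun e' he' => hℓ e' (Finset.mem_filter.1 he').1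
  refine (Finset.sum_le_sum h1).trans ?_
  rw [← Finset.mul_sum, Finset.sum_comm]
  gcongr with e' he'
  rw [← Finset.sum_filter, Finset.sum_const, nsmul_eq_mul]
  have hcard : ((((edges M).ofFace k).filter fun e =>
      segment ℝ e'.1 e'.2 ⊆ segment ℝ e.1 e.2).card : ℝ≥0∞) ≤ 1 := by
    have : (((edges M).ofFace k).filter fun e =>
      segment ℝ e'.1 e'.2 ⊆ segment ℝ e.1 e.2).card ≤ 1 := by
      rw [Finset.card_le_one]
      intro e1 h1 e2 h2
      obtain ⟨h1, h1'⟩ := Finset.mem_filter.1 h1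
      obtain ⟨h2, h2'⟩ := Finset.mem_filter.1 h2
      have := edge_unique (mem_ofFace.1 h1).1 (mem_ofFace.1 h2).1 (H.ne e' he') h1' h2'
      exact Prod.ext this.1 this.2
    exact_mod_cast this
  calc _ ≤ (1 : ℝ≥0∞) * f e' := by gcongr
    _ = f e' := one_mul _

/-- **[ADAPT], sup form** -/
theorem face_sup {k : M.κ} {E : Finset (V × V)} (H : Adapted M k E) (h : V → V) {K : ℝ}
    (hK : 0 ≤ K) {ε : ℝ≥0∞} {ℓ : V × V → ℝ≥0∞}
    (hℓ : ∀ e ∈ E, len (onSeg h e) (Icc 0 1) ≤ ℓ e)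
    (hle : ∀ e ∈ E, ℓ e + ε ≤ ENNReal.ofReal (K * ‖e.2 - e.1‖)) :
    ∀ e ∈ (edges M).ofFace k,
      len (onSeg h e) (Icc 0 1) + ε ≤ ENNReal.ofReal (2 * K * ‖e.2 - e.1‖) := by
  classical
  intro e he
  obtain ⟨h2, h3⟩ := mem_ofFace.1 he
  exact (segCov_edge H h2 h3).sup h hK (fun e' he' => hℓ e' (Finset.mem_filter.1 he').1)
    fun e' he' => hle e' (Finset.mem_filter.1 he').1

/-! ### Reversal -/

/-- the length depends on the segment only -/
theorem len_le_of_seg_eq {e e' : V × V} (hne : e.1 ≠ e.2) (hne' : e'.1 ≠ e'.2)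
    (h : segment ℝ e.1 e.2 = segment ℝ e'.1 e'.2) (f : V → V) :
    len (onSeg f e) (Icc 0 1) ≤ len (onSeg f e') (Icc 0 1) := by
  classical
  have H : SegCov e {e'} := ⟨hne, fun x hx => by rw [Finset.mem_singleton.1 hx]; exact hne',
    fun x hx => by rw [Finset.mem_singleton.1 hx, h], by
      intro x hx
      exact mem_iUnion₂.2 ⟨e', Finset.mem_singleton_self _, h ▸ hx⟩⟩
  obtain ⟨T', hT', -, -, h1⟩ := H.exists_sub f
  refine h1.trans ((Finset.sum_le_sum_of_subset_of_nonneg hT' fun _ _ _ => zero_le).trans ?_)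
  rw [Finset.sum_singleton]

theorem len_eq_of_seg_eq {e e' : V × V} (hne : e.1 ≠ e.2) (hne' : e'.1 ≠ e'.2)
    (h : segment ℝ e.1 e.2 = segment ℝ e'.1 e'.2) (f : V → V) :
    len (onSeg f e) (Icc 0 1) = len (onSeg f e') (Icc 0 1) :=
  le_antisymm (len_le_of_seg_eq hne hne' h f) (len_le_of_seg_eq hne' hne h.symm f)

/-- the length of a segment depends on the segment only -/
theorem norm_eq_of_seg_eq {e e' : V × V}
    (h : segment ℝ e.1 e.2 = segment ℝ e'.1 e'.2) : ‖e.2 - e.1‖ = ‖e'.2 - e'.1‖ := by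
  have key : ∀ e e' : V × V, segment ℝ e.1 e.2 ⊆ segment ℝ e'.1 e'.2 →
      ‖e.2 - e.1‖ ≤ ‖e'.2 - e'.1‖ := by
    intro e e' hs
    obtain ⟨α, hα, h1⟩ := exists_par (hs (left_mem_segment ℝ _ _))
    obtain ⟨β, hβ, h2⟩ := exists_par (hs (right_mem_segment ℝ _ _))
    rw [← h1, ← h2, norm_par]
    have h3 : max α β - min α β ≤ 1 := by
      have := max_le hα.2 hβ.2
      have := le_min hα.1 hβ.1
      linarith
    exact mul_le_of_le_one_left (norm_nonneg _) h3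
  exact le_antisymm (key _ _ h.subset) (key _ _ h.symm.subset)

end P073.H950
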