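import Mathlib

/-!
# P073, H950: derivative bounds at almost every point of a closed set

If a real function is locally `K`-Lipschitz at the points of a closed set `P`, relative to `P`, then
at almost every point of `P` at which it is differentiable the norm of the derivative is at
most `K`.
-/

open Set Metric Topology Filter MeasureTheory

namespace P073.H950

variable {E : Type*} [NormedAddCommGroup E] [NormedSpace ℝ E] [FiniteDimensional ℝ E]
  [MeasurableSpace E] [BorelSpace E] (μ : Measure E) [μ.IsAddHaarMeasure]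

/-- Lipschitz on a measurable set ⇒ bound for the derivative at almost every point of the set -/
theorem ae_norm_fderiv_le_of_lip {u : E → ℝ} {s : Set E} (hs : MeasurableSet s) {K : ℝ}
    (hK : 0 ≤ K) (h : ∀ x ∈ s, ∀ y ∈ s, |u x - u y| ≤ K * dist x y)
    (hd : ∀ x ∈ s, DifferentiableAt ℝ u x) : ∀ᵐ x ∂μ.restrict s, ‖fderiv ℝ u x‖ ≤ K := by
  rcases subsingleton_or_nontrivial E with hE | hE
  · refine Eventually.of_forall fun x => ?_
    have : fderiv ℝ u x = 0 := by
      ext v
      rw [Subsingleton.elim v 0, map_zero, map_zero]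
    rw [this, norm_zero]; exact hK
  obtain ⟨e, he⟩ := exists_norm_eq E zero_le_one
  have h1 : ApproximatesLinearOn (fun x => u x • e) (0 : E →L[ℝ] E) s K.toNNReal := by
    intro x hx y hy
    rw [Real.coe_toNNReal K hK]
    have e1 : u x • e - u y • e - (0 : E →L[ℝ] E) (x - y) = (u x - u y) • e := by
      rw [ContinuousLinearMap.zero_apply, sub_zero, sub_smul]
    rw [e1, norm_smul, he, mul_one, Real.norm_eq_abs, ← dist_eq_norm]
    exact h x hx y hy
  have h2 : ∀ x ∈ s, HasFDerivWithinAt (fun x => u x • e) ((fderiv ℝ u x).smulRight e) s x :=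
    fun x hx => ((hd x hx).hasFDerivAt.smul_const e).hasFDerivWithinAt
  filter_upwards [h1.norm_fderiv_sub_le μ hs (fun x => (fderiv ℝ u x).smulRight e) h2] with x hx
  rw [sub_zero] at hx
  have h3 : ‖(fderiv ℝ u x).smulRight e‖ ≤ K := by
    rw [← Real.coe_toNNReal K hK]
    exact_mod_cast hx
  rwa [ContinuousLinearMap.norm_smulRight_apply, he, mul_one] at h3

/-- **Derivative bound at almost every point of a closed set.** -/
theorem ae_norm_fderiv_le {u : E → ℝ} {P : Set E} (hP : IsClosed P) (hu : ContinuousOn u P)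
    {K : ℝ} (hK : 0 ≤ K)
    (h : ∀ x ∈ P, ∀ᶠ y in 𝓝[P] x, |u y - u x| ≤ K * dist y x) :
    ∀ᵐ x ∂μ, x ∈ P → DifferentiableAt ℝ u x → ‖fderiv ℝ u x‖ ≤ K := by
  set r : ℕ → ℝ := fun k => 1 / (k + 1) with hr
  have hr0 : ∀ k, 0 < r k := fun k => by simp only [hr]; positivity
  set Pk : ℕ → Set E := fun k => {x | x ∈ P ∧ ∀ y ∈ P, dist y x < r k → |u y - u x| ≤ K * dist y x}
    with hPk
  have hcl : ∀ k, IsClosed (Pk k) := by
    intro k
    refine isClosed_of_closure_subset fun x hx => ?_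
    rw [mem_closure_iff_seq_limit] at hx
    obtain ⟨z, hz, hzx⟩ := hx
    have hxP : x ∈ P := hP.mem_of_tendsto hzx (Eventually.of_forall fun n => (hz n).1)
    refine ⟨hxP, fun y hy hyx => ?_⟩
    have h1 : Tendsto (fun n => dist y (z n)) atTop (𝓝 (dist y x)) :=
      tendsto_const_nhds.dist hzx
    have h2 : Tendsto (fun n => u (z n)) atTop (𝓝 (u x)) :=
      (hu x hxP).tendsto.comp (tendsto_nhdsWithin_iff.2 ⟨hzx, Eventually.of_forall fun n => (hz n).1⟩)
    have h3 : Tendsto (fun n => |u y - u (z n)|) atTop (𝓝 |u y - u x|) :=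
      (tendsto_const_nhds.sub h2).abs
    refine le_of_tendsto_of_tendsto h3 (h1.const_mul K) ?_
    filter_upwards [h1.eventually_lt_const hyx] with n hn
    exact (hz n).2 y hy hn
  have hcov : P ⊆ ⋃ k, Pk k := by
    intro x hx
    obtain ⟨ε, hε, hb⟩ := Metric.mem_nhdsWithin_iff.1 (h x hx)
    obtain ⟨k, hk⟩ := exists_nat_one_div_lt hε
    refine mem_iUnion.2 ⟨k, hx, fun y hy hyx => hb ⟨?_, hy⟩⟩
    rw [mem_ball]
    exact hyx.trans hk
  -- countably many small balls
  set B : ℕ → ℕ → Set E := fun k j => closedBall (TopologicalSpace.denseSeq E j) (r k / 3) with hB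
  set D : Set E := {x | DifferentiableAt ℝ u x} with hD
  have hDm : MeasurableSet D := measurableSet_of_differentiableAt ℝ u
  have key : ∀ k j, ∀ᵐ x ∂μ, x ∈ Pk k ∩ B k j ∩ D → ‖fderiv ℝ u x‖ ≤ K := by
    intro k j
    have hm : MeasurableSet (Pk k ∩ B k j ∩ D) :=
      ((hcl k).measurableSet.inter isClosed_closedBall.measurableSet).inter hDm
    rw [← ae_restrict_iff' hm]
    refine ae_norm_fderiv_le_of_lip μ hm hK ?_ fun x hx => hx.2
    rintro x ⟨⟨hx, hxB⟩, -⟩ y ⟨⟨hy, hyB⟩, -⟩
    refine hy.2 x hx.1 ?_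
    have h1 := mem_closedBall.1 hxB
    have h2 := mem_closedBall.1 hyB
    have h3 := dist_triangle_right x y (TopologicalSpace.denseSeq E j)
    have := hr0 k
    linarith
  have key' : ∀ᵐ x ∂μ, ∀ k j, x ∈ Pk k ∩ B k j ∩ D → ‖fderiv ℝ u x‖ ≤ K := by
    rw [ae_all_iff]
    intro k
    rw [ae_all_iff]
    exact key k
  filter_upwards [key'] with x hx hxP hxd
  obtain ⟨k, hk⟩ := mem_iUnion.1 (hcov hxP)
  obtain ⟨j, hj⟩ := (TopologicalSpace.denseRange_denseSeq E).exists_dist_lt x
    (ε := r k / 3) (by have := hr0 k; positivity)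
  exact hx k j ⟨⟨hk, mem_closedBall.2 hj.le⟩, hxd⟩

end P073.H950
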