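import Vale.Agent.P073.H950.Shell
import Vale.Agent.P073.Gauge.Cx673a

/-!
# P073, H950: charts of cubes and squares

`Chart.ofBall`: any conical ball has a chart.  `Chart.cube`, `Chart.dyc`, `Chart.squ`: the affine
charts, with Lipschitz constants `r` and `1 / r` (`r` = half of the side).
-/

open Set Metric Topology Filter

namespace P073.H950

open P073 Vale.Agent.P073.AB

namespace Chart

variable {E : Type*} [NormedAddCommGroup E] [NormedSpace ℝ E] {n : ℕ} {Q S : Set E}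

/-- any conical ball has a chart -/
noncomputable def ofBall (h : ConBall n Q S) : Chart n Q S where
  χ := h.2.choose.symm
  sph := by
    have h1 := h.2.choose_spec
    have h2 : ∀ φ : ConHomeo Q (closedBall (0 : Fin n → ℝ) 1), φ.toFun '' S = sphere 0 1 →
        φ.symm.toFun '' sphere 0 1 = S := by
      intro φ hφ
      rw [← hφ]
      ext z
      constructor
      · rintro ⟨_, ⟨y, hy, rfl⟩, rfl⟩
        show φ.invFun (φ.toFun y) ∈ S
        rw [φ.left_inv (h.1 hy)]; exact hy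
      · intro hz
        exact ⟨_, ⟨z, hz, rfl⟩, φ.left_inv (h.1 hz)⟩
    exact h2 _ h1

theorem conBall (C : Chart n Q S) : ConBall n Q S := by
  refine ⟨C.S_sub, C.χ.symm, ?_⟩
  ext x
  constructor
  · rintro ⟨z, hz, rfl⟩
    rw [← C.sph] at hz
    obtain ⟨y, hy, rfl⟩ := hz
    show C.χ.invFun (C.χ.toFun y) ∈ _
    rw [C.χ.left_inv (sphere_subset_closedBall hy)]; exact hy
  · intro hx
    have h1 : C.χ.toFun x ∈ C.χ.toFun '' sphere 0 1 := ⟨x, hx, rfl⟩
    have h2 : ∀ T : Set E, C.χ.toFun '' sphere 0 1 = T → C.χ.toFun x ∈ T := fun T hT => hT ▸ h1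
    exact ⟨C.χ.toFun x, h2 S C.sph, C.χ.left_inv (sphere_subset_closedBall hx)⟩

/-- change of the names of the sets -/
noncomputable def cast (C : Chart n Q S) {Q' S' : Set E} (hQ : Q = Q') (hS : S = S') :
    Chart n Q' S' where
  χ := C.χ.cast rfl hQ
  sph := by rw [ConHomeo.cast_toFun, C.sph, hS]

theorem Lip.cast {C : Chart n Q S} {a b : ℝ} (h : C.Lip a b) {Q' S' : Set E} (hQ : Q = Q')
    (hS : S = S') : (C.cast hQ hS).Lip a b := by
  subst hQ hS
  exact ⟨h.a0, h.b0, h.ha, h.hb⟩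

/-- image of a chart -/
noncomputable def map {F : Type*} [NormedAddCommGroup F] [NormedSpace ℝ F] (C : Chart n Q S)
    {X : Set E} {Y : Set F} (Φ : ConHomeo X Y) (hQ : Q ⊆ X) :
    Chart n (Φ.toFun '' Q) (Φ.toFun '' S) where
  χ := C.χ.trans (Φ.restr C.χ.conicalSet_right hQ)
  sph := by
    show (Φ.toFun ∘ C.χ.toFun) '' _ = _
    rw [image_comp, C.sph]

/-- the affine chart of a cube -/
noncomputable def cube (c : Fin n → ℝ) {r : ℝ} (hr : 0 < r) :
    Chart n (closedBall c r) (sphere c r) where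
  χ :=
    { toFun := fun x => c + r • x
      invFun := fun y => r⁻¹ • (y - c)
      mapsTo := fun x hx => by
        rw [mem_closedBall_zero_iff] at hx
        rw [mem_closedBall_iff_norm, add_sub_cancel_left, norm_smul, Real.norm_eq_abs,
          abs_of_pos hr]
        nlinarith
      mapsTo_inv := fun y hy => by
        rw [mem_closedBall_iff_norm] at hy
        rw [mem_closedBall_zero_iff, norm_smul, Real.norm_eq_abs, abs_of_pos (inv_pos.2 hr)]
        rw [inv_mul_le_iff₀ hr]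
        linarith
      left_inv := fun x _ => by
        show r⁻¹ • (c + r • x - c) = x
        rw [add_sub_cancel_left, smul_smul, inv_mul_cancel₀ hr.ne', one_smul]
      right_inv := fun y _ => by
        show c + r • (r⁻¹ • (y - c)) = y
        rw [smul_smul, mul_inv_cancel₀ hr.ne', one_smul, add_sub_cancel]
      cont := by fun_prop
      cont_inv := by fun_prop
      conical := by
        have hX : ConicalSet (closedBall (0 : Fin n → ℝ) 1) :=
          Convex.conicalSet (convex_closedBall _ _)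
        exact (conicalOn_const c hX).add ((conicalOn_id hX).const_smul r) }
  sph := by
    show (fun x => c + r • x) '' _ = _
    ext y
    constructor
    · rintro ⟨x, hx, rfl⟩
      rw [mem_sphere_zero_iff_norm] at hx
      rw [mem_sphere_iff_norm, add_sub_cancel_left, norm_smul, Real.norm_eq_abs, abs_of_pos hr,
        hx, mul_one]
    · intro hy
      rw [mem_sphere_iff_norm] at hy
      refine ⟨r⁻¹ • (y - c), ?_, ?_⟩
      · rw [mem_sphere_zero_iff_norm, norm_smul, Real.norm_eq_abs, abs_of_pos (inv_pos.2 hr), hy,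
          inv_mul_cancel₀ hr.ne']
      · show c + r • (r⁻¹ • (y - c)) = y
        rw [smul_smul, mul_inv_cancel₀ hr.ne', one_smul, add_sub_cancel]

theorem cube_toFun (c : Fin n → ℝ) {r : ℝ} (hr : 0 < r) (x : Fin n → ℝ) :
    (cube c hr).χ.toFun x = c + r • x := rfl

theorem cube_invFun (c : Fin n → ℝ) {r : ℝ} (hr : 0 < r) (y : Fin n → ℝ) :
    (cube c hr).χ.invFun y = r⁻¹ • (y - c) := rfl

theorem cube_lip (c : Fin n → ℝ) {r : ℝ} (hr : 0 < r) : (cube c hr).Lip r r⁻¹ where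
  a0 := hr.le
  b0 := (inv_pos.2 hr).le
  ha := fun x _ y _ => by
    rw [cube_toFun, cube_toFun, dist_add_left, dist_smul₀, Real.norm_eq_abs, abs_of_pos hr]
  hb := fun x _ y _ => by
    rw [cube_invFun, cube_invFun, dist_smul₀, dist_sub_right, Real.norm_eq_abs,
      abs_of_pos (inv_pos.2 hr)]

/-! ### embedding as a coordinate plane -/

/-- `x ↦ x` with the value `a` inserted at the place `k` -/
noncomputable def insHomeo (k : Fin (n + 1)) (a : ℝ) :
    ConHomeo (univ : Set (Fin n → ℝ)) {y : Fin (n + 1) → ℝ | y k = a} where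
  toFun := fun x => k.insertNth a x
  invFun := fun y i => y (k.succAbove i)
  mapsTo := fun x _ => Fin.insertNth_apply_same (α := fun _ => ℝ) k a x
  mapsTo_inv := fun _ _ => mem_univ _
  left_inv := fun x _ => by
    funext i
    exact Fin.insertNth_apply_succAbove (α := fun _ => ℝ) k a x i
  right_inv := fun y hy => by
    rw [Set.mem_ofPred_eq] at hy
    funext j
    rcases Fin.eq_self_or_eq_succAbove k j with rfl | ⟨i, rfl⟩
    · exact (Fin.insertNth_apply_same (α := fun _ => ℝ) j a _).trans hy.symm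
    · exact Fin.insertNth_apply_succAbove (α := fun _ => ℝ) k a _ i
  cont := by
    refine Continuous.continuousOn ?_
    refine continuous_pi fun j => ?_
    rcases Fin.eq_self_or_eq_succAbove k j with rfl | ⟨i, rfl⟩
    · simp only [Fin.insertNth_apply_same]; exact continuous_const
    · simp only [Fin.insertNth_apply_succAbove]; exact continuous_apply i
  cont_inv := by fun_prop
  conical := by
    refine fun x _ => ⟨1, one_pos, fun w _ _ t _ => ⟨mem_univ _, ?_⟩⟩
    funext j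
    rcases Fin.eq_self_or_eq_succAbove k j with rfl | ⟨i, rfl⟩
    · simp [Fin.insertNth_apply_same]
    · simp [Fin.insertNth_apply_succAbove]

theorem insHomeo_toFun (k : Fin (n + 1)) (a : ℝ) (x : Fin n → ℝ) :
    (insHomeo k a).toFun x = k.insertNth a x := rfl

theorem dist_ins (k : Fin (n + 1)) (a : ℝ) (x y : Fin n → ℝ) :
    dist ((insHomeo k a).toFun x) ((insHomeo k a).toFun y) = dist x y := by
  rw [insHomeo_toFun, insHomeo_toFun]
  apply le_antisymm
  · rw [dist_pi_le_iff dist_nonneg]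
    intro j
    rcases Fin.eq_self_or_eq_succAbove k j with rfl | ⟨i, rfl⟩
    · simp only [Fin.insertNth_apply_same, dist_self]; exact dist_nonneg
    · simp only [Fin.insertNth_apply_succAbove]; exact dist_le_pi_dist x y i
  · rw [dist_pi_le_iff dist_nonneg]
    intro i
    have := dist_le_pi_dist (k.insertNth (α := fun _ => ℝ) a x) (k.insertNth (α := fun _ => ℝ) a y)
      (k.succAbove i)
    simpa only [Fin.insertNth_apply_succAbove] using this

/-- isometric images -/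
theorem Lip.map {F : Type*} [NormedAddCommGroup F] [NormedSpace ℝ F] {C : Chart n Q S}
    {a b : ℝ} (h : C.Lip a b) {X : Set E} {Y : Set F} (Φ : ConHomeo X Y) (hQ : Q ⊆ X)
    (hΦ : ∀ x ∈ X, ∀ y ∈ X, dist (Φ.toFun x) (Φ.toFun y) = dist x y) :
    (C.map Φ hQ).Lip a b where
  a0 := h.a0
  b0 := h.b0
  ha := fun x hx y hy => by
    show dist (Φ.toFun (C.χ.toFun x)) (Φ.toFun (C.χ.toFun y)) ≤ _
    rw [hΦ _ (hQ (C.χ.mapsTo hx)) _ (hQ (C.χ.mapsTo hy))]
    exact h.ha x hx y hy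
  hb := by
    rintro _ ⟨x, hx, rfl⟩ _ ⟨y, hy, rfl⟩
    show dist (C.χ.invFun (Φ.invFun (Φ.toFun x))) (C.χ.invFun (Φ.invFun (Φ.toFun y))) ≤ _
    rw [Φ.left_inv (hQ hx), Φ.left_inv (hQ hy), hΦ _ (hQ hx) _ (hQ hy)]
    exact h.hb x hx y hy

/-! ### dyadic cubes and squares -/

open Vale.Agent.P073.St (V)
open Vale.Agent.P073.AB (Idx squ)
open P073.Net (dyc dyo)

/-- the centre of a dyadic cube -/
noncomputable def ctr (v : V) (m : ℕ) (z : Fin 3 → ℤ) : V := fun k => v k + (z k + 1 / 2) / 2 ^ m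

theorem half_pos' (m : ℕ) : (0:ℝ) < 1 / 2 ^ m / 2 := by positivity

theorem mem_side_iff (a z : ℝ) (m : ℕ) (x : ℝ) :
    (a + z / 2 ^ m ≤ x ∧ x ≤ a + (z + 1) / 2 ^ m) ↔ |x - (a + (z + 1 / 2) / 2 ^ m)| ≤ 1 / 2 ^ m / 2 := by
  have h : (0:ℝ) < 2 ^ m := by positivity
  have e1 : (z + 1) / 2 ^ m = z / 2 ^ m + 1 / 2 ^ m := by ring
  have e2 : (z + 1 / 2) / 2 ^ m = z / 2 ^ m + 1 / 2 ^ m / 2 := by ring
  rw [abs_le, e1, e2]
  constructor
  · rintro ⟨h1, h2⟩; exact ⟨by linarith, by linarith⟩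
  · rintro ⟨h1, h2⟩; exact ⟨by linarith, by linarith⟩

theorem mem_side_iff' (a z : ℝ) (m : ℕ) (x : ℝ) :
    (a + z / 2 ^ m < x ∧ x < a + (z + 1) / 2 ^ m) ↔ |x - (a + (z + 1 / 2) / 2 ^ m)| < 1 / 2 ^ m / 2 := by
  have h : (0:ℝ) < 2 ^ m := by positivity
  have e1 : (z + 1) / 2 ^ m = z / 2 ^ m + 1 / 2 ^ m := by ring
  have e2 : (z + 1 / 2) / 2 ^ m = z / 2 ^ m + 1 / 2 ^ m / 2 := by ring
  rw [abs_lt, e1, e2]
  constructor
  · rintro ⟨h1, h2⟩; exact ⟨by linarith, by linarith⟩
  · rintro ⟨h1, h2⟩; exact ⟨by linarith, by linarith⟩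

theorem dyc_eq (v : V) (m : ℕ) (z : Fin 3 → ℤ) :
    closedBall (ctr v m z) (1 / 2 ^ m / 2) = dyc v m z := by
  ext x
  rw [mem_closedBall_iff_norm, pi_norm_le_iff_of_nonneg (half_pos' m).le]
  exact forall_congr' fun k => (mem_side_iff (v k) (z k) m (x k)).symm

theorem dyo_eq (v : V) (m : ℕ) (z : Fin 3 → ℤ) :
    ball (ctr v m z) (1 / 2 ^ m / 2) = dyo v m z := by
  ext x
  rw [mem_ball_iff_norm, pi_norm_lt_iff (half_pos' m)]
  exact forall_congr' fun k => (mem_side_iff' (v k) (z k) m (x k)).symm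

theorem bd_eq (v : V) (m : ℕ) (z : Fin 3 → ℤ) :
    sphere (ctr v m z) (1 / 2 ^ m / 2) = dyc v m z \ dyo v m z := by
  rw [← dyc_eq, ← dyo_eq, closedBall_diff_ball]

/-- **the affine chart of a dyadic cube** -/
noncomputable def dya (v : V) (q : Idx) : Chart 3 (dyc v q.1 q.2) (dyc v q.1 q.2 \ dyo v q.1 q.2) :=
  (cube (ctr v q.1 q.2) (half_pos' q.1)).cast (dyc_eq v q.1 q.2) (bd_eq v q.1 q.2)

theorem dya_lip (v : V) (q : Idx) : (dya v q).Lip (1 / 2 ^ q.1 / 2) (1 / 2 ^ q.1 / 2)⁻¹ :=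
  (cube_lip _ _).cast _ _

/-- the centre of a dyadic square, in the coordinates of the square -/
noncomputable def sctr (v : V) (s : Idx × Fin 3) : Fin 2 → ℝ := fun i => ctr v s.1.1 s.1.2 (s.2.succAbove i)

/-- the affine chart of a dyadic square -/
noncomputable def sq (v : V) (s : Idx × Fin 3) :
    Chart 2 ((insHomeo s.2 (v s.2 + s.1.2 s.2 / 2 ^ s.1.1)).toFun '' closedBall (sctr v s) (1 / 2 ^ s.1.1 / 2))
      ((insHomeo s.2 (v s.2 + s.1.2 s.2 / 2 ^ s.1.1)).toFun '' sphere (sctr v s) (1 / 2 ^ s.1.1 / 2)) :=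
  (cube (sctr v s) (half_pos' s.1.1)).map (insHomeo s.2 _) (subset_univ _)

theorem sq_lip (v : V) (s : Idx × Fin 3) : (sq v s).Lip (1 / 2 ^ s.1.1 / 2) (1 / 2 ^ s.1.1 / 2)⁻¹ :=
  (cube_lip _ _).map _ _ fun x _ y _ => dist_ins _ _ x y

theorem squ_eq (v : V) (s : Idx × Fin 3) :
    (insHomeo s.2 (v s.2 + s.1.2 s.2 / 2 ^ s.1.1)).toFun '' closedBall (sctr v s) (1 / 2 ^ s.1.1 / 2)
      = squ v s := by
  ext x
  constructor
  · rintro ⟨y, hy, rfl⟩
    rw [mem_closedBall_iff_norm, pi_norm_le_iff_of_nonneg (half_pos' _).le] at hy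
    refine ⟨Fin.insertNth_apply_same (α := fun _ => ℝ) s.2 _ y, fun k hk => ?_⟩
    obtain ⟨i, rfl⟩ := (Fin.eq_self_or_eq_succAbove s.2 k).resolve_left hk
    rw [mem_side_iff]
    have e : (insHomeo s.2 (v s.2 + s.1.2 s.2 / 2 ^ s.1.1)).toFun y (s.2.succAbove i) = y i :=
      Fin.insertNth_apply_succAbove (α := fun _ => ℝ) s.2 _ y i
    rw [e]
    exact hy i
  · intro hx
    refine ⟨fun i => x (s.2.succAbove i), ?_, (insHomeo s.2 _).right_inv hx.1⟩
    rw [mem_closedBall_iff_norm, pi_norm_le_iff_of_nonneg (half_pos' _).le]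
    intro i
    exact (mem_side_iff _ _ _ _).1 (hx.2 _ (Fin.succAbove_ne s.2 i))

theorem squ_bd_eq (v : V) (s : Idx × Fin 3) :
    (insHomeo s.2 (v s.2 + s.1.2 s.2 / 2 ^ s.1.1)).toFun '' sphere (sctr v s) (1 / 2 ^ s.1.1 / 2)
      = squ v s \ P86.rel v s := by
  have h0 : (insHomeo s.2 (v s.2 + s.1.2 s.2 / 2 ^ s.1.1)).toFun '' ball (sctr v s) (1 / 2 ^ s.1.1 / 2)
      = P86.rel v s := by
    ext x
    constructor
    · rintro ⟨y, hy, rfl⟩
      rw [mem_ball_iff_norm, pi_norm_lt_iff (half_pos' _)] at hy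
      refine ⟨Fin.insertNth_apply_same (α := fun _ => ℝ) s.2 _ y, fun k hk => ?_⟩
      obtain ⟨i, rfl⟩ := (Fin.eq_self_or_eq_succAbove s.2 k).resolve_left hk
      rw [mem_side_iff']
      have e : (insHomeo s.2 (v s.2 + s.1.2 s.2 / 2 ^ s.1.1)).toFun y (s.2.succAbove i) = y i :=
        Fin.insertNth_apply_succAbove (α := fun _ => ℝ) s.2 _ y i
      rw [e]
      exact hy i
    · intro hx
      refine ⟨fun i => x (s.2.succAbove i), ?_, (insHomeo s.2 _).right_inv hx.1⟩
      rw [mem_ball_iff_norm, pi_norm_lt_iff (half_pos' _)]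
      intro i
      exact (mem_side_iff' _ _ _ _).1 (hx.2 _ (Fin.succAbove_ne s.2 i))
  rw [← squ_eq, ← h0, ← closedBall_diff_ball,
    InjOn.image_diff_subset ((insHomeo s.2 _).injOn.mono (subset_univ _)) ball_subset_closedBall]

/-- **the affine chart of a dyadic square** -/
noncomputable def dysq (v : V) (s : Idx × Fin 3) : Chart 2 (squ v s) (squ v s \ P86.rel v s) :=
  (sq v s).cast (squ_eq v s) (squ_bd_eq v s)

theorem dysq_lip (v : V) (s : Idx × Fin 3) :
    (dysq v s).Lip (1 / 2 ^ s.1.1 / 2) (1 / 2 ^ s.1.1 / 2)⁻¹ := (sq_lip v s).cast _ _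

end Chart

end P073.H950
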