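import Vale.Agent.P073.H950.Dirs
import Vale.Agent.P073.H950.Cube

/-!
# P073, H950: the `ℓ¹` bound for the caps in a dyadic cube
-/

open Set Metric Topology Filter

namespace P073.H950

open P073 P073.H936 P073.H880 P073.H267

namespace Chart

open Vale.Agent.P073.St (V)
open Vale.Agent.P073.AB (Idx)
open P073.Net (dyc dyo)

theorem convex_dyc (v : V) (m : ℕ) (z : Fin 3 → ℤ) : Convex ℝ (dyc v m z) := by
  rw [← dyc_eq]; exact convex_closedBall _ _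

section

variable {v : V} {q : Idx} {J : Type*} [Fintype J] {m : ℕ}
  (D : Circles 2 (dyc v q.1 q.2 \ dyo v q.1 q.2) J m) (τ : Bool) {ω : J → ℝ} {W : ℝ}

theorem three_mul_dya (L : ℝ) :
    L * (3 * (1 / 2 ^ q.1 / 2) * (1 / 2 ^ q.1 / 2)⁻¹) = 3 * L := by
  rw [mul_assoc 3, mul_inv_cancel₀ (half_pos' q.1).ne']; ring

theorem top_mul_dya (W : ℝ) :
    W * (D.top * (2 * (1 / 2 ^ q.1 / 2)⁻¹)) = W * (4 * m + 1) * (4 * 2 ^ q.1) := by
  have : D.top = 4 * (m:ℝ) + 1 := rfl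
  rw [this]
  have h2 : (2:ℝ) ^ q.1 ≠ 0 := by positivity
  field_simp
  ring

/-- **bound on the walls** over a face `F` of a dyadic cube -/
theorem sum_wall_dya_le (hω0 : ∀ c, 0 ≤ ω c) {F : Set V} {L : ℝ} (hL0 : 0 ≤ L)
    (hL : ∀ θ ∈ dyc v q.1 q.2 \ dyo v q.1 q.2, θ ∈ F →
      ∀ θ' ∈ dyc v q.1 q.2 \ dyo v q.1 q.2, θ' ∈ F →
      ∑ c with D.typ c = τ, ω c * |D.s c θ - D.s c θ'| ≤ L * dist θ θ')
    {z w : V} (hz : z ∈ (dya v q).wall D τ F) (hw : w ∈ (dya v q).wall D τ F) :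
    ∑ c with D.typ c = τ, ω c * |(dya v q).lev D c z - (dya v q).lev D c w|
      ≤ 3 * L * dist z w := by
  have h := (dya v q).sum_lev_wall D τ (dya_lip v q) hω0 hL0 hL hz hw
  rwa [three_mul_dya] at h

/-- **bound on the roofs** in a dyadic cube -/
theorem sum_roof_dya_le (hω0 : ∀ c, 0 ≤ ω c) (hW0 : 0 ≤ W) (hωW : ∀ c, ω c ≤ W) {c : J}
    {z w : V} (hz : z ∈ (dya v q).roof D c) (hw : w ∈ (dya v q).roof D c) :
    ∑ c' with D.typ c' = D.typ c, ω c' * |(dya v q).lev D c' z - (dya v q).lev D c' w|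
      ≤ W * (4 * m + 1) * (4 * 2 ^ q.1) * dist z w := by
  have h := (dya v q).sum_lev_roof D (dya_lip v q) hω0 hW0 hωW hz hw
  rwa [top_mul_dya] at h

/-- **Weighted `ℓ¹` bound for the caps of one family** on a convex part `X` of a dyadic cube, over
the faces `F i`; `M` bounds all `3 * L i` and `W * (4 * m + 1) * (4 * 2 ^ q.1)`. -/
theorem sum_lev_dya_le (hω0 : ∀ c, 0 ≤ ω c) (hW0 : 0 ≤ W) (hωW : ∀ c, ω c ≤ W)
    {X : Set V} (hX : Convex ℝ X) (hXQ : X ⊆ dyc v q.1 q.2)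
    {ι : Type*} [Finite ι] {F : ι → Set V} (hF : ∀ i, IsClosed (F i))
    (hXF : ∀ z ∈ X, z ∈ (dya v q).sh → ∃ i, (dya v q).ang z ∈ F i)
    {L : ι → ℝ} (hL0 : ∀ i, 0 ≤ L i) (hL : ∀ i, ∀ θ ∈ dyc v q.1 q.2 \ dyo v q.1 q.2, θ ∈ F i →
      ∀ θ' ∈ dyc v q.1 q.2 \ dyo v q.1 q.2, θ' ∈ F i →
      ∑ c with D.typ c = τ, ω c * |D.s c θ - D.s c θ'| ≤ L i * dist θ θ')
    {M : ℝ} (hM : ∀ i, 3 * L i ≤ M) (hM' : W * (4 * m + 1) * (4 * 2 ^ q.1) ≤ M)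
    {z w : V} (hz : z ∈ X) (hw : w ∈ X) :
    ∑ c with D.typ c = τ, ω c * |(dya v q).lev D c z - (dya v q).lev D c w| ≤ M * dist z w := by
  refine (dya v q).sum_lev_le D τ (dya_lip v q) hω0 hW0 hωW hX hXQ hF hXF hL0 hL ?_ ?_ hz hw
  · intro i; rw [three_mul_dya]; exact hM i
  · rwa [top_mul_dya]

end

end Chart

end P073.H950
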