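import Vale.Agent.P073.H142.FaceTail3
import Vale.Agent.P073.H233.CellpFin
import Vale.Agent.P073.H687.Dict

/-!
# P073, H950 [DSUM], part 1: the numbers of a face of a drawn cell
-/

open Set Metric Topology Filter MeasureTheory
open scoped ENNReal

namespace P073.H950

open Vale.Agent.P073.St (V)
open Vale.Agent.P073.SQ (cube ev)
open Vale.Agent.P073.AB (Idx squ)
open Vale.Agent.P073.AB.P86 (sc rel)
open Vale.Agent.P073.H73 (onSeg Mesh Adapted sqr)
open Vale.Agent.P073.H193 (Edges edges Cyc)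
open Vale.Agent.P073.H155 (vv ce)
open Vale.Agent.P073.H233 (BdT fInt ZS cp)
open P073.H155 (cm dp)
open P073.H142 (FStar Num)
open P073.Net (len dyc dyo)

variable {Ω : Set V} {M : Mesh Ω} {k : M.κ}

/-- the power sum of the numbers of the edges of a face -/
noncomputable def psi (M : Mesh Ω) (p : ℝ) (k : M.κ) (b : (edges M).ε → ℝ) : ℝ :=
  ∑ e ∈ ((edges M).fin_face k).toFinset, ‖(edges M).b e - (edges M).a e‖ ^ (1 - p) * b e ^ p

/-- the sum of the numbers of the edges of a face -/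
noncomputable def bsum (M : Mesh Ω) (k : M.κ) (b : (edges M).ε → ℝ) : ℝ :=
  ∑ e ∈ ((edges M).fin_face k).toFinset, b e

theorem mem_fin_face {e : (edges M).ε} (he : e ∈ ((edges M).fin_face k).toFinset) :
    (edges M).seg e ⊆ M.F k := ((edges M).fin_face k).mem_toFinset.1 he

theorem psi_nonneg {p : ℝ} {b : (edges M).ε → ℝ} (hb : ∀ e, (edges M).seg e ⊆ M.F k → 0 ≤ b e) :
    0 ≤ psi M p k b :=
  Finset.sum_nonneg fun e he => mul_nonneg (Real.rpow_nonneg (norm_nonneg _) _)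
    (Real.rpow_nonneg (hb e (mem_fin_face he)) _)

theorem bsum_nonneg {b : (edges M).ε → ℝ} (hb : ∀ e, (edges M).seg e ⊆ M.F k → 0 ≤ b e) :
    0 ≤ bsum M k b := Finset.sum_nonneg fun e he => hb e (mem_fin_face he)

theorem fin_face_nonempty (k : M.κ) : ((edges M).fin_face k).toFinset.Nonempty := by
  obtain ⟨C⟩ := Vale.Agent.P073.H193.exists_cyc (edges M) k
  exact ⟨ce C 0, by rw [Finite.mem_toFinset]; exact C.sub _⟩

theorem psi_pos {p : ℝ} {b : (edges M).ε → ℝ} (hb : ∀ e, (edges M).seg e ⊆ M.F k → 0 < b e) :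
    0 < psi M p k b :=
  Finset.sum_pos (fun e he => mul_pos (Real.rpow_pos_of_pos (P073.H142.elen_pos (edges M) e) _)
    (Real.rpow_pos_of_pos (hb e (mem_fin_face he)) _)) (fin_face_nonempty k)

/-- the perimeter of a square face -/
theorem perim_face (T : FStar (edges M) k) {a : V} {l : Fin 3} {σ : ℝ} (hσ : 0 < σ)
    (hF : M.F k = sqr a l σ) :
    ∑ e ∈ ((edges M).fin_face k).toFinset, ‖(edges M).b e - (edges M).a e‖ ≤ 12 * σ := by
  obtain ⟨ν, t, hν, hpl⟩ := (M.fat k).plane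
  have h1 := P073.H155.perim_le T.star hν hpl
  rw [(T.sq a l σ hσ hF).2.2] at h1
  rw [← Vale.Agent.P073.H155.sum_ce T.C fun e => ‖(edges M).b e - (edges M).a e‖]
  refine le_trans (le_of_eq ?_) h1
  refine Finset.sum_congr rfl fun j _ => ?_
  rw [Vale.Agent.P073.H155.norm_vv]

/-- the sum and the power sum -/
theorem bsum_rpow_le (T : FStar (edges M) k) {a : V} {l : Fin 3} {σ : ℝ} (hσ : 0 < σ)
    (hF : M.F k = sqr a l σ) {p : ℝ} (hp : 1 ≤ p) {b : (edges M).ε → ℝ}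
    (hb : ∀ e, (edges M).seg e ⊆ M.F k → 0 ≤ b e) :
    bsum M k b ^ p ≤ (12 * σ) ^ (p - 1) * psi M p k b := by
  have h1 : bsum M k b ^ p ≤
      (∑ e ∈ ((edges M).fin_face k).toFinset, ‖(edges M).b e - (edges M).a e‖) ^ (p - 1) *
        psi M p k b :=
    Vale.Agent.P073.H233.rpow_sum_le _ hp (fun e _ => P073.H142.elen_pos (edges M) e)
      fun e he => hb e (mem_fin_face he)
  refine h1.trans (mul_le_mul_of_nonneg_right ?_ (psi_nonneg hb))
  exact Real.rpow_le_rpow (Finset.sum_nonneg fun e _ => norm_nonneg _) (perim_face T hσ hF)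
    (by linarith)

/-- the power sum is bounded by the sum over adapted segments -/
theorem psi_le {h : V → V} {D₀ ε p : ℝ} (hD₀ : 0 ≤ D₀) (hε : 0 < ε) (hp : 1 ≤ p)
    {b : (edges M).ε → ℝ} (hb : Num k h D₀ ε b) {a : V} {l : Fin 3} {σ : ℝ} (hσ : 0 < σ)
    (hF : M.F k = sqr a l σ) {E' : Finset (V × V)} {ℓ : V × V → ℝ≥0∞} (hE' : Adapted M k E')
    (hℓ : ∀ e ∈ E', len (onSeg h e) (Icc 0 1) ≤ ℓ e) :
    ENNReal.ofReal (psi M p k b) ≤ ENNReal.ofReal (D₀ ^ p * 2 ^ (p - 1)) *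
      ∑ e ∈ E', ENNReal.ofReal (‖e.2 - e.1‖ ^ (1 - p)) *
        (ℓ e + ENNReal.ofReal (ε * ‖e.2 - e.1‖ / σ)) ^ p := by
  have hp0 : 0 ≤ p := by linarith
  obtain ⟨t, -, h1, h2⟩ := hb.le
  have h3 := P073.H142.ofReal_sum_le (k := k) (t := ε / σ) hp0 hD₀ hb.nonneg
    (P073.H142.hb_of_tiny h2 fun e he => h1 e he a l σ hσ hF)
  have h4 := P073.H142.adD k h hp (ε / σ) E' ℓ (by positivity) hE' hℓ
  refine h3.trans ((mul_le_mul_right h4 _).trans_eq ?_)
  rw [← mul_assoc, ← ENNReal.ofReal_mul (by positivity)]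
  congr 1
  refine Finset.sum_congr rfl fun e _ => ?_
  rw [div_mul_eq_mul_div]

/-! ### A face of a dyadic cube -/

variable {v : V} {s : Idx × Fin 3}

theorem face_eq (hk : M.F k = squ v s) : M.F k = sqr (sc v s) s.2 (1 / 2 / 2 ^ s.1.1) :=
  hk.trans (Vale.Agent.P073.H687.squ_eq_sqr v s)

/-- the energy on a face of a drawn cell -/
theorem fInt_le (T : FStar (edges M) k) (hk : M.F k = squ v s) {C₁ p : ℝ} (hC₁ : 0 ≤ C₁)
    (hp : 1 ≤ p) {b : (edges M).ε → ℝ} (hb : ∀ e, (edges M).seg e ⊆ M.F k → 0 ≤ b e) :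
    fInt p v s (fun x => 2 * T.G C₁ b x) ≤
      ENNReal.ofReal (2 ^ p * (dp p * C₁ ^ p * (1 / 2 / 2 ^ s.1.1) ^ 2 * psi M p k b)) := by
  have hp0 : 0 ≤ p := by linarith
  have h1 := T.int_le hC₁ hp hb (by positivity) (face_eq hk)
  unfold fInt
  have h2 : ∀ x : V, ENNReal.ofReal ((2 * T.G C₁ b (Function.update x s.2 (sc v s s.2))) ^ p) =
      ENNReal.ofReal (2 ^ p) *
        ENNReal.ofReal (T.G C₁ b (Function.update x s.2 (sc v s s.2)) ^ p) := by
    intro x
    have h0 : 0 ≤ T.G C₁ b (Function.update x s.2 (sc v s s.2)) := P073.H155.cm_nonneg _ _ _ _ _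
    rw [Real.mul_rpow zero_le_two h0, ENNReal.ofReal_mul (by positivity)]
  simp_rw [h2]
  rw [lintegral_const_mul' _ _ ENNReal.ofReal_ne_top, ENNReal.ofReal_mul (by positivity)]
  exact mul_le_mul_right h1 _

end P073.H950
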