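import Vale.Agent.P073.H950.Dsum1

/-!
# P073, H950 [DSUM], part 2: the energy of a drawn cell is bounded by the sum over adapted segments
-/

open Set Metric Topology Filter MeasureTheory
open scoped ENNReal

namespace P073.H950

open Vale.Agent.P073.St (V)
open Vale.Agent.P073.SQ (cube ev)
open Vale.Agent.P073.AB (Idx squ)
open Vale.Agent.P073.AB.P86 (sc rel)
open Vale.Agent.P073.H73 (onSeg Mesh Adapted sqr)
open Vale.Agent.P073.H193 (Edges edges Cyc)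
open Vale.Agent.P073.H233 (BdT fInt ZS cp)
open P073.H155 (cm dp)
open P073.H142 (FStar Num)
open P073.Net (len dyc dyo)

variable {Ω : Set V} {M : Mesh Ω}

/-- a finite sum over an injective family of indices -/
theorem sum_le_tsum_of {ι κ : Type*} {T : Finset ι} {P : κ → Prop} {f : ι → κ}
    (hf : ∀ s ∈ T, P (f s)) (hinj : InjOn f (T : Set ι)) {F : {k // P k} → ℝ≥0∞} {G : ι → ℝ≥0∞}
    (h : ∀ s (hs : s ∈ T), G s ≤ F ⟨f s, hf s hs⟩) : ∑ s ∈ T, G s ≤ ∑' k, F k := by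
  have h1 : ∑ s ∈ T, G s = ∑' s : {s // s ∈ T}, G s.1 := by
    rw [tsum_fintype]
    exact (Finset.sum_coe_sort T G).symm
  rw [h1]
  refine (ENNReal.tsum_le_tsum fun s : {s // s ∈ T} => h s.1 s.2).trans ?_
  refine ENNReal.tsum_comp_le_tsum_of_injective (f := fun s : {s // s ∈ T} =>
    (⟨f s.1, hf s.1 s.2⟩ : {k // P k})) ?_ F
  intro s s' hss
  exact Subtype.ext (hinj s.2 s'.2 (congrArg Subtype.val hss))

/-- the constant of a drawn cell -/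
noncomputable def dK (p C₁ C₂ D₀ : ℝ) : ℝ :=
  cp p * (2 ^ p * dp p * C₁ ^ p / 2 + (2 * C₂) ^ p * 12 ^ (p - 1) * 2 ^ (2 - p) + 1) *
    (D₀ ^ p * 2 ^ (p - 1))

variable {p C₁ C₂ D₀ : ℝ}

theorem dK_nonneg (hp : 2 < p) (hC₁ : 0 ≤ C₁) (hC₂ : 0 ≤ C₂) (hD₀ : 0 ≤ D₀) :
    0 ≤ dK p C₁ C₂ D₀ := by
  unfold dK
  have h1 := (Vale.Agent.P073.H233.cp_pos hp).le
  have h2 := (P073.H155.dp_pos p).le
  positivity

variable {v : V} {z : Idx} {𝓢 : Finset (Idx × Fin 3)} {kf : Idx × Fin 3 → M.κ}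
  {b : M.κ → (edges M).ε → ℝ} {om : ℝ}

/-- the squares are different faces -/
theorem injOn_kf (H : BdT v z 𝓢) (hkf : ∀ s ∈ 𝓢, M.F (kf s) = squ v s) :
    InjOn kf (𝓢 : Set (Idx × Fin 3)) := by
  intro s hs s' hs' h
  refine H.dis s hs s' hs' ?_
  have h1 : squ v s = squ v s' := by rw [← hkf s hs, ← hkf s' hs', h]
  have h2 : rel v s = rel v s' := by
    rw [← Vale.Agent.P073.H687.intrinsicInterior_squ, ← Vale.Agent.P073.H687.intrinsicInterior_squ,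
      h1]
  rw [← h2, inter_self, ← Vale.Agent.P073.H687.intrinsicInterior_squ, ← hkf s hs]
  have hP := Vale.Agent.P073.H193.pgn_of_fat (M.fat (kf s))
  exact Set.Nonempty.intrinsicInterior hP.convex hP.nonempty

/-- one face: the energy -/
theorem term1 {R σ ψ c : ℝ} (hψ : 0 ≤ ψ) (hσ : 0 < σ) (m : ℝ) (hm : 0 < m)
    (h1 : σ = 1 / 2 / m) :
    m * R * (2 ^ p * (dp p * C₁ ^ p * σ ^ 2 * ψ)) = R * (2 ^ p * dp p * C₁ ^ p / 2) * (σ * ψ) := by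
  have h2 : m * σ = 1 / 2 := by rw [h1]; field_simp
  calc m * R * (2 ^ p * (dp p * C₁ ^ p * σ ^ 2 * ψ))
      = R * (2 ^ p * dp p * C₁ ^ p) * (m * σ) * (σ * ψ) := by ring
    _ = _ := by rw [h2]; ring

/-- one face: the oscillation -/
theorem term2 (hp : 1 ≤ p) {σ W ψ : ℝ} (hσ : 0 < σ) (hW : 0 ≤ W) (hC₂ : 0 ≤ C₂)
    (h : W ^ p ≤ (12 * σ) ^ (p - 1) * ψ) :
    (2 * σ) ^ (2 - p) * (2 * (C₂ * W)) ^ p ≤
      (2 * C₂) ^ p * 12 ^ (p - 1) * 2 ^ (2 - p) * (σ * ψ) := by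
  have e1 : (2 * (C₂ * W)) ^ p = (2 * C₂) ^ p * W ^ p := by
    rw [← mul_assoc, Real.mul_rpow (by positivity) hW]
  have e2 : (2 * σ) ^ (2 - p) = 2 ^ (2 - p) * σ ^ (2 - p) :=
    Real.mul_rpow zero_le_two hσ.le
  have e3 : (12 * σ) ^ (p - 1) = 12 ^ (p - 1) * σ ^ (p - 1) :=
    Real.mul_rpow (by norm_num) hσ.le
  have e4 : σ ^ (2 - p) * σ ^ (p - 1) = σ := by
    rw [← Real.rpow_add hσ]
    have : (2 - p) + (p - 1) = 1 := by ring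
    rw [this, Real.rpow_one]
  rw [e1, e2]
  rw [e3] at h
  calc 2 ^ (2 - p) * σ ^ (2 - p) * ((2 * C₂) ^ p * W ^ p)
      ≤ 2 ^ (2 - p) * σ ^ (2 - p) * ((2 * C₂) ^ p * (12 ^ (p - 1) * σ ^ (p - 1) * ψ)) := by
        gcongr
    _ = (2 * C₂) ^ p * 12 ^ (p - 1) * 2 ^ (2 - p) * ((σ ^ (2 - p) * σ ^ (p - 1)) * ψ) := by ring
    _ = _ := by rw [e4]

/-- **[DSUM], real form**: all numbers of a drawn cell are bounded by `∑ σ ψ` -/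
theorem drawn_real (hp : 2 < p) (hkf : ∀ s ∈ 𝓢, M.F (kf s) = squ v s)
    (T : ∀ k, FStar (edges M) k) (hb : ∀ s ∈ 𝓢, ∀ e, (edges M).seg e ⊆ M.F (kf s) → 0 ≤ b (kf s) e)
    (hC₁ : 0 ≤ C₁) (hC₂ : 0 ≤ C₂)
    (hom : ∃ s ∈ 𝓢, om ^ p * (1 / 2 ^ z.1) ^ (2 - p) ≤
      1 / 2 / 2 ^ s.1.1 * psi M p (kf s) (b (kf s))) :
    ENNReal.ofReal (cp p) *
        ((∑ s ∈ 𝓢, ENNReal.ofReal (2 ^ s.1.1 / 2 ^ z.1) *
          fInt p v s (fun x => 2 * (T (kf s)).G C₁ (b (kf s)) x)) +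
          ENNReal.ofReal ((1 / 2 ^ z.1) * ZS p 𝓢 (fun s => 2 * (C₂ * bsum M (kf s) (b (kf s)))) +
            (1 / 2 ^ z.1 : ℝ) ^ (3 - p) * om ^ p)) ≤
      ENNReal.ofReal (cp p * (2 ^ p * dp p * C₁ ^ p / 2 +
        (2 * C₂) ^ p * 12 ^ (p - 1) * 2 ^ (2 - p) + 1) * (1 / 2 ^ z.1) *
        ∑ s ∈ 𝓢, 1 / 2 / 2 ^ s.1.1 * psi M p (kf s) (b (kf s))) := by
  have hp1 : 1 ≤ p := by linarith
  have hcp := Vale.Agent.P073.H233.cp_pos hp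
  have hdp := P073.H155.dp_pos p
  set R : ℝ := 1 / 2 ^ z.1 with hR
  have hR0 : 0 < R := by positivity
  have hψ : ∀ s ∈ 𝓢, 0 ≤ psi M p (kf s) (b (kf s)) := fun s hs => psi_nonneg (hb s hs)
  have hσψ : ∀ s ∈ 𝓢, 0 ≤ 1 / 2 / 2 ^ s.1.1 * psi M p (kf s) (b (kf s)) := fun s hs =>
    mul_nonneg (by positivity) (hψ s hs)
  set S : ℝ := ∑ s ∈ 𝓢, 1 / 2 / 2 ^ s.1.1 * psi M p (kf s) (b (kf s)) with hS
  have hS0 : 0 ≤ S := Finset.sum_nonneg hσψ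
  -- the energy
  have h1 : ∑ s ∈ 𝓢, ENNReal.ofReal (2 ^ s.1.1 / 2 ^ z.1) *
      fInt p v s (fun x => 2 * (T (kf s)).G C₁ (b (kf s)) x) ≤
      ENNReal.ofReal (R * (2 ^ p * dp p * C₁ ^ p / 2) * S) := by
    rw [hS, Finset.mul_sum, ENNReal.ofReal_sum_of_nonneg fun s hs => mul_nonneg (by positivity)
      (hσψ s hs)]
    refine Finset.sum_le_sum fun s hs => ?_
    refine (mul_le_mul_right (fInt_le (T (kf s)) (hkf s hs) hC₁ hp1 (hb s hs)) _).trans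
      (le_of_eq ?_)
    rw [← ENNReal.ofReal_mul (by positivity)]
    congr 1
    rw [← term1 (p := p) (C₁ := C₁) (c := 0) (hψ s hs) (by positivity : (0:ℝ) < 1 / 2 / 2 ^ s.1.1)
      (2 ^ s.1.1) (by positivity) rfl, hR]
    ring
  -- the oscillation
  have h2 : ZS p 𝓢 (fun s => 2 * (C₂ * bsum M (kf s) (b (kf s)))) ≤
      (2 * C₂) ^ p * 12 ^ (p - 1) * 2 ^ (2 - p) * S := by
    unfold ZS
    rw [hS, Finset.mul_sum]
    refine Finset.sum_le_sum fun s hs => ?_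
    have e1 : (1 / 2 ^ s.1.1 : ℝ) = 2 * (1 / 2 / 2 ^ s.1.1) := by ring
    rw [e1]
    exact term2 hp1 (by positivity) (bsum_nonneg (hb s hs)) hC₂
      (bsum_rpow_le (T (kf s)) (by positivity) (face_eq (hkf s hs)) hp1 (hb s hs))
  -- the weight
  have h3 : R ^ (3 - p) * om ^ p ≤ R * S := by
    obtain ⟨s, hs, h4⟩ := hom
    have e1 : R ^ (3 - p) = R * R ^ (2 - p) := by
      have : 3 - p = 1 + (2 - p) := by ring
      rw [this, Real.rpow_add hR0, Real.rpow_one]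
    rw [e1, mul_assoc]
    refine mul_le_mul_of_nonneg_left ?_ hR0.le
    rw [mul_comm]
    exact h4.trans (Finset.single_le_sum hσψ hs)
  have h5 : (0:ℝ) ≤ ZS p 𝓢 (fun s => 2 * (C₂ * bsum M (kf s) (b (kf s)))) :=
    Vale.Agent.P073.H233.ZS_nonneg fun s hs => mul_nonneg zero_le_two
      (mul_nonneg hC₂ (bsum_nonneg (hb s hs)))
  calc _ ≤ ENNReal.ofReal (cp p) * (ENNReal.ofReal (R * (2 ^ p * dp p * C₁ ^ p / 2) * S) +
        ENNReal.ofReal (R * ((2 * C₂) ^ p * 12 ^ (p - 1) * 2 ^ (2 - p) * S) + R * S)) := by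
        gcongr
    _ = _ := by
        rw [← ENNReal.ofReal_add (by positivity) (by positivity), ← ENNReal.ofReal_mul hcp.le]
        congr 1
        ring

/-- the sum over the squares is bounded by the sum over the faces in the cell -/
theorem sum_psi_le (hp1 : 1 ≤ p) {i : M.ι} (hQ : M.Q i = dyc v z.1 z.2) (H : BdT v z 𝓢)
    (hkf : ∀ s ∈ 𝓢, M.F (kf s) = squ v s) (T : ∀ k, FStar (edges M) k) {h : V → V}
    (hD₀ : 0 ≤ D₀) {ε : M.κ → ℝ} (hε : ∀ k, 0 < ε k)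
    (hb : ∀ s ∈ 𝓢, Num (kf s) h D₀ (ε (kf s)) (b (kf s)))
    {E : {k // M.F k ⊆ M.Q i} → Finset (V × V)} {σ : {k // M.F k ⊆ M.Q i} → ℝ}
    {ℓ : V × V → ℝ≥0∞} (hE : ∀ k, Adapted M k.1 (E k))
    (hσ : ∀ k, 0 < σ k ∧ ∃ a l, M.F k.1 = sqr a l (σ k))
    (hℓ : ∀ k, ∀ e ∈ E k, len (onSeg h e) (Icc 0 1) ≤ ℓ e) :
    ENNReal.ofReal (∑ s ∈ 𝓢, 1 / 2 / 2 ^ s.1.1 * psi M p (kf s) (b (kf s))) ≤
      ENNReal.ofReal (D₀ ^ p * 2 ^ (p - 1)) *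
      ∑' k, ENNReal.ofReal (σ k) * ∑ e ∈ E k, ENNReal.ofReal (‖e.2 - e.1‖ ^ (1 - p)) *
          (ℓ e + ENNReal.ofReal (ε k.1 * ‖e.2 - e.1‖ / σ k)) ^ p := by
  have hsub : ∀ s ∈ 𝓢, M.F (kf s) ⊆ M.Q i := by
    intro s hs
    obtain ⟨t, ht, hst⟩ := H.sub s hs
    rw [hkf s hs, hQ]
    exact hst.trans (Vale.Agent.P073.H233.face_sub_dyc ht)
  rw [ENNReal.ofReal_sum_of_nonneg fun s hs => mul_nonneg (by positivity)
    (psi_nonneg (hb s hs).nonneg), ← ENNReal.tsum_mul_left]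
  refine sum_le_tsum_of hsub (injOn_kf H hkf) fun s hs => ?_
  set k : {k // M.F k ⊆ M.Q i} := ⟨kf s, hsub s hs⟩ with hk
  obtain ⟨hσ0, a, l, hF⟩ := hσ k
  have e1 : (1 / 2 / 2 ^ s.1.1 : ℝ) = σ k := by
    rw [← ((T k.1).sq _ _ _ (by positivity) (face_eq (hkf s hs))).2.1,
      ((T k.1).sq _ _ _ hσ0 hF).2.1]
  rw [e1, ENNReal.ofReal_mul hσ0.le]
  refine (mul_le_mul_right (psi_le hD₀ (hε _) hp1 (hb s hs) hσ0 hF (hE k) (hℓ k)) _).trans_eq ?_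
  rw [mul_left_comm]

/-- **[DSUM]**: the right side of the clause `drawn` -/
theorem drawn_sum (hp : 2 < p) {i : M.ι} (hQ : M.Q i = dyc v z.1 z.2) (H : BdT v z 𝓢)
    (hkf : ∀ s ∈ 𝓢, M.F (kf s) = squ v s) (T : ∀ k, FStar (edges M) k) {h : V → V}
    (hD₀ : 0 ≤ D₀) {ε : M.κ → ℝ} (hε : ∀ k, 0 < ε k)
    (hb : ∀ s ∈ 𝓢, Num (kf s) h D₀ (ε (kf s)) (b (kf s)))
    (hC₁ : 0 ≤ C₁) (hC₂ : 0 ≤ C₂)
    (hom : ∃ s ∈ 𝓢, om ^ p * (1 / 2 ^ z.1) ^ (2 - p) ≤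
      1 / 2 / 2 ^ s.1.1 * psi M p (kf s) (b (kf s)))
    {E : {k // M.F k ⊆ M.Q i} → Finset (V × V)} {σ : {k // M.F k ⊆ M.Q i} → ℝ}
    {ℓ : V × V → ℝ≥0∞} (hE : ∀ k, Adapted M k.1 (E k))
    (hσ : ∀ k, 0 < σ k ∧ ∃ a l, M.F k.1 = sqr a l (σ k))
    (hℓ : ∀ k, ∀ e ∈ E k, len (onSeg h e) (Icc 0 1) ≤ ℓ e) :
    ENNReal.ofReal (cp p) *
        ((∑ s ∈ 𝓢, ENNReal.ofReal (2 ^ s.1.1 / 2 ^ z.1) *
          fInt p v s (fun x => 2 * (T (kf s)).G C₁ (b (kf s)) x)) +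
          ENNReal.ofReal ((1 / 2 ^ z.1) * ZS p 𝓢 (fun s => 2 * (C₂ * bsum M (kf s) (b (kf s)))) +
            (1 / 2 ^ z.1 : ℝ) ^ (3 - p) * om ^ p)) ≤
      ENNReal.ofReal (dK p C₁ C₂ D₀ / 2 ^ z.1) *
        ∑' k, ENNReal.ofReal (σ k) * ∑ e ∈ E k, ENNReal.ofReal (‖e.2 - e.1‖ ^ (1 - p)) *
          (ℓ e + ENNReal.ofReal (ε k.1 * ‖e.2 - e.1‖ / σ k)) ^ p := by
  have hp1 : 1 ≤ p := by linarith
  have hcp := Vale.Agent.P073.H233.cp_pos hp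
  have hdp := P073.H155.dp_pos p
  refine (drawn_real hp hkf T (fun s hs => (hb s hs).nonneg) hC₁ hC₂ hom).trans ?_
  have h1 := sum_psi_le hp1 hQ H hkf T hD₀ hε hb hE hσ hℓ
  rw [ENNReal.ofReal_mul (by positivity)]
  refine (mul_le_mul_right h1 _).trans_eq ?_
  rw [← mul_assoc, ← ENNReal.ofReal_mul (by positivity)]
  congr 2
  unfold dK
  ring

end P073.H950
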