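import Vale.Agent.P073.H950.Usc
import Vale.Agent.P073.H950.CubePoint

/-!
# P073, H950: upper semicontinuous local Lipschitz bound in a cell
-/

open Set Metric Topology Filter MeasureTheory
open scoped ENNReal

namespace P073.H950

open P073 P073.H936 P073.H880 P073.H267

namespace Chart

section gen

variable {E : Type*} [NormedAddCommGroup E] [NormedSpace ℝ E] {n m : ℕ} {Q S : Set E}
  (C : Chart n Q S)

/-- pull-back of the bound on the sphere -/
noncomputable def pull (G : E → ℝ) (a c : ℝ) (z : E) : ℝ :=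
  C.sh.indicator (fun z => a * G (C.ang z)) z + c

variable {G : E → ℝ} {a c : ℝ}

theorem pull_nonneg (hG : ∀ θ ∈ S, 0 ≤ G θ) (ha : 0 ≤ a) (hc : 0 ≤ c) (z : E) :
    0 ≤ C.pull G a c z := by
  refine add_nonneg (indicator_nonneg (fun z hz => mul_nonneg ha (hG _ (C.ang_mem hz))) z) hc

theorem upperSemicontinuous_pull (hGu : UpperSemicontinuousOn G S) (hG : ∀ θ ∈ S, 0 ≤ G θ)
    (ha : 0 ≤ a) : UpperSemicontinuous (C.pull G a c) := by
  have h1 : UpperSemicontinuousOn (fun z => a * G (C.ang z)) C.sh := by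
    intro z hz y hy
    have hang : Tendsto C.ang (𝓝[C.sh] z) (𝓝[S] (C.ang z)) :=
      tendsto_nhdsWithin_iff.2 ⟨C.continuousOn_ang z hz, by
        filter_upwards [self_mem_nhdsWithin] with w hw using C.ang_mem hw⟩
    have hy : a * G (C.ang z) < y := hy
    show ∀ᶠ w in 𝓝[C.sh] z, a * G (C.ang w) < y
    rcases ha.eq_or_lt with h0 | h0
    · rw [← h0, zero_mul] at hy
      exact Eventually.of_forall fun w => by rw [← h0, zero_mul]; exact hy
    · have h2 : G (C.ang z) < y / a := by rw [lt_div_iff₀ h0, mul_comm]; exact hy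
      filter_upwards [hang.eventually (hGu _ (C.ang_mem hz) _ h2)] with w hw
      rw [lt_div_iff₀ h0, mul_comm] at hw
      exact hw
  have h2 := upperSemicontinuous_indicator C.isCompact_sh.isClosed h1
    fun z hz => mul_nonneg ha (hG _ (C.ang_mem hz))
  exact h2.add upperSemicontinuous_const

theorem bddAbove_pull (hGb : BddAbove (G '' S)) (ha : 0 ≤ a) (A : Set E) :
    BddAbove (C.pull G a c '' A) := by
  obtain ⟨B, hB⟩ := hGb
  refine ⟨a * max B 0 + c, ?_⟩
  rintro - ⟨z, -, rfl⟩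
  unfold pull
  gcongr
  by_cases hz : z ∈ C.sh
  · rw [indicator_of_mem hz]
    exact mul_le_mul_of_nonneg_left ((hB ⟨_, C.ang_mem hz, rfl⟩).trans (le_max_left _ _)) ha
  · rw [indicator_of_notMem hz]
    exact mul_nonneg ha (le_max_right _ _)

end gen

section ev

variable {E : Type*} [NormedAddCommGroup E] [NormedSpace ℝ E] {n m : ℕ} {Q S : Set E}
  {J : Type*} [Fintype J] (C : Chart (n + 1) Q S) (D : Circles n S J m) (τ : Bool) {a b : ℝ}
  (h : C.Lip a b) {ω : J → ℝ} {W : ℝ} (hω0 : ∀ c, 0 ≤ ω c) (hW0 : 0 ≤ W) (hωW : ∀ c, ω c ≤ W)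

include h hω0 hW0 hωW in
/-- the local bound with the pulled back function -/
theorem eventually_sum_lev_pull {G : E → ℝ} (hG0 : ∀ θ ∈ S, 0 ≤ G θ)
    (hG : ∀ θ ∈ S, ∀ᶠ θ' in 𝓝[S] θ,
      ∑ c with D.typ c = τ, ω c * |D.s c θ' - D.s c θ| ≤ G θ * dist θ' θ) {z : E} (hz : z ∈ Q) :
    ∀ᶠ w in 𝓝[Q] z, ∑ c with D.typ c = τ, ω c * |C.lev D c w - C.lev D c z|
      ≤ C.pull G (3 * a * b) (W * (D.top * (2 * b))) z * dist w z := by
  classical
  by_cases hzs : z ∈ C.sh
  · have h1 := C.eventually_sum_lev_le D τ h hω0 hW0 hωW hz (hG0 _ (C.ang_mem hzs))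
      fun _ => hG _ (C.ang_mem hzs)
    filter_upwards [h1] with w hw
    refine hw.trans (le_of_eq ?_)
    rw [pull, indicator_of_mem hzs, mul_comm (G (C.ang z))]
  · have h1 := C.eventually_sum_lev_le D τ h hω0 hW0 hωW hz le_rfl fun h => absurd h hzs
    filter_upwards [h1] with w hw
    refine hw.trans (le_of_eq ?_)
    rw [pull, indicator_of_notMem hzs, zero_mul]

end ev

open Vale.Agent.P073.St (V)
open Vale.Agent.P073.AB (Idx)
open Vale.Agent.P073.SQ (ev)
open P073.Net (dyc dyo)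

/-- **Local bound in a dyadic cube.** -/
theorem eventually_sum_dya_pull {v : V} {q : Idx} {J : Type*} [Fintype J] {m : ℕ}
    (D : Circles 2 (dyc v q.1 q.2 \ dyo v q.1 q.2) J m) (τ : Bool) {ω : J → ℝ} {W : ℝ}
    (hω0 : ∀ c, 0 ≤ ω c) (hW0 : 0 ≤ W) (hωW : ∀ c, ω c ≤ W) {G : V → ℝ}
    (hG0 : ∀ θ ∈ dyc v q.1 q.2 \ dyo v q.1 q.2, 0 ≤ G θ)
    (hG : ∀ θ ∈ dyc v q.1 q.2 \ dyo v q.1 q.2, ∀ᶠ θ' in 𝓝[dyc v q.1 q.2 \ dyo v q.1 q.2] θ,
      ∑ c with D.typ c = τ, ω c * |D.s c θ' - D.s c θ| ≤ G θ * dist θ' θ) {z : V}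
    (hz : z ∈ dyc v q.1 q.2) :
    ∀ᶠ w in 𝓝[dyc v q.1 q.2] z,
      ∑ c with D.typ c = τ, ω c * |(dya v q).lev D c w - (dya v q).lev D c z|
        ≤ (dya v q).pull G 3 (W * (4 * m + 1) * (4 * 2 ^ q.1)) z * dist w z := by
  have h := (dya v q).eventually_sum_lev_pull D τ (dya_lip v q) hω0 hW0 hωW hG0 hG hz
  have e1 : 3 * (1 / 2 ^ q.1 / 2 : ℝ) * (1 / 2 ^ q.1 / 2)⁻¹ = 3 := by
    rw [mul_assoc, mul_inv_cancel₀ (half_pos' q.1).ne', mul_one]
  rwa [e1, top_mul_dya] at h

theorem volume_dyc (v : V) (q : Idx) :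
    volume (dyc v q.1 q.2) = ENNReal.ofReal ((1 / 2 ^ q.1) ^ 3) := by
  rw [← dyc_eq, Real.volume_pi_closedBall _ (half_pos' q.1).le, Fintype.card_fin]
  congr 1
  ring

theorem measurableSet_cube' (a : V) (r : ℝ) : MeasurableSet (Vale.Agent.P073.SQ.cube a r) := by
  have : Vale.Agent.P073.SQ.cube a r = ⋂ i, {x : V | |x i - a i| ≤ r} := by
    ext x; simp only [mem_iInter]; rfl
  rw [this]
  refine MeasurableSet.iInter fun i => ?_
  exact (isClosed_le (by fun_prop) continuous_const).measurableSet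

/-- the sides of a dyadic cube are contained in its boundary -/
theorem update_mem_sphere (v : V) (q : Idx) (s : Fin 3 × Bool) {x : V}
    (hx : x ∈ Vale.Agent.P073.SQ.cube (sideC v q s) (1 / 2 ^ q.1 / 2)) :
    Function.update x s.1 (sideC v q s s.1) ∈ dyc v q.1 q.2 \ dyo v q.1 q.2 := by
  set r : ℝ := 1 / 2 ^ q.1 / 2 with hr
  have hr0 : 0 < r := half_pos' q.1
  have h1 : sideC v q s s.1 - ctr v q.1 q.2 s.1 = sg s.2 * r := by
    simp [sideC, ev, hr]
  have h2 : ∀ i, i ≠ s.1 → sideC v q s i = ctr v q.1 q.2 i := by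
    intro i hi
    simp [sideC, ev, hi]
  have h3 : |sg s.2 * r| = r := by
    rcases sg_or s.2 with h | h <;> rw [h] <;> simp [abs_of_pos hr0]
  rw [← bd_eq, mem_sphere_iff_norm]
  apply le_antisymm
  · rw [pi_norm_le_iff_of_nonneg hr0.le]
    intro i
    rw [Pi.sub_apply, Real.norm_eq_abs]
    by_cases hi : i = s.1
    · subst hi; rw [Function.update_self, h1, h3]
    · rw [Function.update_of_ne hi, ← h2 i hi]; exact hx i
  · have h4 := norm_le_pi_norm (Function.update x s.1 (sideC v q s s.1) - ctr v q.1 q.2) s.1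
    rw [Pi.sub_apply, Function.update_self, h1, Real.norm_eq_abs, h3] at h4
    exact h4

/-- **Energy of the pulled back bound in a dyadic cube.** -/
theorem lintegral_pull_le (v : V) (q : Idx) {G : V → ℝ}
    (hGu : UpperSemicontinuousOn G (dyc v q.1 q.2 \ dyo v q.1 q.2))
    (hG : ∀ θ ∈ dyc v q.1 q.2 \ dyo v q.1 q.2, 0 ≤ G θ) {a c : ℝ} (ha : 0 ≤ a) (hc : 0 ≤ c)
    {p : ℝ} (hp : 1 ≤ p) :
    ∫⁻ z in dyc v q.1 q.2, ENNReal.ofReal ((dya v q).pull G a c z ^ p)
      ≤ ENNReal.ofReal (2 ^ (p - 1)) * (ENNReal.ofReal (a ^ p) * (∑ s : Fin 3 × Bool,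
          ∫⁻ x in Vale.Agent.P073.SQ.cube (sideC v q s) (1 / 2 ^ q.1 / 2),
            ENNReal.ofReal (G (Function.update x s.1 (sideC v q s s.1)) ^ p))
        + ENNReal.ofReal (c ^ p * (1 / 2 ^ q.1) ^ 3)) := by
  have hp0 : 0 < p := by linarith
  set S : Set V := dyc v q.1 q.2 \ dyo v q.1 q.2 with hS
  have hSc : IsClosed S := (dya v q).isCompact_S.isClosed
  set H : V → ℝ≥0∞ := fun θ => ENNReal.ofReal (S.indicator G θ ^ p) with hH
  have hHm : Measurable H :=
    ((upperSemicontinuous_indicator hSc hGu hG).measurable.pow_const p).ennreal_ofReal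
  have h1 := lintegral_ang_le v q hHm
  -- the sides are contained in the sphere
  have h2 : ∀ s : Fin 3 × Bool, ∀ x ∈ Vale.Agent.P073.SQ.cube (sideC v q s) (1 / 2 ^ q.1 / 2),
      Function.update x s.1 (sideC v q s s.1) ∈ S := by
    intro s x hx
    exact update_mem_sphere v q s hx
  have h3 : ∀ s : Fin 3 × Bool, ∫⁻ x in Vale.Agent.P073.SQ.cube (sideC v q s) (1 / 2 ^ q.1 / 2),
      H (Function.update x s.1 (sideC v q s s.1))
      = ∫⁻ x in Vale.Agent.P073.SQ.cube (sideC v q s) (1 / 2 ^ q.1 / 2),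
        ENNReal.ofReal (G (Function.update x s.1 (sideC v q s s.1)) ^ p) := by
    intro s
    refine setLIntegral_congr_fun (measurableSet_cube' _ _) fun x hx => ?_
    show ENNReal.ofReal (S.indicator G _ ^ p) = _
    rw [indicator_of_mem (h2 s x hx)]
  rw [Finset.sum_congr rfl fun s _ => h3 s] at h1
  set K : V → ℝ := (dya v q).sh.indicator fun z => a * G ((dya v q).ang z) with hK
  have hKm : Measurable K := by
    have h4 := (dya v q).upperSemicontinuous_pull (c := 0) hGu hG ha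
    have h5 : (dya v q).pull G a 0 = K := by
      funext z; simp [pull, hK]
    rw [h5] at h4
    exact h4.measurable
  have hK0 : ∀ z, 0 ≤ K z := fun z =>
    indicator_nonneg (fun z hz => mul_nonneg ha (hG _ ((dya v q).ang_mem hz))) z
  have h4 : ∀ z, ENNReal.ofReal ((dya v q).pull G a c z ^ p)
      ≤ ENNReal.ofReal (2 ^ (p - 1)) * (ENNReal.ofReal (K z ^ p) + ENNReal.ofReal (c ^ p)) := by
    intro z
    have h5 := ENNReal.rpow_add_le_mul_rpow_add_rpow (ENNReal.ofReal (K z)) (ENNReal.ofReal c) hp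
    rw [← ENNReal.ofReal_add (hK0 z) hc, ENNReal.ofReal_rpow_of_nonneg (add_nonneg (hK0 z) hc) hp0.le,
      ENNReal.ofReal_rpow_of_nonneg (hK0 z) hp0.le, ENNReal.ofReal_rpow_of_nonneg hc hp0.le] at h5
    refine h5.trans (le_of_eq ?_)
    congr 1
    have h6 : (2 : ℝ≥0∞) = ENNReal.ofReal 2 := by simp
    rw [h6, ENNReal.ofReal_rpow_of_nonneg (by norm_num) (by linarith)]
  refine (lintegral_mono h4).trans ?_
  rw [lintegral_const_mul _ ((hKm.pow_const p).ennreal_ofReal.add_const _)]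
  gcongr
  rw [lintegral_add_right _ measurable_const]
  refine add_le_add ?_ (le_of_eq ?_)
  · have h6 : ∀ z, ENNReal.ofReal (K z ^ p) = (dya v q).sh.indicator
        (fun z => ENNReal.ofReal (a ^ p) * H ((dya v q).ang z)) z := by
      intro z
      by_cases hz : z ∈ (dya v q).sh
      · have e1 : K z = a * G ((dya v q).ang z) := indicator_of_mem hz _
        have e2 : H ((dya v q).ang z) = ENNReal.ofReal (G ((dya v q).ang z) ^ p) := by
          show ENNReal.ofReal (S.indicator G _ ^ p) = _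
          rw [indicator_of_mem ((dya v q).ang_mem hz)]
        rw [indicator_of_mem hz, e1, e2, Real.mul_rpow ha (hG _ ((dya v q).ang_mem hz)),
          ENNReal.ofReal_mul (Real.rpow_nonneg ha p)]
      · have e1 : K z = 0 := indicator_of_notMem hz _
        rw [indicator_of_notMem hz, e1, Real.zero_rpow hp0.ne', ENNReal.ofReal_zero]
    have h7 : Measurable fun z => H ((dya v q).ang z) :=
      hHm.comp (continuous_ang_dya v q).measurable
    rw [lintegral_congr h6, setLIntegral_indicator (dya v q).isCompact_sh.isClosed.measurableSet,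
      inter_eq_self_of_subset_left (dya v q).sh_sub, lintegral_const_mul _ h7]
    gcongr
  · rw [setLIntegral_const, volume_dyc, ENNReal.ofReal_mul (Real.rpow_nonneg hc p)]

end Chart

end P073.H950
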