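import Vale.Agent.P073.H950.Dsum2
import Vale.Agent.P073.H950.UscCube
import Vale.Agent.P073.H142.FaceData

/-!
# P073, H950 [DSUM], part 3: the clause `drawn` for one cell
-/

open Set Metric Topology Filter MeasureTheory
open scoped ENNReal

namespace P073.H950

open Vale.Agent.P073.St (V)
open Vale.Agent.P073.SQ (cube ev)
open Vale.Agent.P073.AB (Idx squ)
open Vale.Agent.P073.AB.P86 (sc rel)
open Vale.Agent.P073.H73 (onSeg Mesh Adapted sqr)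
open Vale.Agent.P073.H193 (Edges edges Cyc)
open Vale.Agent.P073.H155 (vv ce)
open Vale.Agent.P073.H233 (BdT fInt ZS cp)
open Vale.Agent.P073.H304 (LipBd)
open P073.H155 (cm dp cn ab)
open P073.H142 (FStar Num FaceData LevIn)
open P073.H579 (bandD)
open P073.H880 (cvar)
open P073.Net (len dyc dyo)

variable {Ω : Set V} {M : Mesh Ω}

/-! ### The face data -/

section face

variable {ι : Type*} [Fintype ι] {side : ι → Bool} {ax : Bool → Fin 3} {lo hi : Fin 3 → ℝ}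
  {c w : ι → ℝ} {U : Set V} {Q : Type} {L : Fin 3 → Finset ℝ} {blo bhi : Fin 3 → ℝ → ℝ}
  {lev : ι → ℝ}

/-- **the face data of a drawn cell**, from the cone inequality and the paths on the faces of the
mesh (`H579.hface_mesh_path`) -/
theorem faceData_mesh (H : LevIn side ax c w L blo bhi lev)
    (D : P073.H936.K3.BoxK side ax lo hi c w U Q) {v : V} {om : ℝ} (hom : 0 ≤ om)
    {𝓢 : Finset (Idx × Fin 3)} {kf : Idx × Fin 3 → M.κ} (hkf : ∀ s ∈ 𝓢, M.F (kf s) = squ v s)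
    (T : ∀ k, FStar (edges M) k) {b : M.κ → (edges M).ε → ℝ}
    (hb : ∀ s ∈ 𝓢, ∀ e, (edges M).seg e ⊆ M.F (kf s) → 0 ≤ b (kf s) e) {C₁ C₂ : ℝ}
    (hC₂ : 0 ≤ C₂)
    (hcone : ∀ s ∈ 𝓢, ∀ e, (edges M).seg e ⊆ M.F (kf s) →
      ∀ x ∈ coneSetAt (T (kf s)).O ((edges M).seg e),
      ∀ y ∈ coneSetAt (T (kf s)).O ((edges M).seg e),
      bandD L blo bhi (fun _ _ => om) (D.h.toFun x) (D.h.toFun y) ≤
        (T (kf s)).con C₁ (b (kf s)) e * ‖x - y‖)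
    (hpath : ∀ s ∈ 𝓢, ∀ x ∈ squ v s, ∀ y ∈ squ v s, ∃ γ : ℝ → V, ContinuousOn γ (Icc 0 3) ∧
      MapsTo γ (Icc 0 3) (squ v s) ∧ γ 0 = x ∧ γ 3 = y ∧ cvar (fun t t' => ENNReal.ofReal
        (bandD L blo bhi (fun _ _ => om) (D.h.toFun (γ t)) (D.h.toFun (γ t')))) 0 3 ≤
        ENNReal.ofReal (C₂ * bsum M (kf s) (b (kf s)))) :
    FaceData D v om 𝓢 (fun s x => 2 * (T (kf s)).G C₁ (b (kf s)) x)
      (fun s => 2 * (C₂ * bsum M (kf s) (b (kf s)))) := by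
  refine H.faceData D hom (n := fun s => (T (kf s)).C.n + 1)
    (S := fun s j => cn (vv (T (kf s)).C) (T (kf s)).O j)
    (K := fun s j => ab C₁ (T (kf s)).rho ((T (kf s)).C.n + 1) (vv (T (kf s)).C)
      (fun j => b (kf s) (ce (T (kf s)).C j)) j) ?_ ?_ ?_ ?_ hpath
  · intro s _ j
    exact (P073.H155.isCompact_cn _ _ _).isClosed
  · intro s hs x hx
    rw [← hkf s hs] at hx
    obtain ⟨j, hj, hxj⟩ := (T (kf s)).star.exists_cn hx
    exact mem_iUnion.2 ⟨⟨j, hj⟩, hxj⟩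
  · intro s hs
    exact mul_nonneg hC₂ (bsum_nonneg (hb s hs))
  · intro s hs j x hx _ y hy _
    show _ ≤ ab C₁ (T (kf s)).rho ((T (kf s)).C.n + 1) (vv (T (kf s)).C)
      (fun j => b (kf s) (ce (T (kf s)).C j)) j * ‖x - y‖
    rw [(T (kf s)).ab_eq]
    rw [(T (kf s)).cn_eq] at hx hy
    exact hcone s hs _ ((T (kf s)).C.sub _) x hx y hy

end face

/-! ### Small numbers -/

variable {p C₁ C₂ D₀ : ℝ} {v : V} {z : Idx} {𝓢 : Finset (Idx × Fin 3)} {kf : Idx × Fin 3 → M.κ}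
  {b : M.κ → (edges M).ε → ℝ}

/-- the number `x` is tiny with respect to the power sums of the faces of the cell `z` -/
def Tiny (M : Mesh Ω) (p : ℝ) (z : Idx) (𝓢 : Finset (Idx × Fin 3)) (kf : Idx × Fin 3 → M.κ)
    (b : M.κ → (edges M).ε → ℝ) (x : ℝ) : Prop :=
  ∃ s ∈ 𝓢, x ^ p * (1 / 2 ^ z.1) ^ (2 - p) ≤ 1 / 2 / 2 ^ s.1.1 * psi M p (kf s) (b (kf s)) ∧
    x ^ p * (1 / 2 ^ z.1) ^ 2 ≤ 1 / 2 / 2 ^ s.1.1 * psi M p (kf s) (b (kf s))

theorem exists_tinyN (hp : 0 < p) {s : Idx × Fin 3} (hs : s ∈ 𝓢)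
    (hb : ∀ e, (edges M).seg e ⊆ M.F (kf s) → 0 < b (kf s) e) :
    ∃ ω > 0, ∀ x, 0 ≤ x → x ≤ ω → Tiny M p z 𝓢 kf b x := by
  have hψ : 0 < 1 / 2 / 2 ^ s.1.1 * psi M p (kf s) (b (kf s)) :=
    mul_pos (by positivity) (psi_pos hb)
  set ψ : ℝ := 1 / 2 / 2 ^ s.1.1 * psi M p (kf s) (b (kf s)) with hψd
  set R : ℝ := 1 / 2 ^ z.1 with hR
  have hR0 : 0 < R := by positivity
  have key : ∀ c : ℝ, 0 < c → ∃ ω > 0, ∀ x, 0 ≤ x → x ≤ ω → x ^ p * c ≤ ψ := by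
    intro c hc
    refine ⟨(ψ / c) ^ (1 / p), by positivity, fun x hx hxω => ?_⟩
    have h1 : x ^ p ≤ ψ / c := by
      calc x ^ p ≤ ((ψ / c) ^ (1 / p)) ^ p := Real.rpow_le_rpow hx hxω hp.le
        _ = ψ / c := by
            rw [← Real.rpow_mul (by positivity), one_div_mul_cancel hp.ne', Real.rpow_one]
    calc x ^ p * c ≤ ψ / c * c := mul_le_mul_of_nonneg_right h1 hc.le
      _ = ψ := div_mul_cancel₀ _ hc.ne'
  obtain ⟨ω₁, h1, h2⟩ := key (R ^ (2 - p)) (by positivity)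
  obtain ⟨ω₂, h3, h4⟩ := key (R ^ 2) (by positivity)
  exact ⟨min ω₁ ω₂, lt_min h1 h3, fun x hx hxω => ⟨s, hs, h2 x hx (hxω.trans (min_le_left _ _)),
    h4 x hx (hxω.trans (min_le_right _ _))⟩⟩

end P073.H950
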