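import Vale.Agent.P073.H950.SpecGlue
import Vale.Agent.P073.H605.GlueE
import Vale.Agent.P073.H851.BoxCell

/-!
# P073, block B09, [GLUE]: the filler part, no hypothesis
-/

namespace Vale.Agent.P073.H950

/-- **[GLUE]** -/
theorem specGlue : H304.SpecGlue := specGlue_of (H605.glueBox_of H851.BC.boxCell)

end Vale.Agent.P073.H950
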