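import Vale.Agent.P073.H605.GlueDefs
import Vale.Agent.P073.H304.SpecGlue
import Vale.Agent.P073.H51.EdgeEq

/-!
# P073, block B09, [GLUE]: geometry of the boxes for the multi-box assembly
-/

namespace Vale.Agent.P073.H950

open MeasureTheory Set Filter Topology Metric Vale.Agent.P073.St Vale.Agent.P073.AB
open Vale.Agent.P073.SQ (ev)
open Vale.Agent.P073.H696 (Dom blk blkS IsNear)
open Vale.Agent.P073.H605 (sbox obx)
open Vale.Agent.P073.H304 (boxH)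
open Vale.Agent.P073.H803 (boxD)
open Vale.Agent.P073.AB.S308 (gbox obox)
open _root_.P073.Net (dyc dyo)
open _root_.P073 (ConHomeo)
open _root_.P073.Gauge (gam)
open _root_.P073.Gauge.C110
open scoped ENNReal

/-! ### The corner and the side -/

/-- the corner of the box, in units of the grid `N'` -/
def glA (k : Idx) (n N' : ℕ) : Fin 3 → ℤ :=
  fun i => k.2 i * 2 ^ (N' - k.1) + 2 ^ (N' - n) - 1

/-- the side of the box, in units of the grid `N'` -/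
def glM (k : Idx) (n N' : ℕ) : ℕ := 2 ^ (N' - k.1) - 2 * 2 ^ (N' - n) + 2

variable {v : V} {k : Idx} {n N' : ℕ}

theorem pow_sub_div {a b : ℕ} (h : a ≤ b) (c : ℝ) : c * 2 ^ (b - a) / 2 ^ b = c / 2 ^ a := by
  rw [div_eq_div_iff (by positivity) (by positivity), mul_assoc, ← pow_add, Nat.sub_add_cancel h]

theorem two_pow_le (hk : k.1 + 4 ≤ n) (hn : n + 2 ≤ N') :
    2 * 2 ^ (N' - n) + 2 ≤ 2 ^ (N' - k.1) := by
  have e1 : N' - k.1 = (N' - n) + 4 + (n - k.1 - 4) := by omega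
  rw [e1, pow_add, pow_add]
  have h1 : 1 ≤ 2 ^ (N' - n) := Nat.one_le_two_pow
  have h2 : 1 ≤ 2 ^ (n - k.1 - 4) := Nat.one_le_two_pow
  have h3 : 2 ^ (N' - n) * 2 ^ 4 * 1 ≤ 2 ^ (N' - n) * 2 ^ 4 * 2 ^ (n - k.1 - 4) :=
    Nat.mul_le_mul_left _ h2
  omega

theorem glM_pos (k : Idx) (n N' : ℕ) : 1 ≤ glM k n N' := by
  unfold glM
  omega

theorem glM_le (hk : k.1 + 4 ≤ n) (hn : n + 2 ≤ N') : glM k n N' ≤ 2 ^ N' := by
  have h1 := two_pow_le hk hn
  have h2 : 2 ^ (N' - k.1) ≤ 2 ^ N' := Nat.pow_le_pow_right (by norm_num) (Nat.sub_le _ _)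
  have h3 : 1 ≤ 2 ^ (N' - n) := Nat.one_le_two_pow
  unfold glM
  omega

theorem glM_cast (hk : k.1 + 4 ≤ n) (hn : n + 2 ≤ N') :
    (glM k n N' : ℝ) = 2 ^ (N' - k.1) - 2 * 2 ^ (N' - n) + 2 := by
  have h1 := two_pow_le hk hn
  have h2 : 2 * 2 ^ (N' - n) ≤ 2 ^ (N' - k.1) := by omega
  unfold glM
  rw [Nat.cast_add, Nat.cast_sub h2]
  push_cast
  ring

theorem glA_div (hk : k.1 + 4 ≤ n) (hn : n + 2 ≤ N') (i : Fin 3) :
    (glA k n N' i : ℝ) / 2 ^ N' = (k.2 i : ℝ) / 2 ^ k.1 + 1 / 2 ^ n - 1 / 2 ^ N' := by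
  unfold glA
  push_cast
  have h1 := pow_sub_div (a := k.1) (b := N') (by omega) (k.2 i : ℝ)
  have h2 := pow_sub_div (a := n) (b := N') (by omega) (1 : ℝ)
  rw [one_mul] at h2
  rw [sub_div, add_div, h1, h2]

theorem glAM_div (hk : k.1 + 4 ≤ n) (hn : n + 2 ≤ N') (i : Fin 3) :
    ((glA k n N' i : ℝ) + glM k n N') / 2 ^ N' =
      ((k.2 i : ℝ) + 1) / 2 ^ k.1 - 1 / 2 ^ n + 1 / 2 ^ N' := by
  have h1 := pow_sub_div (a := k.1) (b := N') (by omega) ((k.2 i : ℝ) + 1)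
  have h2 := pow_sub_div (a := n) (b := N') (by omega) (1 : ℝ)
  rw [one_mul] at h2
  have e : (glA k n N' i : ℝ) + glM k n N' =
      ((k.2 i : ℝ) + 1) * 2 ^ (N' - k.1) - 2 ^ (N' - n) + 1 := by
    rw [glM_cast hk hn]
    unfold glA
    push_cast
    ring
  rw [e, add_div, sub_div, h1, h2]

/-- `1 / 2 ^ N'` is at most a quarter of `1 / 2 ^ n` -/
theorem four_div_le (hn : n + 2 ≤ N') : 4 * (1 / 2 ^ N' : ℝ) ≤ 1 / 2 ^ n := by
  have e1 : N' = n + 2 + (N' - n - 2) := by omega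
  rw [e1, pow_add, pow_add]
  have h4 : (1:ℝ) ≤ 2 ^ (N' - n - 2) := one_le_pow₀ (by norm_num)
  have h5 : (0:ℝ) < 2 ^ n := by positivity
  rw [← mul_div_assoc, mul_one, div_le_div_iff₀ (by positivity) h5]
  nlinarith

/-! ### The boxes -/

theorem sbox_eq (v : V) (N : ℕ) (α : Fin 3 → ℤ) (m : ℕ) :
    sbox v N α m 0 = gbox v N α (fun i => α i + m) := by
  ext x
  simp only [sbox, gbox, mem_setOf_eq, add_zero, sub_zero]
  push_cast
  rfl

theorem obx_eq (v : V) (N : ℕ) (α : Fin 3 → ℤ) (m : ℕ) :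
    obx v N α m 0 = obox v N α (fun i => α i + m) := by
  ext x
  simp only [obx, obox, mem_setOf_eq, add_zero, sub_zero]
  push_cast
  rfl

theorem sbox_boxD (hk : k.1 + 4 ≤ n) (hn : n + 2 ≤ N') :
    sbox v N' (glA k n N') (glM k n N') (1 / 2 ^ N') = boxD v k n := by
  ext x
  simp only [sbox, boxD, mem_setOf_eq]
  refine forall_congr' fun i => ?_
  rw [glA_div hk hn i, glAM_div hk hn i]
  constructor
  · rintro ⟨h1, h2⟩
    constructor <;> linarith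
  · rintro ⟨h1, h2⟩
    constructor <;> linarith

theorem sbox_boxH (hk : k.1 + 4 ≤ n) (hn : n + 2 ≤ N') :
    sbox v N' (glA k n N') (glM k n N') 0 ⊆ boxH v k n := by
  intro x hx i
  obtain ⟨h1, h2⟩ := hx i
  rw [glA_div hk hn i] at h1
  rw [glAM_div hk hn i] at h2
  have h3 := four_div_le hn
  have h4 : (0:ℝ) < 1 / 2 ^ n := by positivity
  have h5 : (1:ℝ) / 2 / 2 ^ n = (1 / 2 ^ n) / 2 := by ring
  rw [h5]
  constructor <;> linarith

theorem boxD_obx (hk : k.1 + 4 ≤ n) (hn : n + 2 ≤ N') :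
    boxD v k n ⊆ obx v N' (glA k n N') (glM k n N') 0 := by
  intro x hx i
  obtain ⟨h1, h2⟩ := hx i
  rw [glA_div hk hn i, glAM_div hk hn i]
  have h5 : (0:ℝ) < 1 / 2 ^ N' := by positivity
  constructor <;> linarith

theorem sbox_dyo (hk : k.1 + 4 ≤ n) (hn : n + 2 ≤ N') :
    sbox v N' (glA k n N') (glM k n N') 0 ⊆ dyo v k.1 k.2 := by
  intro x hx i
  obtain ⟨h1, h2⟩ := hx i
  rw [glA_div hk hn i] at h1
  rw [glAM_div hk hn i] at h2
  have h3 := four_div_le hn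
  have h4 : (0:ℝ) < 1 / 2 ^ N' := by positivity
  constructor
  · linarith
  · linarith

theorem obx_sub_sbox (v : V) (N : ℕ) (α : Fin 3 → ℤ) (m : ℕ) : obx v N α m 0 ⊆ sbox v N α m 0 :=
  fun _ hx i => ⟨(hx i).1.le, (hx i).2.le⟩

theorem isOpen_obx (v : V) (N : ℕ) (α : Fin 3 → ℤ) (m : ℕ) : IsOpen (obx v N α m 0) := by
  rw [obx_eq]
  exact S308.isOpen_obox _ _ _ _

theorem isCompact_sbox (v : V) (N : ℕ) (α : Fin 3 → ℤ) (m : ℕ) : IsCompact (sbox v N α m 0) := by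
  rw [sbox_eq]
  exact S308.isCompact_gbox _ _ _ _

theorem closure_obx {v : V} {N : ℕ} {α : Fin 3 → ℤ} {m : ℕ} (hm : 1 ≤ m) :
    closure (obx v N α m 0) = sbox v N α m 0 := by
  have e1 : obx v N α m 0 = Set.pi univ (fun i => Ioo (v i + α i / 2 ^ N)
      (v i + (α i + m) / 2 ^ N)) := by
    ext x
    simp only [obx, mem_setOf_eq, add_zero, sub_zero, Set.mem_pi, mem_univ, true_implies, mem_Ioo]
  have e2 : sbox v N α m 0 = Set.pi univ (fun i => Icc (v i + α i / 2 ^ N)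
      (v i + (α i + m) / 2 ^ N)) := by
    ext x
    simp only [sbox, mem_setOf_eq, add_zero, sub_zero, Set.mem_pi, mem_univ, true_implies, mem_Icc]
  rw [e1, e2, closure_pi_set]
  congr 1
  funext i
  apply closure_Ioo
  have h1 : (0:ℝ) < m / 2 ^ N := by
    have : (0:ℝ) < m := by exact_mod_cast hm
    positivity
  rw [add_div]
  intro h
  linarith

/-! ### Cubes of the partition which meet a box -/

/-- a cube of the partition which meets the open box -/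
theorem cube_in {Ω : Set V} {H : V → ℝ≥0∞} {K I : Set Idx} {n N N' : Idx → ℕ} {r : V → ℝ}
    {ε : ℝ≥0∞} {tol : Idx → ℝ≥0∞} (Dm : Dom Ω v H K n N r ε tol I N') {k : Idx} (hkK : k ∈ K)
    (hk : k.1 + 4 ≤ n k) (hN : n k + 2 ≤ N k) {q : Idx} (hq : q ∈ I) {x : V}
    (hx : x ∈ dyc v q.1 q.2) (hxO : x ∈ obx v (N' k) (glA k (n k) (N' k)) (glM k (n k) (N' k)) 0) :
    dyc v q.1 q.2 ⊆ dyc v k.1 k.2 ∧ q.1 ≤ N' k ∧
      dyc v q.1 q.2 ⊆ sbox v (N' k) (glA k (n k) (N' k)) (glM k (n k) (N' k)) 0 := by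
  have hNN := Dm.gen k hkK
  have hn : n k + 2 ≤ N' k := hN.trans hNN
  have hxk := sbox_dyo hk hn (obx_sub_sbox _ _ _ _ hxO)
  have h1 : dyc v q.1 q.2 ⊆ dyc v k.1 k.2 := by
    rcases Dm.box q hq k hkK with h | h
    · exact h
    · exfalso
      rw [← H333.closure_dyo] at hx
      obtain ⟨y, hy, hy'⟩ := _root_.mem_closure_iff.1 hx (dyo v k.1 k.2) (H803.isOpen_dyo _ _ _) hxk
      exact Set.disjoint_left.1 h hy' (P86.dyo_sub_dyc hy)
  rcases Dm.out k hkK q hq h1 with ⟨h2, y, hy, hyS⟩ | ⟨h2, -⟩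
  · refine ⟨h1, by rw [h2]; exact hNN, ?_⟩
    obtain ⟨z, hz, hyz⟩ := mem_iUnion₂.1 hyS
    intro w hw i
    have hz' := hz i
    obtain ⟨b1, b2⟩ := hyz i
    obtain ⟨c1, c2⟩ := hy i
    obtain ⟨d1, d2⟩ := hw i
    rw [glA_div hk hn i, glAM_div hk hn i]
    have e1 := pow_sub_div (a := k.1) (b := n k) (by omega) (k.2 i : ℝ)
    have e2 := pow_sub_div (a := k.1) (b := n k) (by omega) ((k.2 i : ℝ) + 1)
    have f1 : (k.2 i : ℝ) * 2 ^ (n k - k.1) + 3 ≤ z i := by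
      have := hz'.1
      have h' : ((2 ^ (n k - k.1) * k.2 i + 3 : ℤ) : ℝ) ≤ (z i : ℝ) := by exact_mod_cast this
      push_cast at h'
      linarith
    have f2 : (z i : ℝ) + 4 ≤ ((k.2 i : ℝ) + 1) * 2 ^ (n k - k.1) := by
      have := hz'.2
      have h' : ((z i + 4 : ℤ) : ℝ) ≤ ((2 ^ (n k - k.1) * (k.2 i + 1) : ℤ) : ℝ) := by
        exact_mod_cast this
      push_cast at h'
      linarith
    have hp : (0:ℝ) < 2 ^ n k := by positivity
    have g1 : (k.2 i : ℝ) / 2 ^ k.1 + 3 * (1 / 2 ^ n k) ≤ (z i : ℝ) / 2 ^ n k := by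
      rw [← e1]
      have := div_le_div_of_nonneg_right f1 hp.le
      rw [add_div] at this
      linarith [show (3:ℝ) / 2 ^ n k = 3 * (1 / 2 ^ n k) by ring]
    have g2 : ((z i : ℝ) + 1) / 2 ^ n k + 3 * (1 / 2 ^ n k) ≤ ((k.2 i : ℝ) + 1) / 2 ^ k.1 := by
      rw [← e2]
      have := div_le_div_of_nonneg_right f2 hp.le
      rw [add_div] at this
      rw [add_div]
      linarith [show (4:ℝ) / 2 ^ n k = 4 * (1 / 2 ^ n k) by ring,
        show (1:ℝ) / 2 ^ n k = 1 * (1 / 2 ^ n k) by ring]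
    have g3 : (1:ℝ) / 2 ^ q.1 ≤ 1 / 2 ^ n k := by
      rw [h2]
      have := four_div_le hN
      have h0 : (0:ℝ) < 1 / 2 ^ N k := by positivity
      linarith
    have g4 : ((q.2 i : ℝ) + 1) / 2 ^ q.1 = (q.2 i : ℝ) / 2 ^ q.1 + 1 / 2 ^ q.1 := add_div _ _ _
    have g5 : (0:ℝ) < 1 / 2 ^ n k := by positivity
    have g6 : (0:ℝ) < 1 / 2 ^ N' k := by positivity
    have g7 := four_div_le hn
    constructor <;> linarith
  · refine ⟨h1, h2.le, ?_⟩
    rw [sbox_eq]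
    rw [obx_eq] at hxO
    exact S308.dyc_sub_of_mem_obox h2.ge hx hxO

end Vale.Agent.P073.H950
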