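import Vale.Agent.P073.H950.MSum

/-!
# P073, block B09, [SUMF-ERR]: the error of the map of Round 2

* `err_of_chX`: the error of the map of Round 2, explicit;
* `exists_small`: the choice of the small number.
-/

open MeasureTheory Set Filter Topology Metric Matrix
open scoped ENNReal NNReal

namespace Vale.Agent.P073.H950F

open Vale.Agent.P073
open Vale.Agent.P073.St (V Mat)
open Vale.Agent.P073.SQ (ev)
open Vale.Agent.P073.AB (Idx Part cl)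
open Vale.Agent.P073.H194 (cellT Gen)
open Vale.Agent.P073.H696
open Vale.Agent.P073.H911
open Vale.Agent.P073.H234.Ch (ChX Q₁)
open Vale.Agent.P073.H851 (M3)
open _root_.P073 (ConHomeo)
open _root_.P073.Net (dyc dyo)

/-- the error. `m = |Ω|`, `i₀ = ∫ |F| ^ p`. -/
noncomputable def errN (p C C₂ m i₀ εB ε₃ ε' δ₅ : ℝ) : ℝ :=
  2 ^ (p - 1) * ((C * ε') ^ p * (2 ^ (p - 1) * (i₀ + ε₃ * m)) + ε₃ * m) +
  2 ^ (p - 1) * (C * ((36 * C₂ * εB + (2 + (72 * 2 ^ (p - 1) + 1) * m) * ε₃) + δ₅ + ε') +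
    (εB + 2 ^ (p - 1) * ((2 * ε₃ * m + ε') + ε₃ * m)))

section

variable {p Cu : ℝ} {Lc : M3 → ℝ} {δ : ℝ} {j : ℕ} {ε' : ℝ} {Ω Λ : Set V} {f : V → V}
  {F : V → Mat} {v : V} {X : R2 p Cu Lc δ j ε' Ω Λ f F v} {C₂ εB M₀ r₀ b ε₃ : ℝ} {c : ℝ≥0∞}
  {τ φ κ μ : V → ℝ} {s : V → ℕ} {nn : ℕ → ℕ} {c₀ : V → ℝ} {a k₁ : V → ℕ} {E₀ Eb r : V → ℝ}
  {εD : ℝ≥0∞} {tolD : Idx → ℝ≥0∞} {I : Set Idx} {N' : Idx → ℕ}

theorem am_eq (f : V → V) (F : V → Mat) (x : Idx → V) (k : Idx) (y : V) :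
    am f F (x k) y = Mx F x k *ᵥ y + bx f F x k := by
  show f (x k) + (cl (F (x k))) (y - x k) = Mx F x k *ᵥ y + (f (x k) - Mx F x k *ᵥ x k)
  have h : ∀ w : V, (cl (F (x k))) w = Mx F x k *ᵥ w := fun w => rfl
  rw [h, Matrix.mulVec_sub]
  abel

theorem n_sub (H : ChX X C₂ εB M₀ r₀ b ε₃ c τ φ κ μ s nn c₀ a k₁ E₀ Eb r εD tolD I N') (k : Idx) :
    X.n k - k.1 = a (X.x k) ∧ k.1 ≤ X.n k := by
  rw [H.n]
  simp

/-- the energy of the affine maps off `R` -/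
theorem off_le (H : ChX X C₂ εB M₀ r₀ b ε₃ c τ φ κ μ s nn c₀ a k₁ E₀ Eb r εD tolD I N')
    (hp : 1 ≤ p) {R : Set V}
    (hAct : ∀ k ∈ X.K, ∀ᵐ y, y ∈ deep v X.n (3 * X.c₀ k) k → am f F (X.x k) y ∉ X.Act → y ∈ R) :
    ∑' k : X.K, ‖cl (F (X.x k.1))‖ₑ ^ p * volume (dyc v k.1.1 k.1.2 \ R) ≤
      ENNReal.ofReal (2 * ε₃) * volume Ω + ENNReal.ofReal ε' := by
  have hΩ : IsOpen Ω := X.hΩ.1
  refine (toBx H).sum_off hΩ (n := X.n) (c₀ := X.c₀) (fun k hk => (n_sub H k).2) (fun k hk => ?_)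
    (fun k hk => ?_) (by linarith) (Act := X.Act) ?_ hAct
  · have := X.box k hk
    exact ⟨this.2.2.1.le, by linarith [this.2.2.2.1]⟩
  · rw [(n_sub H k).1, H.cc]
    obtain ⟨hE, -, -, -, -, e1, e2, -⟩ := nums H (X.x k)
    set y := X.x k with hy
    have h18 : (18 : ℝ) / 2 ^ a y ≤ 48 / 2 ^ a y := by gcongr; norm_num
    have h1 := (H.c₀1 y).1
    calc (18 / 2 ^ a y + 24 * c₀ y) * ‖cl (F y)‖ ^ p ≤ (48 / 2 ^ a y + 24 * c₀ y) * E₀ y := by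
          gcongr
          exact H.E₀Q y
      _ ≤ 2 * ε₃ := by linarith
  · refine le_trans (le_of_eq ?_) X.tg.cost
    refine tsum_congr fun k => ?_
    simp only [am_eq]

/-- **[SUMF-ERR]** -/
theorem err_of_chX (H : ChX X C₂ εB M₀ r₀ b ε₃ c τ φ κ μ s nn c₀ a k₁ E₀ Eb r εD tolD I N')
    (hp : 1 ≤ p) (hF : St.IsSobolev p Ω f F) (hεB : 0 ≤ εB) {C : ℝ} (hC : 0 < C) {g : V → V}
    {R : Set V} (hRm : MeasurableSet R) (hRΩ : R ⊆ Ω)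
    (hR : ∀ y ∈ R, ∃ k ∈ X.K, y ∈ deep v X.n (2 * X.c₀ k) k ∧
      ∀ j, ‖fderiv ℝ g y (ev j) - cl (F (X.x k)) (ev j)‖ ≤ C * ε' * ‖cl (F (X.x k))‖)
    (hAct : ∀ k ∈ X.K, ∀ᵐ y, y ∈ deep v X.n (3 * X.c₀ k) k → am f F (X.x k) y ∉ X.Act → y ∈ R)
    {T : ℝ≥0∞} {δ₅ : ℝ} (hδ₅ : 0 ≤ δ₅) (hT : T ≤ ENNReal.ofReal δ₅)
    (hen : ∫⁻ y in Ω \ R, ENNReal.ofReal (‖fderiv ℝ g y‖ ^ p) ≤ ENNReal.ofReal C *
      ((∑' q : {q : Idx // q ∈ X.I₁ \ X.S}, ENNReal.ofReal (X.Eq q.1) *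
        (cellT v X.I₁ univ X.H q.1 + nSq v X.I₁ q.1 * X.tol q.1)) + T + ENNReal.ofReal ε'))
    (i : Fin 3) :
    ∫⁻ y in Ω, ENNReal.ofReal (‖fderiv ℝ g y (ev i) - cl (F y) (ev i)‖ ^ p) ≤
      ENNReal.ofReal (errN p C C₂ (volume Ω).toReal (∫⁻ y in Ω, ‖cl (F y)‖ₑ ^ p).toReal
        εB ε₃ ε' δ₅) := by
  have hΩ : IsOpen Ω := X.hΩ.1
  have hvΩ : volume Ω ≠ ⊤ := PK.volume_ne_top_of_domain X.hΩ
  have hP0 : (0 : ℝ) < 2 ^ (p - 1) := by positivity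
  have hε₃ := H.ε₃0
  have hC₂ := H.C₂0
  have hε' := X.hε.1
  set m : ℝ := (volume Ω).toReal with hm
  have hm0 : 0 ≤ m := ENNReal.toReal_nonneg
  have hmv : volume Ω = ENNReal.ofReal m := (ENNReal.ofReal_toReal hvΩ).symm
  set i₀ : ℝ := (∫⁻ y in Ω, ‖cl (F y)‖ₑ ^ p).toReal with hi
  have hi0 : 0 ≤ i₀ := ENNReal.toReal_nonneg
  have hiv : ∫⁻ y in Ω, ‖cl (F y)‖ₑ ^ p = ENNReal.ofReal i₀ :=
    (ENNReal.ofReal_toReal (PK.IsSob.lintegral_ne_top hp hF)).symm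
  have hpas := pas_le H hp hF hεB
  rw [← hm] at hpas
  set a₁ : ℝ := 36 * C₂ * εB + (2 + (72 * 2 ^ (p - 1) + 1) * m) * ε₃ with ha₁
  have ha₁0 : 0 ≤ a₁ := by positivity
  have hen' : ∫⁻ y in Ω \ R, ENNReal.ofReal (‖fderiv ℝ g y‖ ^ p) ≤
      ENNReal.ofReal (C * (a₁ + δ₅ + ε')) := by
    refine hen.trans ?_
    calc ENNReal.ofReal C *
        ((∑' q : {q : Idx // q ∈ X.I₁ \ X.S}, ENNReal.ofReal (X.Eq q.1) *
          (cellT v X.I₁ univ X.H q.1 + nSq v X.I₁ q.1 * X.tol q.1)) + T + ENNReal.ofReal ε')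
        ≤ ENNReal.ofReal C * (ENNReal.ofReal a₁ + ENNReal.ofReal δ₅ + ENNReal.ofReal ε') := by
          gcongr
      _ = _ := by
          rw [← ENNReal.ofReal_add ha₁0 hδ₅, ← ENNReal.ofReal_add (by positivity) hε'.le,
            ← ENNReal.ofReal_mul hC.le]
  have hoff := off_le H hp hAct
  have h := (toBx H).err_le hp hΩ hF (D := fun k => deep v X.n (2 * X.c₀ k) k)
    (fun k hk => deep_sub_dyo v X.n (by linarith [(X.box k hk).2.2.1]) (n_sub H k).2)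
    (fun k hk => measurableSet_deep _ _ _ _) hRm hRΩ (δ := C * ε') (by positivity) hR
    (ε₁ := ENNReal.ofReal εB) (ε₂ := ENNReal.ofReal (2 * ε₃) * volume Ω + ENNReal.ofReal ε')
    (ε₃ := ENNReal.ofReal (C * (a₁ + δ₅ + ε'))) H.box.rest hoff hen' i
  refine h.trans (le_of_eq ?_)
  rw [two_rpow_ofReal, hmv, hiv]
  have hCp : 0 ≤ (C * ε') ^ p := by positivity
  rw [← ENNReal.ofReal_mul hε₃.le, ← ENNReal.ofReal_mul (by positivity : (0:ℝ) ≤ 2 * ε₃),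
    ← ENNReal.ofReal_add hi0 (by positivity), ← ENNReal.ofReal_mul hP0.le,
    ← ENNReal.ofReal_mul hCp, ← ENNReal.ofReal_add (by positivity) (by positivity),
    ← ENNReal.ofReal_mul hP0.le, ← ENNReal.ofReal_add (by positivity) hε'.le,
    ← ENNReal.ofReal_add (by positivity) (by positivity), ← ENNReal.ofReal_mul hP0.le,
    ← ENNReal.ofReal_add hεB (by positivity), ← ENNReal.ofReal_add (by positivity) (by positivity),
    ← ENNReal.ofReal_mul hP0.le, ← ENNReal.ofReal_add (by positivity) (by positivity)]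
  rfl

end

end Vale.Agent.P073.H950F
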