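import Vale.Agent.P073.H989.ChainEn
import Vale.Agent.P073.H911.FinalSum

/-!
# P073, block B09, [SUMF]: the error of the final map, from the result of the chain

* `pas_box`: the passive cubes of one box;
* `pas_le`: the passive cubes;
* `err_of_chX`: the error of the map of Round 2.
-/

open MeasureTheory Set Filter Topology Metric
open scoped ENNReal NNReal

namespace Vale.Agent.P073.H950F

open Vale.Agent.P073
open Vale.Agent.P073.St (V Mat)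
open Vale.Agent.P073.SQ (ev)
open Vale.Agent.P073.AB (Idx Part cl)
open Vale.Agent.P073.H194 (cellT Gen)
open Vale.Agent.P073.H696
open Vale.Agent.P073.H911
open Vale.Agent.P073.H234.Ch (ChX Q₁)
open Vale.Agent.P073.H851 (M3)
open _root_.P073 (ConHomeo)
open _root_.P073.Net (dyc dyo)

theorem two_rpow_ofReal (p : ℝ) : (2 : ℝ≥0∞) ^ (p - 1) = ENNReal.ofReal (2 ^ (p - 1)) := by
  rw [← ENNReal.ofReal_rpow_of_pos (by norm_num)]; norm_num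

/-- the passive cubes of one box -/
theorem pas_box {p ε M₀ : ℝ} {c : ℝ≥0∞} {τ φ κ μ : V → ℝ} {s : V → ℕ} {Ω Λ : Set V} {f : V → V}
    {F : V → Mat} {v : V} {nn : ℕ → ℕ} {K : Set Idx} {x : Idx → V}
    (B : Boxes p ε M₀ c τ φ κ μ s Ω Λ f F v nn K x) (hp : 1 ≤ p) (hF : St.IsSobolev p Ω f F)
    {k : Idx} (hk : k ∈ K) {n a : ℕ} (hn : n = k.1 + a) {Bk δ₂ ε₀ : ℝ} {tolD : ℝ≥0∞}
    (hB : 0 ≤ Bk) (hκ : 0 ≤ κ (x k)) (hδ₂ : 0 ≤ δ₂)
    (htol : ENNReal.ofReal Bk * tolD ≤ ENNReal.ofReal δ₂ * volume (dyc v k.1 k.2))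
    (hnum : 36 * 2 ^ (p - 1) * (Bk * (‖cl (F (x k))‖ ^ p * (24 / 2 ^ a) + κ (x k))) + δ₂ ≤ ε₀) :
    ENNReal.ofReal Bk * (36 * (∫⁻ y in dyc v k.1 k.2 \ blkS v k n, HF p Ω F y) + tolD) ≤
      ENNReal.ofReal ε₀ * volume (dyc v k.1 k.2) := by
  have hp0 : 0 ≤ p := by linarith
  have hmd : ∀ (m : ℕ) (z : Fin 3 → ℤ), MeasurableSet (dyc v m z) := fun m z => by
    rw [dyc_eq]; exact measurableSet_closedBall
  have hm : MeasurableSet (blkS v k n) :=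
    MeasurableSet.biUnion (to_countable _) fun _ _ => hmd _ _
  set W : ℝ≥0∞ := volume (dyc v k.1 k.2) with hW
  set N : ℝ := ‖cl (F (x k))‖ ^ p with hN
  have hN0 : 0 ≤ N := Real.rpow_nonneg (norm_nonneg _) _
  have hNe : ‖cl (F (x k))‖ₑ ^ p = ENNReal.ofReal N := by
    rw [← ofReal_norm, ENNReal.ofReal_rpow_of_nonneg (norm_nonneg _) hp0]
  have hP0 : (0 : ℝ) ≤ 2 ^ (p - 1) := by positivity
  have h1 : ∫⁻ y in dyc v k.1 k.2 \ blkS v k n, HF p Ω F y ≤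
      ENNReal.ofReal (2 ^ (p - 1) * (N * (24 / 2 ^ a) + κ (x k))) * W := by
    refine (int_HF_le B hp hF hk ((hmd _ _).diff hm) sdiff_subset).trans ?_
    calc ENNReal.ofReal (2 ^ (p - 1)) * (‖cl (F (x k))‖ₑ ^ p *
          volume (dyc v k.1 k.2 \ blkS v k n) + ENNReal.ofReal (κ (x k)) * W)
        ≤ ENNReal.ofReal (2 ^ (p - 1)) * (ENNReal.ofReal N *
          (ENNReal.ofReal (24 / 2 ^ a) * W) + ENNReal.ofReal (κ (x k)) * W) := by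
          rw [hNe]
          gcongr
          exact vol_blkS v hn
      _ = _ := by
          rw [ENNReal.ofReal_mul hP0, ENNReal.ofReal_add (by positivity) hκ,
            ENNReal.ofReal_mul hN0]
          ring
  calc ENNReal.ofReal Bk * (36 * (∫⁻ y in dyc v k.1 k.2 \ blkS v k n, HF p Ω F y) + tolD)
      = ENNReal.ofReal Bk * (36 * (∫⁻ y in dyc v k.1 k.2 \ blkS v k n, HF p Ω F y)) +
        ENNReal.ofReal Bk * tolD := by rw [mul_add]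
    _ ≤ ENNReal.ofReal Bk * (36 *
          (ENNReal.ofReal (2 ^ (p - 1) * (N * (24 / 2 ^ a) + κ (x k))) * W)) +
        ENNReal.ofReal δ₂ * W := by gcongr
    _ = (ENNReal.ofReal Bk * ENNReal.ofReal 36 *
          ENNReal.ofReal (2 ^ (p - 1) * (N * (24 / 2 ^ a) + κ (x k))) + ENNReal.ofReal δ₂) * W := by
          rw [show ENNReal.ofReal 36 = 36 by norm_num]
          ring
    _ = ENNReal.ofReal (36 * 2 ^ (p - 1) * (Bk * (N * (24 / 2 ^ a) + κ (x k))) + δ₂) * W := by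
          rw [← ENNReal.ofReal_mul hB, ← ENNReal.ofReal_mul (by positivity),
            ← ENNReal.ofReal_add (by positivity) hδ₂]
          congr 2
          ring
    _ ≤ _ := by gcongr

section

variable {p Cu : ℝ} {Lc : M3 → ℝ} {δ : ℝ} {j : ℕ} {ε' : ℝ} {Ω Λ : Set V} {f : V → V}
  {F : V → Mat} {v : V} {X : R2 p Cu Lc δ j ε' Ω Λ f F v} {C₂ εB M₀ r₀ b ε₃ : ℝ} {c : ℝ≥0∞}
  {τ φ κ μ : V → ℝ} {s : V → ℕ} {nn : ℕ → ℕ} {c₀ : V → ℝ} {a k₁ : V → ℕ} {E₀ Eb r : V → ℝ}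
  {εD : ℝ≥0∞} {tolD : Idx → ℝ≥0∞} {I : Set Idx} {N' : Idx → ℕ}

theorem nums (H : ChX X C₂ εB M₀ r₀ b ε₃ c τ φ κ μ s nn c₀ a k₁ E₀ Eb r εD tolD I N') (y : V) :
    0 ≤ E₀ y ∧ 0 ≤ Eb y ∧ Eb y * (‖cl (F y)‖ ^ p * (48 / 2 ^ a y)) ≤ ε₃ ∧
      Eb y * κ y ≤ ε₃ ∧ κ y ≤ ε₃ ∧ E₀ y * (24 * c₀ y) ≤ ε₃ ∧ E₀ y * (48 / 2 ^ a y) ≤ ε₃ ∧
      Eb y ≤ Q₁ p F E₀ Eb y := by
  have hE₀ : ∀ y, 0 ≤ E₀ y := fun y => (Real.rpow_nonneg (norm_nonneg _) _).trans (H.E₀Q y)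
  have h := H989.num_point (p := p) (F := F) (E₀ := E₀) (Eb := Eb) (y := y) (κ := κ y)
    (ε₃ := ε₃) (c₀ := c₀ y) (t := 48 / 2 ^ a y) (hE₀ y) (H.Eb0 y) (H.κQ y).1 (by positivity)
    (H.c₀1 y).1.le (H.cQ y) (H.aQ y) (H.κQ y).2
  exact ⟨hE₀ y, (hE₀ y).trans (H.Eb0 y), h.1, h.2.2.1, h.2.2.2.1, h.2.2.2.2.1, h.2.2.2.2.2.1,
    h.2.2.2.2.2.2⟩

theorem toBx (H : ChX X C₂ εB M₀ r₀ b ε₃ c τ φ κ μ s nn c₀ a k₁ E₀ Eb r εD tolD I N') :
    Bx p Ω F v X.K X.x (ENNReal.ofReal ε₃) where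
  sub := fun k hk => (H.box.pt k hk).2.1
  disj := H.box.disj
  leb := fun k hk => (H.box.leb k hk).trans
    (mul_le_mul_left (ENNReal.ofReal_le_ofReal (nums H _).2.2.2.2.1) _)

/-- **the passive cubes** -/
theorem pas_le (H : ChX X C₂ εB M₀ r₀ b ε₃ c τ φ κ μ s nn c₀ a k₁ E₀ Eb r εD tolD I N')
    (hp : 1 ≤ p) (hF : St.IsSobolev p Ω f F) (hεB : 0 ≤ εB) :
    ∑' q : {q : Idx // q ∈ X.I₁ \ X.S}, ENNReal.ofReal (X.Eq q.1) *
      (cellT v X.I₁ univ X.H q.1 + nSq v X.I₁ q.1 * X.tol q.1) ≤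
    ENNReal.ofReal (36 * C₂ * εB + (2 + (72 * 2 ^ (p - 1) + 1) * (volume Ω).toReal) * ε₃) := by
  have hΩ : IsOpen Ω := X.hΩ.1
  have hvΩ : volume Ω ≠ ⊤ := PK.volume_ne_top_of_domain X.hΩ
  have hP0 : (0 : ℝ) < 2 ^ (p - 1) := by positivity
  have hε₃ := H.ε₃0
  have hC₂ := H.C₂0
  set m : ℝ := (volume Ω).toReal with hm
  have hm0 : 0 ≤ m := ENNReal.toReal_nonneg
  have hmv : volume Ω = ENNReal.ofReal m := (ENNReal.ofReal_toReal hvΩ).symm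
  have B := toBx H
  have h1 := H523.sum_pas (k₁ := fun k => k₁ (X.x k)) H.dom.toDom X.tol H.Eq1 H.Eq2
  rw [← H.I₁, ← H.S] at h1
  rw [H.H]
  refine h1.trans ?_
  -- the part outside of the boxes
  have hmU : MeasurableSet (Ω \ ⋃ k ∈ X.K, dyc v k.1 k.2) := by
    refine hΩ.measurableSet.diff (MeasurableSet.biUnion (to_countable _) fun k _ => ?_)
    rw [dyc_eq]; exact measurableSet_closedBall
  have h2 : ∫⁻ y in Ω \ ⋃ k ∈ X.K, dyc v k.1 k.2, HF p Ω F y ≤ ENNReal.ofReal εB := by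
    refine le_trans (le_of_eq ?_) H.box.rest
    refine setLIntegral_congr_fun hmU fun y hy => ?_
    simp only [HF]
    rw [indicator_of_mem hy.1]
  -- the boxes
  have h3 : ∑' k : {k : Idx // k ∈ X.K}, ENNReal.ofReal (Eb (X.x k.1)) *
      (36 * (∫⁻ y in dyc v k.1.1 k.1.2 \ blkS v k.1 (X.n k.1), HF p Ω F y) + tolD k.1) ≤
      ENNReal.ofReal ((72 * 2 ^ (p - 1) + 1) * ε₃) * volume Ω := by
    refine le_trans (ENNReal.tsum_le_tsum fun k : {k : Idx // k ∈ X.K} =>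
      pas_box H.box hp hF k.2 (n := X.n k.1) (a := a (X.x k.1)) (by rw [H.n])
        (δ₂ := ε₃) (ε₀ := (72 * 2 ^ (p - 1) + 1) * ε₃)
        (nums H _).2.1 (H.κQ _).1.le hε₃.le ?_ ?_) ?_
    · refine le_trans ?_ (H.tolDQ k.1 k.2)
      gcongr
      exact (nums H _).2.2.2.2.2.2.2
    · obtain ⟨-, hEb, e1, e2, -⟩ := nums H (X.x k.1)
      set y := X.x k.1 with hy
      have hN : 0 ≤ ‖cl (F y)‖ ^ p := Real.rpow_nonneg (norm_nonneg _) _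
      have h24 : (24 : ℝ) / 2 ^ a y ≤ 48 / 2 ^ a y := by gcongr; norm_num
      have h4 : Eb y * (‖cl (F y)‖ ^ p * (24 / 2 ^ a y) + κ y) ≤ 2 * ε₃ := by
        have : Eb y * (‖cl (F y)‖ ^ p * (24 / 2 ^ a y)) ≤
          Eb y * (‖cl (F y)‖ ^ p * (48 / 2 ^ a y)) := by gcongr
        rw [mul_add]
        linarith
      calc 36 * 2 ^ (p - 1) * (Eb y * (‖cl (F y)‖ ^ p * (24 / 2 ^ a y) + κ y)) + ε₃
          ≤ 36 * 2 ^ (p - 1) * (2 * ε₃) + ε₃ := by gcongr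
        _ = (72 * 2 ^ (p - 1) + 1) * ε₃ := by ring
    · rw [ENNReal.tsum_mul_left]
      gcongr
      exact B.tsum_vol_le hΩ
  calc ENNReal.ofReal C₂ * (36 * (∫⁻ y in Ω \ ⋃ k ∈ X.K, dyc v k.1 k.2, HF p Ω F y) + εD) +
      (∑' k : {k : Idx // k ∈ X.K}, ENNReal.ofReal (Eb (X.x k.1)) *
        (36 * (∫⁻ y in dyc v k.1.1 k.1.2 \ blkS v k.1 (X.n k.1), HF p Ω F y) + tolD k.1)) +
      ∑' q : {q : Idx // q ∈ X.I₁ \ X.S}, ENNReal.ofReal (X.Eq q.1) *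
        (nSq v X.I₁ q.1 * X.tol q.1)
      ≤ ENNReal.ofReal C₂ * (36 * ENNReal.ofReal εB + εD) +
        ENNReal.ofReal ((72 * 2 ^ (p - 1) + 1) * ε₃) * volume Ω + ENNReal.ofReal ε₃ := by
        gcongr
        exact H.tolQ
    _ = ENNReal.ofReal C₂ * (ENNReal.ofReal 36 * ENNReal.ofReal εB) + ENNReal.ofReal C₂ * εD +
        ENNReal.ofReal ((72 * 2 ^ (p - 1) + 1) * ε₃) * ENNReal.ofReal m + ENNReal.ofReal ε₃ := by
        rw [mul_add, hmv, show ENNReal.ofReal 36 = 36 by norm_num]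
    _ ≤ ENNReal.ofReal C₂ * (ENNReal.ofReal 36 * ENNReal.ofReal εB) + ENNReal.ofReal ε₃ +
        ENNReal.ofReal ((72 * 2 ^ (p - 1) + 1) * ε₃) * ENNReal.ofReal m + ENNReal.ofReal ε₃ := by
        gcongr
        exact H.εDQ
    _ = _ := by
        rw [← ENNReal.ofReal_mul (by norm_num), ← ENNReal.ofReal_mul hC₂.le,
          ← ENNReal.ofReal_mul (by positivity), ← ENNReal.ofReal_add (by positivity) hε₃.le,
          ← ENNReal.ofReal_add (by positivity) (by positivity),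
          ← ENNReal.ofReal_add (by positivity) hε₃.le]
        congr 1
        ring

end

end Vale.Agent.P073.H950F
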