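import Vale.Agent.P073.H950.Pieces

/-!
# P073, H950: the radial ramps `ka` and the `ℓ¹` Lipschitz bound for nested domes

`ram m k` is the ramp of rank `k < m`: it goes from `-1` to `1` on the interval `[al m k, be m k]`;
the intervals of different ranks are disjoint.  If the functions `s c` are laminar, then the sum
over all `c` of the variations of `min (s c θ) (ram m (rk c) ρ)` is bounded by the variation of the
`s c` plus one ramp.
-/

open Set Metric Topology Filter

namespace P073.H950

/-! ### the ramps -/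

/-- the width of one ramp -/
noncomputable def uu (m : ℕ) : ℝ := 1 / (2 * m + 1)

theorem uu_pos (m : ℕ) : 0 < uu m := by unfold uu; positivity

theorem uu_mul (m : ℕ) : (2 * (m:ℝ) + 1) * uu m = 1 := by
  unfold uu
  field_simp

theorem uu_le_one (m : ℕ) : uu m ≤ 1 := by
  have := uu_mul m
  have h := uu_pos m
  nlinarith [(Nat.cast_nonneg m : (0:ℝ) ≤ m)]

/-- upper end of the ramp of rank `k` -/
noncomputable def be (m k : ℕ) : ℝ := 1 - (2 * k + 1) * uu m

/-- lower end of the ramp of rank `k` -/
noncomputable def al (m k : ℕ) : ℝ := be m k - uu m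

theorem al_lt_be (m k : ℕ) : al m k < be m k := by unfold al; linarith [uu_pos m]

theorem be_lt_one (m k : ℕ) : be m k < 1 := by
  unfold be
  have : 0 < (2 * (k:ℝ) + 1) * uu m := by have := uu_pos m; positivity
  linarith

theorem be_add_le_al {m k k' : ℕ} (h : k < k') : be m k' + uu m ≤ al m k := by
  unfold al be
  have h1 : (k:ℝ) + 1 ≤ k' := by exact_mod_cast h
  have h2 := uu_pos m
  nlinarith

theorem uu_le_al {m k : ℕ} (h : k < m) : uu m ≤ al m k := by
  unfold al be
  have h1 : (k:ℝ) + 1 ≤ m := by exact_mod_cast h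
  have h2 := uu_pos m
  have h3 := uu_mul m
  nlinarith

/-- the ramp of rank `k` -/
noncomputable def ram (m k : ℕ) (ρ : ℝ) : ℝ :=
  max (-1) (min 1 (2 * ((ρ - al m k) / uu m) - 1))

theorem neg_one_le_ram (m k : ℕ) (ρ : ℝ) : -1 ≤ ram m k ρ := le_max_left _ _

theorem ram_le_one (m k : ℕ) (ρ : ℝ) : ram m k ρ ≤ 1 :=
  max_le (by norm_num) (min_le_left _ _)

theorem ram_of_le {m k : ℕ} {ρ : ℝ} (h : ρ ≤ al m k) : ram m k ρ = -1 := by
  have h1 : (ρ - al m k) / uu m ≤ 0 := div_nonpos_of_nonpos_of_nonneg (by linarith) (uu_pos m).le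
  unfold ram
  exact max_eq_left ((min_le_right _ _).trans (by linarith))

theorem ram_of_ge {m k : ℕ} {ρ : ℝ} (h : be m k ≤ ρ) : ram m k ρ = 1 := by
  have h1 : 1 ≤ (ρ - al m k) / uu m := by
    rw [le_div_iff₀ (uu_pos m)]
    unfold al
    linarith
  unfold ram
  rw [min_eq_left (by linarith)]
  norm_num

theorem ram_lt_one {m k : ℕ} {ρ : ℝ} (h : ram m k ρ < 1) : ρ < be m k := by
  by_contra h1
  exact absurd (ram_of_ge (not_lt.1 h1)) h.ne

theorem continuous_ram (m k : ℕ) : Continuous (ram m k) := by
  unfold ram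
  have := (uu_pos m).ne'
  fun_prop

theorem ram_mono (m k : ℕ) : Monotone (ram m k) := by
  intro x y hxy
  unfold ram
  have h := uu_pos m
  gcongr

/-- clip to `[0,u]` -/
noncomputable def clp (u x : ℝ) : ℝ := max 0 (min u x)

theorem ram_eq (m k : ℕ) (ρ : ℝ) : ram m k ρ = 2 * (clp (uu m) (ρ - al m k) / uu m) - 1 := by
  have h := uu_pos m
  unfold ram clp
  have h1 : max 0 (min (uu m) (ρ - al m k)) / uu m = max 0 (min 1 ((ρ - al m k) / uu m)) := by
    rw [← max_div_div_right h.le, zero_div, ← min_div_div_right h.le, div_self h.ne']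
  rw [h1]
  rcases le_total ((ρ - al m k) / uu m) 0 with h2 | h2
  · rw [min_eq_right (by linarith), min_eq_right (by linarith), max_eq_left (by linarith),
      max_eq_left h2]
    norm_num
  · rcases le_total ((ρ - al m k) / uu m) 1 with h3 | h3
    · rw [min_eq_right (by linarith), min_eq_right (by linarith), max_eq_right (by linarith),
        max_eq_right h2]
    · rw [min_eq_left (by linarith), min_eq_left (by linarith), max_eq_right (by linarith),
        max_eq_right (by linarith)]
      norm_num

theorem clp_add_max {u b t : ℝ} (hu : 0 ≤ u) : clp u (t - b) + max t (b + u) = max t b + u := by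
  unfold clp
  rcases le_total t b with h | h
  · rw [min_eq_right (by linarith), max_eq_left (by linarith), max_eq_right (by linarith),
      max_eq_right h]
    ring
  · rcases le_total t (b + u) with h1 | h1
    · rw [min_eq_right (by linarith), max_eq_right (by linarith), max_eq_right h1,
        max_eq_left h]
      ring
    · rw [min_eq_left (by linarith), max_eq_right hu, max_eq_left h1, max_eq_left h]
      ring

theorem max_sub_max_mono {x y b d : ℝ} (hxy : x ≤ y) (hd : d ≤ b) :
    max y b - max x b ≤ max y d - max x d := by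
  rcases le_total x b with h | h
  · rw [max_eq_right h]
    rcases le_total y b with h1 | h1
    · rw [max_eq_right h1]
      have : max x d ≤ max y d := max_le_max_right d hxy
      linarith
    · rw [max_eq_left h1, max_eq_left (hd.trans h1)]
      have : max x d ≤ b := max_le h hd
      linarith
  · rw [max_eq_left h, max_eq_left (h.trans hxy), max_eq_left (hd.trans h),
      max_eq_left ((hd.trans h).trans hxy)]

theorem sum_clp_le {u : ℝ} (hu : 0 ≤ u) {a : ℕ → ℝ} (ha : ∀ k, a (k + 1) + u ≤ a k) {x y : ℝ}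
    (hxy : x ≤ y) (n : ℕ) :
    ∑ k ∈ Finset.range n, (clp u (y - a k) - clp u (x - a k))
      ≤ max y (a n + u) - max x (a n + u) := by
  induction n with
  | zero =>
    simp only [Finset.range_zero, Finset.sum_empty, sub_nonneg]
    exact max_le_max_right _ hxy
  | succ n ih =>
    rw [Finset.sum_range_succ]
    have h1 := clp_add_max (u := u) (b := a n) (t := y) hu
    have h2 := clp_add_max (u := u) (b := a n) (t := x) hu
    have h3 := max_sub_max_mono hxy (ha n)
    linarith

theorem al_succ (m k : ℕ) : al m (k + 1) + uu m ≤ al m k := by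
  have := be_add_le_al (m := m) (Nat.lt_succ_self k)
  have h := uu_pos m
  unfold al at *
  linarith

/-- **the ramps of different ranks vary one after the other** -/
theorem sum_ram_le {J : Type*} [Fintype J] {m : ℕ} {rk : J → ℕ} (hinj : Function.Injective rk)
    (x y : ℝ) : ∑ c, |ram m (rk c) x - ram m (rk c) y| ≤ 2 * (2 * m + 1) * |x - y| := by
  wlog hxy : x ≤ y generalizing x y
  · have := this y x (le_of_not_ge hxy)
    simp only [abs_sub_comm x y, abs_sub_comm (ram m _ x)]
    exact this
  classical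
  obtain ⟨n, hn⟩ : ∃ n, ∀ c, rk c < n := by
    refine ⟨(Finset.univ.sup rk) + 1, fun c => Nat.lt_succ_of_le (Finset.le_sup (Finset.mem_univ c))⟩
  have hu := uu_pos m
  have h0 : ∀ c, |ram m (rk c) x - ram m (rk c) y|
      = 2 * (2 * m + 1) * (clp (uu m) (y - al m (rk c)) - clp (uu m) (x - al m (rk c))) := by
    intro c
    rw [abs_sub_comm, abs_of_nonneg (sub_nonneg.2 (ram_mono m (rk c) hxy)), ram_eq, ram_eq]
    have : ∀ z : ℝ, z / uu m = (2 * m + 1) * z := by
      intro z
      rw [div_eq_iff hu.ne']
      linear_combination -z * uu_mul m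
    rw [this, this]
    ring
  rw [Finset.sum_congr rfl fun c _ => h0 c, ← Finset.mul_sum]
  have h1 : ∑ c, (clp (uu m) (y - al m (rk c)) - clp (uu m) (x - al m (rk c)))
      = ∑ k ∈ Finset.univ.image rk, (clp (uu m) (y - al m k) - clp (uu m) (x - al m k)) := by
    rw [Finset.sum_image fun _ _ _ _ h => hinj h]
  have hpos : ∀ k, 0 ≤ clp (uu m) (y - al m k) - clp (uu m) (x - al m k) := by
    intro k
    rw [sub_nonneg]
    unfold clp
    gcongr
  have h2 : ∑ k ∈ Finset.univ.image rk, (clp (uu m) (y - al m k) - clp (uu m) (x - al m k))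
      ≤ ∑ k ∈ Finset.range n, (clp (uu m) (y - al m k) - clp (uu m) (x - al m k)) := by
    refine Finset.sum_le_sum_of_subset_of_nonneg ?_ fun k _ _ => hpos k
    intro k hk
    obtain ⟨c, -, rfl⟩ := Finset.mem_image.1 hk
    exact Finset.mem_range.2 (hn c)
  have h3 := sum_clp_le hu.le (a := al m) (al_succ m) hxy n
  have h4 : max y (al m n + uu m) - max x (al m n + uu m) ≤ y - x := by
    rcases le_total x (al m n + uu m) with h | h
    · rw [max_eq_right h]
      rcases le_total y (al m n + uu m) with h' | h'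
      · rw [max_eq_right h']; linarith
      · rw [max_eq_left h']; linarith
    · rw [max_eq_left h, max_eq_left (h.trans hxy)]
  have h5 : |x - y| = y - x := by rw [abs_sub_comm, abs_of_nonneg (by linarith)]
  rw [h1, h5]
  have : (0:ℝ) ≤ 2 * (2 * m + 1) := by positivity
  exact mul_le_mul_of_nonneg_left (h2.trans (h3.trans h4)) this

/-! ### `ℓ¹` version of the pieces lemma -/

theorem sum_abs_le_of_pieces {E : Type*} [NormedAddCommGroup E] [NormedSpace ℝ E] {J : Type*}
    [Fintype J] {Q : Set E} (hQ : Convex ℝ Q) {ι : Type*} [Finite ι] {P : ι → Set E}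
    (hP : ∀ i, IsClosed (P i)) (hcov : Q ⊆ ⋃ i, P i) {f : J → E → ℝ} {K : ℝ}
    (hf : ∀ i, ∀ x ∈ Q, x ∈ P i → ∀ y ∈ Q, y ∈ P i → ∑ c, |f c x - f c y| ≤ K * dist x y)
    {x y : E} (hx : x ∈ Q) (hy : y ∈ Q) : ∑ c, |f c x - f c y| ≤ K * dist x y := by
  set σ : J → ℝ := fun c => if 0 ≤ f c x - f c y then 1 else -1 with hσ
  have hσ1 : ∀ c, |σ c| = 1 := by
    intro c
    simp only [hσ]
    split_ifs <;> simp
  have h1 : ∑ c, |f c x - f c y| = (∑ c, σ c * f c x) - ∑ c, σ c * f c y := by
    rw [← Finset.sum_sub_distrib]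
    refine Finset.sum_congr rfl fun c _ => ?_
    simp only [hσ]
    split_ifs with h
    · rw [abs_of_nonneg h]; ring
    · rw [abs_of_neg (not_le.1 h)]; ring
  rw [h1]
  have := dist_le_of_pieces hQ hP hcov (f := fun z => ∑ c, σ c * f c z) (K := K) (by
    intro i a ha hai b hb hbi
    refine le_trans ?_ (hf i a ha hai b hb hbi)
    rw [Real.dist_eq, ← Finset.sum_sub_distrib]
    refine (Finset.abs_sum_le_sum_abs _ _).trans (Finset.sum_le_sum fun c _ => ?_)
    rw [← mul_sub, abs_mul, hσ1, one_mul]) hx hy
  rw [Real.dist_eq] at this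
  exact (le_abs_self _).trans this

end P073.H950
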