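import Vale.Agent.P073.H950.Cube

/-!
# P073, H950: volume of a sector of the shell of a cube

The part of the shell of a cube of side `2 r` over the part `F` of a face has volume at most
`r` times the area of `F`.
-/

open Set Metric Topology Filter MeasureTheory
open scoped ENNReal NNReal

namespace P073.H950

open P073

theorem abs_annR_sub_le (s v v' : ℝ) : |annR s v - annR s v'| ≤ |v - v'| := by
  unfold annR
  have h1 := abs_min_sub_min_le_max (v + (1 - s)) (max (v / 2) (v - (1 - s)))
    (v' + (1 - s)) (max (v' / 2) (v' - (1 - s)))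
  have h2 := abs_max_sub_max_le_max (v / 2) (v - (1 - s)) (v' / 2) (v' - (1 - s))
  have h3 : |v + (1 - s) - (v' + (1 - s))| = |v - v'| := by congr 1; ring
  have h4 : |v - (1 - s) - (v' - (1 - s))| = |v - v'| := by congr 1; ring
  have h5 : |v / 2 - v' / 2| ≤ |v - v'| := by
    rw [← sub_div, abs_div, abs_of_pos (by norm_num : (0:ℝ) < 2)]
    have := abs_nonneg (v - v')
    linarith
  rw [h4] at h2
  rw [h3] at h1
  exact h1.trans (max_le le_rfl (h2.trans (max_le h5 le_rfl)))

/-- `1`-Lipschitz images do not increase the volume -/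
theorem volume_image_le {n : ℕ} {f : (Fin n → ℝ) → (Fin n → ℝ)} (hf : LipschitzWith 1 f)
    (s : Set (Fin n → ℝ)) : volume (f '' s) ≤ volume s := by
  have h := hf.hausdorffMeasure_image_le (d := (Fintype.card (Fin n) : ℝ)) (by positivity) s
  rw [hausdorffMeasure_pi_real] at h
  simpa using h

theorem lipschitz_annR (n : ℕ) (s : ℝ) :
    LipschitzWith 1 (fun (y : Fin n → ℝ) i => annR s (y i)) := by
  refine LipschitzWith.of_dist_le_mul fun x y => ?_
  rw [NNReal.coe_one, one_mul, dist_pi_le_iff dist_nonneg]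
  intro i
  rw [Real.dist_eq]
  refine (abs_annR_sub_le _ _ _).trans ?_
  rw [← Real.dist_eq]
  exact dist_le_pi_dist x y i

theorem continuous_annI' {X : Type*} [TopologicalSpace X] {f g : X → ℝ} (hf : Continuous f)
    (hg : Continuous g) : Continuous fun x => annI (f x) (g x) := by
  unfold annI
  fun_prop

/-- the coordinates of a point over the face `θ k = σ` -/
theorem coord_sector {n : ℕ} {k : Fin (n + 1)} {σ : ℝ} (hσ : σ = 1 ∨ σ = -1)
    {x : Fin (n + 1) → ℝ} (hx : ‖x‖ ∈ Icc (1 / 2 : ℝ) 1)
    (hk : annI ‖x‖ (x k) = σ) : x k = σ * ‖x‖ := by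
  have h1 := annR_annI hx.2 (x k)
  rw [hk] at h1
  rcases hσ with rfl | rfl
  · rw [annR_eq_one hx] at h1; rw [← h1, one_mul]
  · rw [annR_eq_neg_one hx] at h1; rw [← h1]; ring

/-- **Volume of a sector of the standard shell.** -/
theorem volume_sector_le {n : ℕ} (k : Fin (n + 1)) {σ : ℝ} (hσ : σ = 1 ∨ σ = -1)
    {F : Set (Fin (n + 1) → ℝ)} (hF : IsClosed F) (hFk : ∀ x ∈ F, x k = σ) :
    volume {x : Fin (n + 1) → ℝ | ‖x‖ ∈ Icc (1 / 2 : ℝ) 1 ∧ (fun i => annI ‖x‖ (x i)) ∈ F}
      ≤ ENNReal.ofReal (1 / 2) * volume {y : Fin n → ℝ | k.insertNth (α := fun _ => ℝ) σ y ∈ F} := by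
  set A : Set (Fin (n + 1) → ℝ) :=
    {x | ‖x‖ ∈ Icc (1 / 2 : ℝ) 1 ∧ (fun i => annI ‖x‖ (x i)) ∈ F} with hA
  set F' : Set (Fin n → ℝ) := {y | k.insertNth (α := fun _ => ℝ) σ y ∈ F} with hF'
  have hAc : IsClosed A := by
    refine (isClosed_Icc.preimage continuous_norm).inter (hF.preimage ?_)
    exact continuous_pi fun i => continuous_annI' continuous_norm (continuous_apply i)
  let e := MeasurableEquiv.piFinSuccAbove (fun _ : Fin (n + 1) => ℝ) k
  have he : MeasurePreserving e.symm (volume.prod volume) volume :=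
    (volume_preserving_piFinSuccAbove (fun _ : Fin (n + 1) => ℝ) k).symm e
  have h1 : volume A = (volume.prod volume) (e.symm ⁻¹' A) :=
    (he.measure_preimage hAc.measurableSet.nullMeasurableSet).symm
  have hm : MeasurableSet (e.symm ⁻¹' A) := e.symm.measurable hAc.measurableSet
  rw [h1, Measure.prod_apply hm]
  have h2 : ∀ t : ℝ, volume (Prod.mk t ⁻¹' (e.symm ⁻¹' A))
      ≤ (Icc (1 / 2 : ℝ) 1).indicator (fun _ => volume F') (σ * t) := by
    intro t
    by_cases ht : σ * t ∈ Icc (1 / 2 : ℝ) 1
    · rw [indicator_of_mem ht]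
      refine (measure_mono ?_).trans (volume_image_le (lipschitz_annR n |t|) F')
      intro y hy
      have hy : e.symm (t, y) ∈ A := hy
      have hx : e.symm (t, y) = k.insertNth (α := fun _ => ℝ) t y := rfl
      rw [hx] at hy
      set x : Fin (n + 1) → ℝ := k.insertNth (α := fun _ => ℝ) t y with hxd
      have hxk : x k = t := Fin.insertNth_apply_same (α := fun _ => ℝ) k t y
      have hxj : ∀ j, x (k.succAbove j) = y j := fun j =>
        Fin.insertNth_apply_succAbove (α := fun _ => ℝ) k t y j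
      obtain ⟨h3, h4⟩ := hy
      have h5 : annI ‖x‖ (x k) = σ := hFk _ h4
      have h6 := coord_sector hσ h3 h5
      have h7 : ‖x‖ = |t| := by
        rw [hxk] at h6
        rw [h6, abs_mul]
        rcases hσ with rfl | rfl <;> simp
      refine ⟨fun j => annI ‖x‖ (y j), ?_, ?_⟩
      · show k.insertNth (α := fun _ => ℝ) σ (fun j => annI ‖x‖ (y j)) ∈ F
        convert h4 using 1
        funext i
        rcases Fin.eq_self_or_eq_succAbove k i with rfl | ⟨j, rfl⟩
        · rw [h5]; exact Fin.insertNth_apply_same (α := fun _ => ℝ) i σ _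
        · rw [hxj]; exact Fin.insertNth_apply_succAbove (α := fun _ => ℝ) k σ _ j
      · funext j
        show annR |t| (annI ‖x‖ (y j)) = y j
        rw [← h7, annR_annI h3.2]
    · rw [indicator_of_notMem ht]
      refine le_of_eq (measure_mono_null ?_ measure_empty)
      intro y hy
      have hy : e.symm (t, y) ∈ A := hy
      have hx : e.symm (t, y) = k.insertNth (α := fun _ => ℝ) t y := rfl
      rw [hx] at hy
      have hxk : (k.insertNth (α := fun _ => ℝ) t y : Fin (n + 1) → ℝ) k = t :=
        Fin.insertNth_apply_same (α := fun _ => ℝ) k t y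
      obtain ⟨h3, h4⟩ := hy
      have h5 := coord_sector hσ h3 (hFk _ h4)
      rw [hxk] at h5
      refine ht ?_
      rw [h5, ← mul_assoc]
      rcases hσ with rfl | rfl
      · simpa using h3
      · simpa using h3
  refine (lintegral_mono h2).trans ?_
  have h3 : ∫⁻ t : ℝ, (Icc (1 / 2 : ℝ) 1).indicator (fun _ => volume F') (σ * t)
      = ∫⁻ t : ℝ, ((fun t => σ * t) ⁻¹' (Icc (1 / 2 : ℝ) 1)).indicator (fun _ => volume F') t := rfl
  rw [h3, lintegral_indicator_const]
  · rw [mul_comm]
    gcongr
    rcases hσ with rfl | rfl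
    · simp only [one_mul, preimage_id', Real.volume_Icc]
      exact ENNReal.ofReal_le_ofReal (by norm_num)
    · have : (fun t : ℝ => -1 * t) ⁻¹' Icc (1 / 2 : ℝ) 1 = Icc (-1) (-(1 / 2)) := by
        ext t
        simp only [mem_preimage, mem_Icc]
        constructor
        · rintro ⟨a, b⟩; exact ⟨by linarith, by linarith⟩
        · rintro ⟨a, b⟩; exact ⟨by linarith, by linarith⟩
      rw [this, Real.volume_Icc]
      exact ENNReal.ofReal_le_ofReal (by norm_num)
  · exact measurableSet_Icc.preimage (by fun_prop)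

end P073.H950
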