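import Vale.Agent.P073.H950.Sector

/-!
# P073, H950: integral of a function of the angular coordinate over the shell of a cube
-/

open Set Metric Topology Filter MeasureTheory
open scoped ENNReal NNReal

namespace P073.H950

open P073

/-- the angular coordinate in the standard shell -/
noncomputable def angS {n : ℕ} (x : Fin n → ℝ) : Fin n → ℝ := fun i => annI ‖x‖ (x i)

theorem continuous_angS {n : ℕ} : Continuous (angS (n := n)) :=
  continuous_pi fun i => continuous_annI' continuous_norm (continuous_apply i)

/-- a map with a `1`-Lipschitz left inverse does not decrease volumes -/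
theorem map_restrict_le {n : ℕ} {g f : (Fin n → ℝ) → (Fin n → ℝ)} (hg : Measurable g)
    (hf : LipschitzWith 1 f) {S T : Set (Fin n → ℝ)} (hS : MeasurableSet S)
    (hfg : ∀ y ∈ S, f (g y) = y) (hgT : MapsTo g S T) (hT : MeasurableSet T) :
    (volume.restrict S).map g ≤ volume.restrict T := by
  rw [Measure.le_iff]
  intro B hB
  rw [Measure.map_apply hg hB, Measure.restrict_apply (hg hB), Measure.restrict_apply hB]
  refine (measure_mono ?_).trans (volume_image_le hf (B ∩ T))
  rintro y ⟨hy, hyS⟩
  exact ⟨g y, ⟨hy, hgT hyS⟩, hfg y hyS⟩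

theorem lintegral_piFinSuccAbove {n : ℕ} (k : Fin (n + 1)) {f : (Fin (n + 1) → ℝ) → ℝ≥0∞}
    (hf : Measurable f) :
    ∫⁻ x, f x = ∫⁻ t : ℝ, ∫⁻ y : Fin n → ℝ, f (k.insertNth (α := fun _ => ℝ) t y) := by
  let e := MeasurableEquiv.piFinSuccAbove (fun _ : Fin (n + 1) => ℝ) k
  have he : MeasurePreserving e.symm (volume.prod volume) volume :=
    (volume_preserving_piFinSuccAbove (fun _ : Fin (n + 1) => ℝ) k).symm e
  have h2 : Measurable fun p : ℝ × (Fin n → ℝ) => f (e.symm p) := hf.comp e.symm.measurable
  rw [← he.lintegral_comp hf, lintegral_prod _ h2.aemeasurable]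
  rfl

/-- one side -/
theorem lintegral_side_le {n : ℕ} (k : Fin (n + 1)) {σ : ℝ} (hσ : σ = 1 ∨ σ = -1)
    {H : (Fin (n + 1) → ℝ) → ℝ≥0∞} (hH : Measurable H) :
    ∫⁻ x in {x : Fin (n + 1) → ℝ | ‖x‖ ∈ Icc (1 / 2 : ℝ) 1 ∧ annI ‖x‖ (x k) = σ}, H (angS x)
      ≤ ∫⁻ x in closedBall (Pi.single k σ : Fin (n + 1) → ℝ) 1, H (Function.update x k σ) := by
  set A : Set (Fin (n + 1) → ℝ) := {x | ‖x‖ ∈ Icc (1 / 2 : ℝ) 1 ∧ annI ‖x‖ (x k) = σ} with hA
  have hAc : IsClosed A := by
    refine (isClosed_Icc.preimage continuous_norm).inter ?_
    exact isClosed_singleton.preimage (continuous_annI' continuous_norm (continuous_apply k))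
  have hAm := hAc.measurableSet
  have hupd : Measurable fun x : Fin (n + 1) → ℝ => Function.update x k σ := by
    refine measurable_pi_iff.2 fun i => ?_
    by_cases h : i = k
    · subst h; simp only [Function.update_self]; exact measurable_const
    · simp only [Function.update_of_ne h]; exact measurable_pi_apply i
  set I : ℝ≥0∞ := ∫⁻ y in closedBall (0 : Fin n → ℝ) 1, H (k.insertNth (α := fun _ => ℝ) σ y)
    with hI
  have hins : Measurable fun y : Fin n → ℝ => (k.insertNth (α := fun _ => ℝ) σ y) := by
    refine measurable_pi_iff.2 fun i => ?_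
    rcases Fin.eq_self_or_eq_succAbove k i with rfl | ⟨j, rfl⟩
    · simp only [Fin.insertNth_apply_same]; exact measurable_const
    · simp only [Fin.insertNth_apply_succAbove]; exact measurable_pi_apply j
  -- left side
  have hL : ∫⁻ x in A, H (angS x) ≤ ∫⁻ t : ℝ, {t : ℝ | σ * t ∈ Icc (1 / 2 : ℝ) 1}.indicator
      (fun _ => I) t := by
    have hm1 : Measurable (A.indicator fun x => H (angS x)) :=
      (hH.comp continuous_angS.measurable).indicator hAm
    rw [← lintegral_indicator hAm, lintegral_piFinSuccAbove k hm1]
    refine lintegral_mono fun t => ?_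
    have hxk : ∀ y : Fin n → ℝ, (k.insertNth (α := fun _ => ℝ) t y : Fin (n + 1) → ℝ) k = t :=
      fun y => Fin.insertNth_apply_same (α := fun _ => ℝ) k t y
    have hxj : ∀ (y : Fin n → ℝ) j,
        (k.insertNth (α := fun _ => ℝ) t y : Fin (n + 1) → ℝ) (k.succAbove j) = y j := fun y j =>
      Fin.insertNth_apply_succAbove (α := fun _ => ℝ) k t y j
    by_cases ht : σ * t ∈ Icc (1 / 2 : ℝ) 1
    · rw [indicator_of_mem (show t ∈ {t : ℝ | σ * t ∈ Icc (1 / 2 : ℝ) 1} from ht)]
      have hst : |t| = σ * t := by
        have h0 : 0 ≤ σ * t := by linarith [ht.1]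
        rw [← abs_of_nonneg h0, abs_mul]
        rcases hσ with rfl | rfl <;> simp
      have hs : |t| ∈ Icc (1 / 2 : ℝ) 1 := by rw [hst]; exact ht
      set g : (Fin n → ℝ) → (Fin n → ℝ) := fun y j => annI |t| (y j) with hg
      have hgm : Measurable g := by
        refine (Continuous.measurable ?_)
        exact continuous_pi fun j => continuous_annI' continuous_const (continuous_apply j)
      have hle := map_restrict_le (S := closedBall (0 : Fin n → ℝ) |t|) (T := closedBall 0 1) hgm
        (lipschitz_annR n |t|) isClosed_closedBall.measurableSet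
        (fun y _ => by
          funext j
          exact annR_annI hs.2 (y j))
        (fun y hy => by
          rw [mem_closedBall_zero_iff] at hy ⊢
          rw [pi_norm_le_iff_of_nonneg zero_le_one]
          intro j
          exact abs_annI_le hs ((norm_le_pi_norm y j).trans hy))
        isClosed_closedBall.measurableSet
      calc ∫⁻ y : Fin n → ℝ, A.indicator (fun x => H (angS x)) (k.insertNth (α := fun _ => ℝ) t y)
          ≤ ∫⁻ y in closedBall (0 : Fin n → ℝ) |t|, H (k.insertNth (α := fun _ => ℝ) σ (g y)) := by
            rw [← lintegral_indicator isClosed_closedBall.measurableSet]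
            refine lintegral_mono fun y => ?_
            by_cases hy : k.insertNth (α := fun _ => ℝ) t y ∈ A
            · rw [indicator_of_mem hy]
              obtain ⟨h3, h4⟩ := hy
              have h6 := coord_sector hσ h3 h4
              have h7 : ‖(k.insertNth (α := fun _ => ℝ) t y : Fin (n + 1) → ℝ)‖ = |t| := by
                rw [hxk] at h6
                have h9 := congrArg (fun r : ℝ => |r|) h6
                simp only [abs_mul, abs_norm] at h9
                have h10 : |σ| = 1 := by rcases hσ with rfl | rfl <;> simp
                rw [h10, one_mul] at h9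
                exact h9.symm
              have h8 : y ∈ closedBall (0 : Fin n → ℝ) |t| := by
                rw [mem_closedBall_zero_iff, pi_norm_le_iff_of_nonneg (abs_nonneg t)]
                intro j
                rw [← h7, ← hxj y j]
                exact norm_le_pi_norm (k.insertNth (α := fun _ => ℝ) t y : Fin (n + 1) → ℝ) _
              rw [indicator_of_mem h8]
              refine le_of_eq ?_
              show H (angS (k.insertNth (α := fun _ => ℝ) t y)) = _
              congr 1
              funext i
              show annI ‖(k.insertNth (α := fun _ => ℝ) t y : Fin (n + 1) → ℝ)‖ _ = _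
              rcases Fin.eq_self_or_eq_succAbove k i with rfl | ⟨j, rfl⟩
              · rw [h4]; exact (Fin.insertNth_apply_same (α := fun _ => ℝ) i σ (g y)).symm
              · rw [hxj, h7]
                exact (Fin.insertNth_apply_succAbove (α := fun _ => ℝ) k σ (g y) j).symm
            · rw [indicator_of_notMem hy]; exact zero_le
        _ = ∫⁻ y, H (k.insertNth (α := fun _ => ℝ) σ y)
              ∂((volume.restrict (closedBall (0 : Fin n → ℝ) |t|)).map g) := by
            have hm3 : Measurable fun y : Fin n → ℝ => H (k.insertNth (α := fun _ => ℝ) σ y) :=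
              hH.comp hins
            rw [lintegral_map hm3 hgm]
        _ ≤ I := lintegral_mono' hle le_rfl
    · rw [indicator_of_notMem (show t ∉ {t : ℝ | σ * t ∈ Icc (1 / 2 : ℝ) 1} from ht)]
      refine le_of_eq ?_
      rw [lintegral_eq_zero_iff' ?_]
      · refine Eventually.of_forall fun y => ?_
        refine indicator_of_notMem (fun hy => ht ?_) _
        obtain ⟨h3, h4⟩ := hy
        have h5 := coord_sector hσ h3 h4
        rw [hxk] at h5
        rw [h5, ← mul_assoc]
        rcases hσ with rfl | rfl
        · simpa using h3
        · simpa using h3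
      · refine (hm1.comp ?_).aemeasurable
        refine measurable_pi_iff.2 fun i => ?_
        rcases Fin.eq_self_or_eq_succAbove k i with rfl | ⟨j, rfl⟩
        · simp only [Fin.insertNth_apply_same]; exact measurable_const
        · simp only [Fin.insertNth_apply_succAbove]; exact measurable_pi_apply j
  -- right side
  have hR : ∫⁻ x in closedBall (Pi.single k σ : Fin (n + 1) → ℝ) 1, H (Function.update x k σ)
      = ∫⁻ t : ℝ, {t : ℝ | |t - σ| ≤ 1}.indicator (fun _ => I) t := by
    have hm2 : Measurable ((closedBall (Pi.single k σ : Fin (n + 1) → ℝ) 1).indicator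
        fun x => H (Function.update x k σ)) :=
      (hH.comp hupd).indicator isClosed_closedBall.measurableSet
    rw [← lintegral_indicator isClosed_closedBall.measurableSet, lintegral_piFinSuccAbove k hm2]
    refine lintegral_congr fun t => ?_
    have hmem : ∀ y : Fin n → ℝ, k.insertNth (α := fun _ => ℝ) t y ∈
        closedBall (Pi.single k σ : Fin (n + 1) → ℝ) 1 ↔
        |t - σ| ≤ 1 ∧ y ∈ closedBall (0 : Fin n → ℝ) 1 := by
      intro y
      rw [mem_closedBall_iff_norm, pi_norm_le_iff_of_nonneg zero_le_one, mem_closedBall_zero_iff,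
        pi_norm_le_iff_of_nonneg zero_le_one]
      constructor
      · intro h
        constructor
        · have := h k
          rw [Pi.sub_apply, Pi.single_eq_same, Fin.insertNth_apply_same] at this
          exact this
        · intro j
          have := h (k.succAbove j)
          rw [Pi.sub_apply, Pi.single_eq_of_ne (Fin.succAbove_ne k j), sub_zero,
            Fin.insertNth_apply_succAbove] at this
          exact this
      · rintro ⟨h1, h2⟩ i
        rcases Fin.eq_self_or_eq_succAbove k i with rfl | ⟨j, rfl⟩
        · rw [Pi.sub_apply, Pi.single_eq_same, Fin.insertNth_apply_same]; exact h1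
        · rw [Pi.sub_apply, Pi.single_eq_of_ne (Fin.succAbove_ne k j), sub_zero,
            Fin.insertNth_apply_succAbove]
          exact h2 j
    have hup : ∀ y : Fin n → ℝ, Function.update (k.insertNth (α := fun _ => ℝ) t y) k σ
        = k.insertNth (α := fun _ => ℝ) σ y := by
      intro y
      funext i
      rcases Fin.eq_self_or_eq_succAbove k i with rfl | ⟨j, rfl⟩
      · rw [Function.update_self, Fin.insertNth_apply_same]
      · rw [Function.update_of_ne (Fin.succAbove_ne k j), Fin.insertNth_apply_succAbove,
          Fin.insertNth_apply_succAbove]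
    by_cases ht : |t - σ| ≤ 1
    · rw [indicator_of_mem (show t ∈ {t : ℝ | |t - σ| ≤ 1} from ht), hI,
        ← lintegral_indicator isClosed_closedBall.measurableSet]
      refine lintegral_congr fun y => ?_
      by_cases hy : y ∈ closedBall (0 : Fin n → ℝ) 1
      · rw [indicator_of_mem hy, indicator_of_mem ((hmem y).2 ⟨ht, hy⟩)]
        show H (Function.update (k.insertNth (α := fun _ => ℝ) t y) k σ) = _
        rw [hup]
      · rw [indicator_of_notMem hy, indicator_of_notMem fun h => hy ((hmem y).1 h).2]
    · rw [indicator_of_notMem (show t ∉ {t : ℝ | |t - σ| ≤ 1} from ht)]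
      have : ∀ y : Fin n → ℝ, (closedBall (Pi.single k σ : Fin (n + 1) → ℝ) 1).indicator
          (fun x => H (Function.update x k σ)) (k.insertNth (α := fun _ => ℝ) t y) = 0 :=
        fun y => indicator_of_notMem (fun h => ht ((hmem y).1 h).1) _
      simp only [this, lintegral_zero]
  rw [hR]
  refine hL.trans (lintegral_mono fun t => ?_)
  refine indicator_le_indicator_of_subset ?_ (fun _ => zero_le) t
  intro t ht
  have ht : σ * t ∈ Icc (1 / 2 : ℝ) 1 := ht
  show |t - σ| ≤ 1
  rw [abs_le]
  rcases hσ with rfl | rfl
  · constructor <;> linarith [ht.1, ht.2]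
  · constructor <;> linarith [ht.1, ht.2]

end P073.H950
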