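import Vale.Agent.P073.H696.BSpec
import Vale.Agent.P073.H235.RedP2

/-!
# P073, block B09, [SUMF]: the interface of Round 1 and the top statement

`SpecSt1` is what the final assembly needs from Round 1 (blocks L4, L5).  The order of the choices:
`C₂, E₀, Eb` (constants) | `c₀, a, ε₁` | `k₁, s, κ₀, μ₀` | `κ, μ` | boxes | `δs` | `r` |
partition `I` of the domain (`Dom`) | `tol` | `h₁`.
-/

open Set Metric Topology Filter MeasureTheory Matrix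
open scoped ENNReal NNReal

namespace Vale.Agent.P073.H950F

open Vale.Agent.P073
open Vale.Agent.P073.St (V Mat)
open Vale.Agent.P073.AB (Idx Part cl FinDist)
open Vale.Agent.P073.H696
open Vale.Agent.P073.H726 (LBOn)
open _root_.P073 (ConHomeo)
open _root_.P073.Net (dyc dyo)

/-- **(L5)** Round 1. `E₀ y`: constant of the solid cubes, `Eb y`: constant of the passive cubes in
the boxes (functions of the point), `C₂`: constant of the cubes outside of the boxes. -/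
def SpecSt1 (p : ℝ) : Prop :=
  ∀ (Ω Λ : Set V) (f : V → V) (F : V → Mat), St.IsBoundedDomain Ω → St.IsBoundedDomain Λ →
    St.IsHomeo Ω Λ f → St.IsSobolev p Ω f F → FinDist Ω F →
  ∃ (C₂ : ℝ) (E₀ Eb : V → ℝ), 0 < C₂ ∧ (∀ y, ‖cl (F y)‖ ^ p ≤ E₀ y) ∧ (∀ y, 0 ≤ Eb y) ∧
  ∀ (c₀ : V → ℝ) (a : V → ℕ) (ε₁ : ℝ), (∀ y, 0 < c₀ y ∧ c₀ y ≤ 1 / 64) → (∀ y, 4 ≤ a y) →
    0 < ε₁ →
  ∃ (k₁ s : V → ℕ) (κ₀ μ₀ : V → ℝ), (∀ y, 0 < κ₀ y ∧ 0 < μ₀ y ∧ 1 / 2 ^ k₁ y ≤ c₀ y ∧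
    2 ≤ k₁ y ∧ a y + k₁ y ≤ s y) ∧
  ∀ (κ μ : V → ℝ), (∀ y, 0 < κ y ∧ κ y ≤ κ₀ y ∧ 0 < μ y ∧ μ y ≤ μ₀ y) →
  ∀ (ε M₀ : ℝ) (c : ℝ≥0∞) (τ φ : V → ℝ) (v : V) (nn : ℕ → ℕ) (K : Set Idx) (x : Idx → V),
    Boxes p ε M₀ c τ φ κ μ s Ω Λ f F v nn K x →
  ∀ δs : V → ℝ, LBOn Ω δs → ∃ r : V → ℝ, LBOn Ω r ∧
  ∀ (εD : ℝ≥0∞) (tolD : Idx → ℝ≥0∞) (I : Set Idx) (N' : Idx → ℕ),
    Dom Ω v (HF p Ω F) K (fun k => k.1 + a (x k)) (fun k => k.1 + s (x k)) r εD tolD I N' →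
    (∀ k ∈ K, tolD k ≤ ENNReal.ofReal ((1 / 2 ^ (k.1 + s (x k))) ^ 3)) →
  ∀ tol : Idx → ℝ≥0∞, (∀ q, tol q ≠ 0) →
  ∃ (Eq : Idx → ℝ) (h₁ : ConHomeo Ω Λ), (∀ q, 0 ≤ Eq q) ∧
    (∀ q, (∀ k ∈ K, ¬ dyc v q.1 q.2 ⊆ dyc v k.1 k.2) → Eq q ≤ C₂) ∧
    (∀ k ∈ K, ∀ q : Idx, dyc v q.1 q.2 ⊆ dyc v k.1 k.2 → Eq q ≤ Eb (x k)) ∧
    St1 p ε₁ Ω Λ f F v (HF p Ω F) K x (fun k => k.1 + a (x k)) (fun k => c₀ (x k))
      (fun k => E₀ (x k)) Eq δs tol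
      (part1 v K (fun k => k.1 + a (x k)) (fun k => k₁ (x k)) I)
      (solid v K (fun k => k.1 + a (x k))
        (part1 v K (fun k => k.1 + a (x k)) (fun k => k₁ (x k)) I)) h₁

end Vale.Agent.P073.H950F
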